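import Vale.Agent.P244.MathlibUsed
attribute [-instance] ProperSMul.toContinuousSMul IsTopologicalTorsor.toContinuousSMul IdemSemiring.toCanonicallyOrderedAdd IdemSemiring.toMulLeftMono IdemSemiring.toMulRightMono AddQuantale.instAddLeftMono AddQuantale.instAddRightMono Quantale.instMulLeftMono Quantale.instMulRightMono FiniteDimensional.rclike_to_real IsScalarTower.complexToReal FiniteDimensional.complexToReal

set_option linter.all false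

section

section

/-! Smooth functions on `[-1,1] x [0,T)` as a differential algebra, and first-touch lemmas. -/

open Set Topology Filter
open scoped ContDiff

namespace Vale.Agent.P244.BB

/-- space-time domain -/
def dom (T : ℝ) : Set (ℝ × ℝ) := Icc (-1) 1 ×ˢ Ico 0 T

lemma dom_uniqueDiff (T : ℝ) : UniqueDiffOn ℝ (dom T) :=
  (uniqueDiffOn_Icc (by norm_num)).prod (uniqueDiffOn_Ico 0 T)

lemma mem_dom {T z t : ℝ} (hz : z ∈ Icc (-1 : ℝ) 1) (ht : t ∈ Ico 0 T) : (z, t) ∈ dom T :=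
  ⟨hz, ht⟩

/-- smooth functions on the domain -/
def smoothAlg (T : ℝ) : Subalgebra ℝ (dom T → ℝ) where
  carrier := {f | ∃ F : ℝ × ℝ → ℝ, ContDiffOn ℝ ∞ F (dom T) ∧ ∀ p : dom T, f p = F p}
  mul_mem' := by
    rintro f g ⟨F, hF, hfF⟩ ⟨G, hG, hgG⟩
    exact ⟨fun p => F p * G p, hF.mul hG, fun p => by simp [hfF p, hgG p]⟩
  add_mem' := by
    rintro f g ⟨F, hF, hfF⟩ ⟨G, hG, hgG⟩
    exact ⟨fun p => F p + G p, hF.add hG, fun p => by simp [hfF p, hgG p]⟩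
  algebraMap_mem' := by
    intro r
    exact ⟨fun _ => r, contDiffOn_const, fun p => by simp⟩

variable {T : ℝ}

/-- extension by zero -/
noncomputable def ext (f : smoothAlg T) : ℝ × ℝ → ℝ :=
  open Classical in fun p => if h : p ∈ dom T then f.1 ⟨p, h⟩ else 0

lemma ext_apply (f : smoothAlg T) {p : ℝ × ℝ} (h : p ∈ dom T) : ext f p = f.1 ⟨p, h⟩ := by
  simp [ext, h]

lemma ext_contDiffOn (f : smoothAlg T) : ContDiffOn ℝ ∞ (ext f) (dom T) := by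
  obtain ⟨F, hF, hfF⟩ := f.2
  refine hF.congr fun p hp => ?_
  rw [ext_apply f hp, hfF]

lemma ext_diff (f : smoothAlg T) {p : ℝ × ℝ} (hp : p ∈ dom T) :
    DifferentiableWithinAt ℝ (ext f) (dom T) p :=
  ((ext_contDiffOn f).differentiableOn (by simp)) p hp

lemma ext_add (f g : smoothAlg T) (p : ℝ × ℝ) : ext (f + g) p = ext f p + ext g p := by
  by_cases h : p ∈ dom T <;> simp [ext, h]

lemma ext_mul (f g : smoothAlg T) (p : ℝ × ℝ) : ext (f * g) p = ext f p * ext g p := by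
  by_cases h : p ∈ dom T <;> simp [ext, h]

lemma ext_smul (c : ℝ) (f : smoothAlg T) (p : ℝ × ℝ) : ext (c • f) p = c * ext f p := by
  by_cases h : p ∈ dom T <;> simp [ext, h]

lemma ext_sub (f g : smoothAlg T) (p : ℝ × ℝ) : ext (f - g) p = ext f p - ext g p := by
  by_cases h : p ∈ dom T <;> simp [ext, h]

lemma ext_neg (f : smoothAlg T) (p : ℝ × ℝ) : ext (-f) p = -ext f p := by
  by_cases h : p ∈ dom T <;> simp [ext, h]

lemma smooth_ext {f g : smoothAlg T} (h : ∀ p ∈ dom T, ext f p = ext g p) : f = g := by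
  apply Subtype.ext
  funext p
  have := h p.1 p.2
  rwa [ext_apply f p.2, ext_apply g p.2] at this

/-- element of the algebra from a smooth function -/
def mkS (F : ℝ × ℝ → ℝ) (hF : ContDiffOn ℝ ∞ F (dom T)) : smoothAlg T :=
  ⟨fun p => F p, F, hF, fun _ => rfl⟩

lemma ext_mkS {F : ℝ × ℝ → ℝ} (hF : ContDiffOn ℝ ∞ F (dom T)) {p : ℝ × ℝ} (hp : p ∈ dom T) :
    ext (mkS F hF) p = F p := by
  rw [ext_apply _ hp]; rfl

/-- partial derivative in direction `v` -/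
noncomputable def pd (v : ℝ × ℝ) (f : smoothAlg T) : smoothAlg T :=
  mkS (fun p => fderivWithin ℝ (ext f) (dom T) p v)
    (((ext_contDiffOn f).fderivWithin (dom_uniqueDiff T) (by simp)).clm_apply contDiffOn_const)

lemma ext_pd (v : ℝ × ℝ) (f : smoothAlg T) {p : ℝ × ℝ} (hp : p ∈ dom T) :
    ext (pd v f) p = fderivWithin ℝ (ext f) (dom T) p v := ext_mkS _ hp

/-- partial derivative as a derivation -/
noncomputable def pdD (v : ℝ × ℝ) : Derivation ℝ (smoothAlg T) (smoothAlg T) :=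
  Derivation.mk'
    { toFun := pd v
      map_add' := by
        intro f g
        apply smooth_ext
        intro p hp
        rw [ext_pd v _ hp, ext_add, ext_pd v _ hp, ext_pd v _ hp]
        have : ext (f + g) = fun p => ext f p + ext g p := by funext p; exact ext_add f g p
        rw [this, fderivWithin_fun_add (dom_uniqueDiff T p hp) (ext_diff f hp) (ext_diff g hp)]
        simp
      map_smul' := by
        intro c f
        apply smooth_ext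
        intro p hp
        rw [ext_pd v _ hp, RingHom.id_apply, ext_smul, ext_pd v _ hp]
        have : ext (c • f) = fun p => c * ext f p := by funext p; exact ext_smul c f p
        rw [this, fderivWithin_const_mul (dom_uniqueDiff T p hp) (ext_diff f hp) c]
        simp }
    (by
      intro f g
      apply smooth_ext
      intro p hp
      simp only [LinearMap.coe_mk, AddHom.coe_mk, smul_eq_mul]
      rw [ext_pd v _ hp, ext_add, ext_mul, ext_mul, ext_pd v _ hp, ext_pd v _ hp]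
      have : ext (f * g) = fun p => ext f p * ext g p := by funext p; exact ext_mul f g p
      rw [this, fderivWithin_fun_mul (dom_uniqueDiff T p hp) (ext_diff f hp) (ext_diff g hp)]
      simp)

lemma dom_subset_closure : dom T ⊆ closure (interior (dom T)) := by
  intro p hp
  have hT : 0 < T := lt_of_le_of_lt hp.2.1 hp.2.2
  have h1 : interior (dom T) = Ioo (-1) 1 ×ˢ Ioo 0 T := by
    rw [dom, interior_prod_eq, interior_Icc, interior_Ico]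
  rw [h1, closure_prod_eq, closure_Ioo (by norm_num), closure_Ioo hT.ne]
  exact ⟨hp.1, ⟨hp.2.1, hp.2.2.le⟩⟩

lemma pd_comm (v w : ℝ × ℝ) (f : smoothAlg T) : pd v (pd w f) = pd w (pd v f) := by
  apply smooth_ext
  intro p hp
  have hU := dom_uniqueDiff T
  have key : ∀ v w : ℝ × ℝ, ext (pd v (pd w f)) p =
      fderivWithin ℝ (fderivWithin ℝ (ext f) (dom T)) (dom T) p v w := by
    intro v w
    rw [ext_pd v _ hp]
    have e : EqOn (ext (pd w f)) (fun p => fderivWithin ℝ (ext f) (dom T) p w) (dom T) :=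
      fun p hp => ext_pd w f hp
    rw [fderivWithin_congr e (e hp)]
    have hd : DifferentiableWithinAt ℝ (fderivWithin ℝ (ext f) (dom T)) (dom T) p :=
      (((ext_contDiffOn f).fderivWithin (m := ∞) hU (by simp)).differentiableOn (by simp)) p hp
    rw [fderivWithin_clm_apply (hU p hp) hd (differentiableWithinAt_const w)]
    simp
  rw [key, key]
  have hs : IsSymmSndFDerivWithinAt ℝ (ext f) (dom T) p :=
    ((ext_contDiffOn f) p hp).isSymmSndFDerivWithinAt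
      (by rw [minSmoothness_of_isRCLikeNormedField]; exact WithTop.coe_le_coe.2 le_top) hU (dom_subset_closure hp) hp
  exact hs v w

/-- x-derivative -/
noncomputable def dz (f : smoothAlg T) : smoothAlg T := pd (1, 0) f

/-- t-derivative -/
noncomputable def dt (f : smoothAlg T) : smoothAlg T := pd (0, 1) f

lemma hasDerivWithinAt_z (f : smoothAlg T) {z t : ℝ} (hz : z ∈ Icc (-1 : ℝ) 1)
    (ht : t ∈ Ico 0 T) :
    HasDerivWithinAt (fun z => ext f (z, t)) (ext (dz f) (z, t)) (Icc (-1) 1) z := by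
  have hp := mem_dom hz ht
  have h1 := (ext_diff f hp).hasFDerivWithinAt
  have h2 : HasDerivWithinAt (fun z : ℝ => (z, t)) ((1 : ℝ), (0 : ℝ)) (Icc (-1) 1) z :=
    (hasDerivWithinAt_id z _).prodMk (hasDerivWithinAt_const z _ t)
  have h3 := h1.comp_hasDerivWithinAt z h2 (fun w hw => mem_dom hw ht)
  rw [dz, ext_pd _ _ hp]
  exact h3

lemma hasDerivWithinAt_t (f : smoothAlg T) {z t : ℝ} (hz : z ∈ Icc (-1 : ℝ) 1)
    (ht : t ∈ Ico 0 T) :
    HasDerivWithinAt (fun s => ext f (z, s)) (ext (dt f) (z, t)) (Ico 0 T) t := by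
  have hp := mem_dom hz ht
  have h1 := (ext_diff f hp).hasFDerivWithinAt
  have h2 : HasDerivWithinAt (fun s : ℝ => (z, s)) ((0 : ℝ), (1 : ℝ)) (Ico 0 T) t :=
    (hasDerivWithinAt_const t _ z).prodMk (hasDerivWithinAt_id t _)
  have h3 := h1.comp_hasDerivWithinAt t h2 (fun w hw => mem_dom hz hw)
  rw [dt, ext_pd _ _ hp]
  exact h3

lemma hasDerivAt_t (f : smoothAlg T) {z t : ℝ} (hz : z ∈ Icc (-1 : ℝ) 1)
    (ht : t ∈ Ioo 0 T) :
    HasDerivAt (fun s => ext f (z, s)) (ext (dt f) (z, t)) t :=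
  (hasDerivWithinAt_t f hz ⟨ht.1.le, ht.2⟩).hasDerivAt (Ico_mem_nhds ht.1 ht.2)

lemma hasDerivAt_z (f : smoothAlg T) {z t : ℝ} (hz : z ∈ Ioo (-1 : ℝ) 1)
    (ht : t ∈ Ico 0 T) :
    HasDerivAt (fun z => ext f (z, t)) (ext (dz f) (z, t)) z :=
  (hasDerivWithinAt_z f (Ioo_subset_Icc_self hz) ht).hasDerivAt (Icc_mem_nhds hz.1 hz.2)

lemma ext_continuousOn (f : smoothAlg T) : ContinuousOn (ext f) (dom T) :=
  (ext_contDiffOn f).continuousOn

/-- First touch: if `u < φ` at time zero but not always, there is a first contact point. -/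
lemma first_touch {u : ℝ × ℝ → ℝ} {φ : ℝ → ℝ} (hu : ContinuousOn u (dom T))
    (hφ : ContinuousOn φ (Ico 0 T)) (h0 : ∀ z ∈ Icc (-1 : ℝ) 1, u (z, 0) < φ 0)
    {z₁ t₁ : ℝ} (hz₁ : z₁ ∈ Icc (-1 : ℝ) 1) (ht₁ : t₁ ∈ Ico 0 T) (h1 : φ t₁ ≤ u (z₁, t₁)) :
    ∃ z₀ ∈ Icc (-1 : ℝ) 1, ∃ t₀ ∈ Ioc 0 t₁, u (z₀, t₀) = φ t₀ ∧
      (∀ z ∈ Icc (-1 : ℝ) 1, ∀ s ∈ Icc 0 t₀, u (z, s) ≤ φ s) ∧
      (∀ z ∈ Icc (-1 : ℝ) 1, ∀ s ∈ Ico 0 t₀, u (z, s) < φ s) := by
  classical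
  set K : Set (ℝ × ℝ) := Icc (-1) 1 ×ˢ Icc 0 t₁ with hK
  have hKd : K ⊆ dom T := fun p hp => ⟨hp.1, ⟨hp.2.1, lt_of_le_of_lt hp.2.2 ht₁.2⟩⟩
  have hKc : IsCompact K := isCompact_Icc.prod isCompact_Icc
  set w : ℝ × ℝ → ℝ := fun p => u p - φ p.2 with hw
  have hwc : ContinuousOn w K := by
    refine (hu.mono hKd).sub (hφ.comp continuousOn_snd ?_)
    intro p hp; exact (hKd hp).2
  set B : Set (ℝ × ℝ) := K ∩ w ⁻¹' (Ici 0) with hB
  have hBc : IsCompact B := by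
    have : IsClosed B := hwc.preimage_isClosed_of_isClosed hKc.isClosed isClosed_Ici
    exact hKc.of_isClosed_subset this inter_subset_left
  have hBn : B.Nonempty := ⟨(z₁, t₁), ⟨⟨hz₁, ⟨ht₁.1, le_rfl⟩⟩, by simp [hw]; linarith⟩⟩
  obtain ⟨p₀, hp₀, hmin⟩ := hBc.exists_isMinOn hBn continuous_snd.continuousOn
  have hlt : ∀ z ∈ Icc (-1 : ℝ) 1, ∀ s ∈ Ico 0 p₀.2, u (z, s) < φ s := by
    intro z hz s hs
    by_contra hcon
    push Not at hcon
    have hin : (z, s) ∈ B := by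
      refine ⟨⟨hz, ⟨hs.1, (hs.2.trans_le hp₀.1.2.2).le⟩⟩, ?_⟩
      simp [hw]; linarith
    have := hmin hin
    simp at this
    exact absurd hs.2 (not_lt.2 this)
  have hpos : 0 < p₀.2 := by
    rcases hp₀.1.2.1.eq_or_lt with h | h
    · exfalso
      have h2 := h0 p₀.1 hp₀.1.1
      have h3 : 0 ≤ w p₀ := hp₀.2
      simp only [hw] at h3
      have h4 : p₀ = (p₀.1, 0) := by rw [h]
      rw [← h] at h3
      rw [← h4] at h2
      linarith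
    · exact h
  have hT0 : p₀.2 < T := lt_of_le_of_lt hp₀.1.2.2 ht₁.2
  have hle : ∀ z ∈ Icc (-1 : ℝ) 1, u (z, p₀.2) ≤ φ p₀.2 := by
    intro z hz
    by_contra hcon
    push Not at hcon
    have hc1 : ContinuousWithinAt (fun s => u (z, s) - φ s) (Icc 0 t₁) p₀.2 := by
      have h5 : ContinuousOn (fun s => w (z, s)) (Icc 0 t₁) := by
        refine hwc.comp (by fun_prop) ?_
        intro s hs; exact ⟨hz, hs⟩
      exact h5 p₀.2 hp₀.1.2
    have hc2 : ContinuousWithinAt (fun s => u (z, s) - φ s) (Ico 0 p₀.2) p₀.2 :=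
      hc1.mono (fun s hs => ⟨hs.1, (hs.2.trans_le hp₀.1.2.2).le⟩)
    have hcl : p₀.2 ∈ closure (Ico 0 p₀.2) := by
      rw [closure_Ico hpos.ne]; exact ⟨hpos.le, le_rfl⟩
    have : (𝓝[Ico 0 p₀.2] p₀.2).NeBot := mem_closure_iff_nhdsWithin_neBot.1 hcl
    have h6 : u (z, p₀.2) - φ p₀.2 ≤ 0 := by
      refine le_of_tendsto hc2.tendsto ?_
      filter_upwards [self_mem_nhdsWithin] with s hs
      linarith [hlt z hz s hs]
    linarith
  refine ⟨p₀.1, hp₀.1.1, p₀.2, ⟨hpos, hp₀.1.2.2⟩, ?_, ?_, hlt⟩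
  · have h3 : 0 ≤ w p₀ := hp₀.2
    simp only [hw] at h3
    exact le_antisymm (hle _ hp₀.1.1) (by linarith)
  · intro z hz s hs
    rcases hs.2.eq_or_lt with h | h
    · rw [h]; exact hle z hz
    · exact (hlt z hz s ⟨hs.1, h⟩).le

/-- time derivative at a touching point -/
lemma time_ineq (f : smoothAlg T) {φ : ℝ → ℝ} {φ' z t : ℝ} (hz : z ∈ Icc (-1 : ℝ) 1)
    (ht : t ∈ Ioo 0 T) (hφ : HasDerivAt φ φ' t) (h1 : ext f (z, t) = φ t)
    (h2 : ∀ᶠ s in 𝓝[<] t, ext f (z, s) ≤ φ s) : φ' ≤ ext (dt f) (z, t) := by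
  have hd : HasDerivAt (fun s => φ s - ext f (z, s)) (φ' - ext (dt f) (z, t)) t :=
    hφ.sub (hasDerivAt_t f hz ht)
  have hd2 : HasDerivWithinAt (fun s => φ s - ext f (z, s)) (φ' - ext (dt f) (z, t)) (Iio t) t :=
    hd.hasDerivWithinAt
  rw [hasDerivWithinAt_iff_tendsto_slope] at hd2
  have hne : (Iio t \ {t} : Set ℝ) = Iio t := by ext x; simp
  rw [hne] at hd2
  have : φ' - ext (dt f) (z, t) ≤ 0 := by
    refine le_of_tendsto hd2 ?_
    filter_upwards [h2, self_mem_nhdsWithin] with s hs hst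
    rw [slope_def_field]
    have h3 : s - t < 0 := by have : s < t := hst; linarith
    apply div_nonpos_of_nonneg_of_nonpos
    · rw [h1]; linarith
    · exact h3.le
  linarith

/-- space derivatives at a local maximum -/
lemma space_ineq (f : smoothAlg T) {z t : ℝ} (hz : z ∈ Icc (-1 : ℝ) 1) (ht : t ∈ Ico 0 T)
    (h2 : ∀ᶠ w in 𝓝[Icc (-1) 1] z, ext f (w, t) ≤ ext f (z, t)) :
    (z = -1 ∧ ext (dz f) (z, t) ≤ 0) ∨ (z = 1 ∧ 0 ≤ ext (dz f) (z, t)) ∨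
    (z ∈ Ioo (-1 : ℝ) 1 ∧ ext (dz f) (z, t) = 0 ∧ ext (dz (dz f)) (z, t) ≤ 0) := by
  have hd := hasDerivWithinAt_z f hz ht
  rcases hz.1.eq_or_lt with hl | hl
  · left
    refine ⟨hl.symm, ?_⟩
    rw [hasDerivWithinAt_iff_tendsto_slope] at hd
    have hm : z ∈ closure (Icc (-1 : ℝ) 1 \ {z}) := by
      have h3 : Ioc z 1 ⊆ Icc (-1 : ℝ) 1 \ {z} := by
        intro x hx; exact ⟨⟨by linarith [hx.1], hx.2⟩, by simp; exact (ne_of_gt hx.1)⟩
      refine closure_mono h3 ?_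
      rw [closure_Ioc (by linarith)]; exact ⟨le_rfl, by linarith⟩
    have : (𝓝[Icc (-1 : ℝ) 1 \ {z}] z).NeBot := mem_closure_iff_nhdsWithin_neBot.1 hm
    refine le_of_tendsto hd ?_
    have h4 : ∀ᶠ w in 𝓝[Icc (-1) 1 \ {z}] z, ext f (w, t) ≤ ext f (z, t) :=
      h2.filter_mono (nhdsWithin_mono z sdiff_subset)
    filter_upwards [h4, self_mem_nhdsWithin] with w hw hwz
    rw [slope_def_field]
    have h5 : z < w := by
      rcases lt_or_eq_of_le (hl ▸ hwz.1.1 : z ≤ w) with h | h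
      · exact h
      · exact absurd h.symm hwz.2
    apply div_nonpos_of_nonpos_of_nonneg <;> linarith
  rcases hz.2.eq_or_lt with hr | hr
  · right; left
    refine ⟨hr, ?_⟩
    rw [hasDerivWithinAt_iff_tendsto_slope] at hd
    have hm : z ∈ closure (Icc (-1 : ℝ) 1 \ {z}) := by
      have h3 : Ico (-1) z ⊆ Icc (-1 : ℝ) 1 \ {z} := by
        intro x hx; exact ⟨⟨hx.1, by linarith [hx.2]⟩, by simp; exact (ne_of_lt hx.2)⟩
      refine closure_mono h3 ?_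
      rw [closure_Ico (by linarith)]; exact ⟨by linarith, le_rfl⟩
    have : (𝓝[Icc (-1 : ℝ) 1 \ {z}] z).NeBot := mem_closure_iff_nhdsWithin_neBot.1 hm
    refine ge_of_tendsto hd ?_
    have h4 : ∀ᶠ w in 𝓝[Icc (-1) 1 \ {z}] z, ext f (w, t) ≤ ext f (z, t) :=
      h2.filter_mono (nhdsWithin_mono z sdiff_subset)
    filter_upwards [h4, self_mem_nhdsWithin] with w hw hwz
    rw [slope_def_field]
    have h5 : w < z := by
      rcases lt_or_eq_of_le (hr ▸ hwz.1.2 : w ≤ z) with h | h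
      · exact h
      · exact absurd h hwz.2
    apply div_nonneg_of_nonpos <;> linarith
  · right; right
    have hzo : z ∈ Ioo (-1 : ℝ) 1 := ⟨hl, hr⟩
    have hnh : Icc (-1 : ℝ) 1 ∈ 𝓝 z := Icc_mem_nhds hl hr
    have hmax : IsLocalMax (fun w => ext f (w, t)) z := by
      have : 𝓝[Icc (-1) 1] z = 𝓝 z := nhdsWithin_eq_nhds.2 hnh
      rw [this] at h2
      exact h2
    have h0 : ext (dz f) (z, t) = 0 := hmax.hasDerivAt_eq_zero (hasDerivAt_z f hzo ht)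
    refine ⟨hzo, h0, ?_⟩
    by_contra hcon
    push Not at hcon
    have hev : deriv (fun w => ext f (w, t)) =ᶠ[𝓝 z] fun w => ext (dz f) (w, t) := by
      filter_upwards [Ioo_mem_nhds hl hr] with w hw
      exact (hasDerivAt_z f hw ht).deriv
    have hdd : deriv (deriv (fun w => ext f (w, t))) z = ext (dz (dz f)) (z, t) := by
      rw [hev.deriv_eq]
      exact (hasDerivAt_z (dz f) hzo ht).deriv
    have hmin : IsLocalMin (fun w => ext f (w, t)) z := by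
      refine isLocalMin_of_deriv_deriv_pos (by rw [hdd]; exact hcon) ?_
        (hasDerivAt_z f hzo ht).continuousAt
      rw [hev.eq_of_nhds]; exact h0
    have hconst : (fun w => ext f (w, t)) =ᶠ[𝓝 z] fun _ => ext f (z, t) := by
      filter_upwards [hmax, hmin] with w h3 h4
      exact le_antisymm h3 h4
    have h5 : deriv (fun w => ext f (w, t)) =ᶠ[𝓝 z] fun _ => 0 := by
      have := hconst.deriv
      simpa using this
    have h6 : deriv (deriv (fun w => ext f (w, t))) z = 0 := by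
      rw [h5.deriv_eq]; simp
    rw [hdd] at h6
    linarith

/-- inverse of a nonvanishing element -/
noncomputable def invS (f : smoothAlg T) (hf : ∀ p ∈ dom T, ext f p ≠ 0) : smoothAlg T :=
  mkS (fun p => (ext f p)⁻¹) ((ext_contDiffOn f).inv hf)

lemma ext_invS (f : smoothAlg T) (hf : ∀ p ∈ dom T, ext f p ≠ 0) {p : ℝ × ℝ} (hp : p ∈ dom T) :
    ext (invS f hf) p = (ext f p)⁻¹ := ext_mkS _ hp

lemma ext_one {p : ℝ × ℝ} (hp : p ∈ dom T) : ext (1 : smoothAlg T) p = 1 := by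
  rw [ext_apply _ hp]; rfl

lemma ext_zero (p : ℝ × ℝ) : ext (0 : smoothAlg T) p = 0 := by
  by_cases h : p ∈ dom T <;> simp [ext, h]

lemma mul_invS (f : smoothAlg T) (hf : ∀ p ∈ dom T, ext f p ≠ 0) : f * invS f hf = 1 := by
  apply smooth_ext
  intro p hp
  rw [ext_mul, ext_invS f hf hp, ext_one hp, mul_inv_cancel₀ (hf p hp)]

lemma dz_mul (f g : smoothAlg T) : dz (f * g) = f * dz g + g * dz f :=
  (pdD (T := T) (1, 0)).leibniz f g

lemma dt_mul (f g : smoothAlg T) : dt (f * g) = f * dt g + g * dt f :=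
  (pdD (T := T) (0, 1)).leibniz f g

lemma dt_one : dt (1 : smoothAlg T) = 0 := (pdD (T := T) (0, 1)).map_one_eq_zero

/-- evaluation at a point of the domain, as a ring homomorphism -/
def ev {p : ℝ × ℝ} (hp : p ∈ dom T) : smoothAlg T →+* ℝ where
  toFun f := f.1 ⟨p, hp⟩
  map_one' := rfl
  map_mul' _ _ := rfl
  map_zero' := rfl
  map_add' _ _ := rfl

lemma ev_eq {p : ℝ × ℝ} (hp : p ∈ dom T) (f : smoothAlg T) : ev hp f = ext f p := by
  rw [ext_apply f hp]; rfl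

/-- the constant function -/
def cst (c : ℝ) : smoothAlg T := algebraMap ℝ (smoothAlg T) c

lemma ext_cst (c : ℝ) {p : ℝ × ℝ} (hp : p ∈ dom T) : ext (cst c : smoothAlg T) p = c := by
  rw [ext_apply _ hp]; rfl

end Vale.Agent.P244.BB
end
end

section

section

/-! Differential algebra of the reduced flow. `D` is `d/dy` with `dy = b ds` (momentum coordinate),
`Dt` is the time derivative. -/

set_option linter.unusedSimpArgs false

namespace Vale.Agent.P244.BB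

section num
variable {R : Type*} [CommRing R] [Algebra ℝ R] (D : Derivation ℝ R R)
lemma D_2 : D (2 : R) = 0 := by have := D.map_natCast 2; simpa using this
lemma D_3 : D (3 : R) = 0 := by have := D.map_natCast 3; simpa using this
lemma D_4 : D (4 : R) = 0 := by have := D.map_natCast 4; simpa using this
end num

/-- Abstract data: a commutative ring with derivations `D`, `Dt`, elements `A = a^2`, `h = 1/A`,
`β = b^2`, `ρ = D A / 2`, `q = D β / 2`. -/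
structure FlowAlg (R : Type*) [CommRing R] [Algebra ℝ R] where
  D : Derivation ℝ R R
  Dt : Derivation ℝ R R
  n : ℕ
  A : R
  h : R
  β : R
  ρ : R
  q : R
  hA : A * h = 1
  DA : D A = 2 * ρ
  Dβ : D β = 2 * q

namespace FlowAlg

variable {R : Type*} [CommRing R] [Algebra ℝ R] (F : FlowAlg R)

/-- complex dimension of the base, as a ring element -/
def m : R := (F.n : R)

def y : R := F.β * F.h
def ρ1 : R := F.D F.ρ
def q1 : R := F.D F.q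
def ρ2 : R := F.D F.ρ1
def q2 : R := F.D F.q1
def ρ3 : R := F.D F.ρ2
def q3 : R := F.D F.q2

def K0e : R := -F.q1
def K0B : R := -(F.β * F.ρ1 + F.q * F.ρ) * F.h + F.β * F.ρ ^ 2 * F.h ^ 2
def KeB : R := F.β * F.h ^ 2 - F.ρ * F.q * F.h
def r0 : R := F.K0e + 2 * F.m * F.K0B
def re : R := F.K0e + 2 * F.m * F.KeB
def W : R := F.h * (2 * (F.m + 1) - 3 * F.y - (2 * F.m - 1) * F.y * F.ρ ^ 2)
def rB : R := F.K0B + F.KeB + F.W
def sc : R := F.r0 + F.re + 2 * F.m * F.rB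
def μ : R := F.r0 + F.re
/-- Laplacian on radial functions -/
def Lap (f : R) : R := F.β * F.D (F.D f) + (2 * F.q + 2 * F.m * F.β * F.ρ * F.h) * F.D f
def Ric2 : R := F.r0 ^ 2 + F.re ^ 2 + 2 * F.m * F.rB ^ 2
def Pi : R := F.q + 2 * F.m * F.y * F.ρ - F.m * F.y - (F.m + 1)
def om : R := 2 * F.m * F.h ^ 2 * (F.A * F.ρ1 + 1 - F.ρ ^ 2)

/-- the flow equations -/
structure IsFlow : Prop where
  comm : ∀ f : R, F.Dt (F.D f) = F.D (F.Dt f) + F.μ * F.D f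
  dtA : F.Dt F.A = -2 * F.rB * F.A
  dtβ : F.Dt F.β = -2 * F.re * F.β
  two : ∀ f g : R, 2 * f = 2 * g → f = g

@[simp] lemma D_m : F.D F.m = 0 := by simp [m]

@[simp] lemma Dt_m : F.Dt F.m = 0 := by simp [m]

lemma Dh : F.D F.h = -2 * F.ρ * F.h ^ 2 := by
  have h1 : F.D (F.A * F.h) = 0 := by rw [F.hA]; simp
  rw [Derivation.leibniz, F.DA] at h1
  simp only [smul_eq_mul] at h1
  have h2 := F.hA
  linear_combination F.h * h1 - (F.D F.h) * h2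

lemma Dρ : F.D F.ρ = F.ρ1 := rfl
lemma Dρ1 : F.D F.ρ1 = F.ρ2 := rfl
lemma Dρ2 : F.D F.ρ2 = F.ρ3 := rfl
lemma Dq : F.D F.q = F.q1 := rfl
lemma Dq1 : F.D F.q1 = F.q2 := rfl
lemma Dq2 : F.D F.q2 = F.q3 := rfl

/-- `rB` written out -/
lemma rB_eq : F.rB = -(F.β * F.ρ1) * F.h - 2 * F.ρ * F.q * F.h
    - (2 * F.m - 2) * F.β * F.ρ ^ 2 * F.h ^ 2 + 2 * (F.m + 1) * F.h - 2 * F.β * F.h ^ 2 := by
  simp only [rB, K0B, KeB, W, y]; ring

lemma rBA : F.rB * F.A = -(F.β * F.ρ1) - 2 * F.ρ * F.q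
    - (2 * F.m - 2) * F.β * F.ρ ^ 2 * F.h + 2 * (F.m + 1) - 2 * F.β * F.h := by
  rw [rB_eq]
  linear_combination (-(F.β * F.ρ1) - 2 * F.ρ * F.q
    - (2 * F.m - 2) * F.β * F.ρ ^ 2 * F.h + 2 * (F.m + 1) - 2 * F.β * F.h) * F.hA

lemma re_eq : F.re = -F.q1 + 2 * F.m * (F.β * F.h ^ 2 - F.ρ * F.q * F.h) := by
  simp only [re, K0e, KeB]

lemma r0_eq : F.r0 = -F.q1 + 2 * F.m * (-(F.β * F.ρ1 + F.q * F.ρ) * F.h
    + F.β * F.ρ ^ 2 * F.h ^ 2) := by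
  simp only [r0, K0e, K0B]

/-- first order expression for `R - 2 Ric_00` -/
lemma sc_sub : F.sc - 2 * F.r0 = 2 * F.m * F.h * (2 * (F.m + 1) - F.y
    - (2 * F.m - 1) * F.y * F.ρ ^ 2 - 2 * F.ρ * F.q) := by
  simp only [sc, rB_eq, re_eq, r0_eq, y]; ring

lemma re_sub_r0 : F.re - F.r0 = F.β * F.om := by
  simp only [re_eq, r0_eq, om]
  linear_combination (-2 * F.m * F.h * F.ρ1 * F.β) * F.hA

lemma Dy : F.D F.y = 2 * F.h * (F.q - F.y * F.ρ) := by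
  simp only [y, Derivation.leibniz, smul_eq_mul, F.Dβ, Dh]; ring

section flow
variable (hF : F.IsFlow)
include hF

lemma Dth : F.Dt F.h = 2 * F.rB * F.h := by
  have h1 : F.Dt (F.A * F.h) = 0 := by rw [F.hA]; simp
  rw [Derivation.leibniz, hF.dtA] at h1
  simp only [smul_eq_mul] at h1
  have h2 := F.hA
  linear_combination F.h * h1 - (F.Dt F.h) * h2 + 2 * F.rB * F.h * h2

lemma Dtρ : F.Dt F.ρ = F.β * F.ρ2 + (4 * F.q + (2 * F.m - 4) * F.β * F.ρ * F.h) * F.ρ1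
    + 2 * (1 - F.ρ ^ 2) * F.h * (2 * F.q + (F.m - 2) * F.y * F.ρ) := by
  apply hF.two
  have h1 : F.Dt (F.D F.A) = F.D (F.Dt F.A) + F.μ * F.D F.A := hF.comm F.A
  have h2 : F.Dt F.A = -2 * (-(F.β * F.ρ1) - 2 * F.ρ * F.q
    - (2 * F.m - 2) * F.β * F.ρ ^ 2 * F.h + 2 * (F.m + 1) - 2 * F.β * F.h) := by
    rw [hF.dtA, ← rBA]; ring
  rw [F.DA, h2] at h1
  simp only [map_sub, map_add, map_neg, Derivation.leibniz, Derivation.leibniz_pow, smul_eq_mul,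
    D_m, D_2, D_3, D_4, Derivation.map_one_eq_zero, map_zero, Dρ, Dq, Dρ1, F.Dβ, Dh, μ, r0_eq, re_eq, nsmul_eq_mul,
    Nat.cast_ofNat] at h1
  simp only [y]
  linear_combination h1

lemma Dtq : F.Dt F.q = F.β * F.q2 + 2 * F.m * F.β * F.ρ * F.h * F.q1
    - 2 * F.m * F.β * F.h ^ 2 * (F.ρ ^ 2 * F.q + 3 * F.q - 4 * F.y * F.ρ) := by
  apply hF.two
  have h1 : F.Dt (F.D F.β) = F.D (F.Dt F.β) + F.μ * F.D F.β := hF.comm F.β
  rw [F.Dβ, hF.dtβ] at h1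
  simp only [map_sub, map_add, map_neg, Derivation.leibniz, Derivation.leibniz_pow, smul_eq_mul,
    D_m, D_2, D_3, D_4, Derivation.map_one_eq_zero, map_zero, Dρ, Dq, Dρ1, Dq1, F.Dβ, Dh, μ, r0_eq, re_eq,
    nsmul_eq_mul, Nat.cast_ofNat] at h1
  simp only [y]
  linear_combination h1

lemma Dty : F.Dt F.y = F.β * F.D (F.D F.y) + F.β * (2 * (F.m + 1) * F.ρ * F.h) * F.D F.y
    + 4 * (F.m + 1) * F.y * (1 - F.y) * F.h := by
  have h1 : F.Dt F.y = 2 * F.y * (F.rB - F.re) := by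
    simp only [y, Derivation.leibniz, smul_eq_mul, Dth F hF, hF.dtβ]; ring
  rw [h1, Dy]
  simp only [map_sub, map_add, map_neg, Derivation.leibniz, Derivation.leibniz_pow, smul_eq_mul,
    D_m, D_2, D_3, D_4, Derivation.map_one_eq_zero, map_zero, Dρ, Dq, Dρ1, Dq1, F.Dβ, Dh, Dy, μ, rB_eq, re_eq,
    nsmul_eq_mul, Nat.cast_ofNat]
  simp only [y]
  ring

lemma DtA : F.Dt F.A = F.β * F.D (F.D F.A) + (2 * F.q + (2 * F.m - 2) * F.β * F.ρ * F.h) * F.D F.A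
    - 4 * (F.m + 1) + 4 * F.y := by
  rw [hF.dtA, F.DA]
  simp only [Derivation.leibniz, smul_eq_mul, D_2, Dρ, y]
  linear_combination (-2) * F.rBA

/-- `g = (1 - s ρ)/A` -/
lemma Dtg (s : R) (hs : s ^ 2 = 1) (hDs : F.D s = 0) (hDts : F.Dt s = 0) :
    F.Dt ((1 - s * F.ρ) * F.h) = F.β * F.D (F.D ((1 - s * F.ρ) * F.h))
      + (4 * F.q + 2 * F.m * F.β * F.ρ * F.h) * F.D ((1 - s * F.ρ) * F.h)
      - (1 - s * F.ρ) * F.h ^ 2 * (4 * (s * F.q + 2 * F.m * F.y * (s * F.ρ) - F.m * F.y - (F.m + 1))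
        + F.y * (1 - s * F.ρ) * (2 * F.m + 4 + 2 * F.m * (1 - s * F.ρ))) := by
  simp only [map_sub, map_add, map_neg, Derivation.leibniz, Derivation.leibniz_pow, smul_eq_mul,
    D_m, D_2, D_3, D_4, Derivation.map_one_eq_zero, map_zero, Dρ, Dq, Dρ1, Dq1, F.Dβ, Dh, Dy, rB_eq,
    Dth F hF, Dtρ F hF, hDs, hDts,
    nsmul_eq_mul, Nat.cast_ofNat]
  simp only [y]
  linear_combination (-2 * F.m * s * F.ρ ^ 3 * F.β * F.h ^ 3 - 4 * F.ρ * F.h ^ 2 * F.q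
    + 4 * F.ρ ^ 2 * F.β * F.h ^ 3) * hs

lemma Dtρ1 : F.Dt F.ρ1 = F.D (F.β * F.ρ2 + (4 * F.q + (2 * F.m - 4) * F.β * F.ρ * F.h) * F.ρ1
    + 2 * (1 - F.ρ ^ 2) * F.h * (2 * F.q + (F.m - 2) * F.y * F.ρ)) + F.μ * F.ρ1 := by
  rw [← Dtρ F hF]; exact hF.comm F.ρ

lemma Dtq1 : F.Dt F.q1 = F.D (F.β * F.q2 + 2 * F.m * F.β * F.ρ * F.h * F.q1
    - 2 * F.m * F.β * F.h ^ 2 * (F.ρ ^ 2 * F.q + 3 * F.q - 4 * F.y * F.ρ)) + F.μ * F.q1 := by
  rw [← Dtq F hF]; exact hF.comm F.q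

lemma Dtr0 : F.Dt F.r0 = F.Lap F.r0 + 2 * F.K0e * F.re + 4 * F.m * F.K0B * F.rB
    + 2 * F.q ^ 2 * F.om - 4 * F.m * F.β * F.h ^ 2 * F.ρ ^ 2 * (F.r0 - F.rB) := by
  simp only [Lap, r0_eq, K0e, K0B]
  simp only [map_sub, map_add, map_neg, Derivation.leibniz, Derivation.leibniz_pow, smul_eq_mul,
    D_m, Dt_m, D_2, D_3, D_4, Derivation.map_one_eq_zero, map_zero, Dρ, Dq, Dρ1, Dq1, Dρ2, Dq2, F.Dβ, Dh, Dy,
    rB_eq, re_eq, Dth F hF, hF.dtβ, Dtρ F hF, Dtq F hF, Dtρ1 F hF, Dtq1 F hF, μ, r0_eq,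
    nsmul_eq_mul, Nat.cast_ofNat]
  simp only [y, om]
  linear_combination (-4 * F.m * F.q ^ 2 * F.h * F.ρ1) * F.hA

lemma Dtre : F.Dt F.re = F.Lap F.re + 2 * F.K0e * F.r0 + 4 * F.m * F.KeB * F.rB
    - 2 * F.q ^ 2 * F.om + 4 * F.m * F.β * F.h ^ 2 * (F.rB - F.re) := by
  simp only [Lap, re_eq, K0e, KeB]
  simp only [map_sub, map_add, map_neg, Derivation.leibniz, Derivation.leibniz_pow, smul_eq_mul,
    D_m, Dt_m, D_2, D_3, D_4, Derivation.map_one_eq_zero, map_zero, Dρ, Dq, Dρ1, Dq1, Dρ2, Dq2,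
    F.Dβ, Dh, Dy,
    rB_eq, re_eq, Dth F hF, hF.dtβ, Dtρ F hF, Dtq F hF, Dtρ1 F hF, Dtq1 F hF, μ, r0_eq,
    nsmul_eq_mul, Nat.cast_ofNat]
  simp only [y, om]
  linear_combination (4 * F.m * F.q ^ 2 * F.h * F.ρ1) * F.hA

lemma DtrB : F.Dt F.rB = F.Lap F.rB + 2 * F.K0B * F.r0 + 2 * F.KeB * F.re
    + 2 * (F.rB - F.K0B - F.KeB) * F.rB
    + 2 * F.β * F.h ^ 2 * F.ρ ^ 2 * (F.r0 - F.rB) + 2 * F.β * F.h ^ 2 * (F.re - F.rB) := by
  simp only [Lap, rB_eq, K0B, KeB]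
  simp only [map_sub, map_add, map_neg, Derivation.leibniz, Derivation.leibniz_pow, smul_eq_mul,
    D_m, Dt_m, D_2, D_3, D_4, Derivation.map_one_eq_zero, map_zero, Dρ, Dq, Dρ1, Dq1, Dρ2, Dq2,
    F.Dβ, Dh, Dy,
    rB_eq, re_eq, Dth F hF, hF.dtβ, Dtρ F hF, Dtq F hF, Dtρ1 F hF, Dtq1 F hF, μ, r0_eq,
    nsmul_eq_mul, Nat.cast_ofNat]
  simp only [y, om]
  ring

end flow

lemma Lap_add (f g : R) : F.Lap (f + g) = F.Lap f + F.Lap g := by
  simp only [Lap, map_add]; ring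

lemma Lap_mul (f g : R) : F.Lap (f * g) = f * F.Lap g + g * F.Lap f
    + 2 * F.β * F.D f * F.D g := by
  simp only [Lap, map_add, Derivation.leibniz, smul_eq_mul]; ring

lemma Lap_const_mul (c f : R) (hc : F.D c = 0) : F.Lap (c * f) = c * F.Lap f := by
  rw [Lap_mul]; simp [Lap, hc]

lemma D_two_m : F.D (2 * F.m) = 0 := by
  simp [Derivation.leibniz, D_2]

/-- the reaction term of `|Ric|^2` divided by four -/
def Q3 : R := 2 * F.K0e * F.r0 * F.re + 4 * F.m * F.K0B * F.r0 * F.rB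
  + 4 * F.m * F.KeB * F.re * F.rB + 2 * F.m * (F.rB - F.K0B - F.KeB) * F.rB ^ 2

/-- `|D Ric|^2` for the diagonal components -/
def G3 : R := (F.D F.r0) ^ 2 + (F.D F.re) ^ 2 + 2 * F.m * (F.D F.rB) ^ 2

lemma DRic2 : F.D F.Ric2 = 2 * (F.r0 * F.D F.r0 + F.re * F.D F.re
    + 2 * F.m * (F.rB * F.D F.rB)) := by
  simp only [Ric2, map_add, Derivation.leibniz, Derivation.leibniz_pow, smul_eq_mul, D_m, D_2,
    nsmul_eq_mul, Nat.cast_ofNat]
  ring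

section flow2
variable (hF : F.IsFlow)
include hF

lemma Dtsc : F.Dt F.sc = F.Lap F.sc + 2 * F.Ric2 := by
  simp only [sc, map_add, Lap_add, Derivation.leibniz, smul_eq_mul, Dtr0 F hF, Dtre F hF,
    DtrB F hF, Dt_m, D_2]
  rw [Lap_const_mul _ _ _ (D_two_m F)]
  have h0 : F.r0 = F.K0e + 2 * F.m * F.K0B := rfl
  have h1 : F.re = F.K0e + 2 * F.m * F.KeB := rfl
  simp only [Ric2]
  linear_combination (-2 * F.r0) * h0 + (-2 * F.re) * h1

lemma DtRic2 : F.Dt F.Ric2 = F.Lap F.Ric2 - 2 * F.β * F.G3 - 4 * F.q ^ 2 * F.β * F.om ^ 2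
    - 8 * F.m * F.β * F.h ^ 2 * F.ρ ^ 2 * (F.r0 - F.rB) ^ 2
    - 8 * F.m * F.β * F.h ^ 2 * (F.re - F.rB) ^ 2 + 4 * F.Q3 := by
  have e : F.Ric2 = F.r0 * F.r0 + F.re * F.re + 2 * F.m * (F.rB * F.rB) := by
    simp only [Ric2]; ring
  rw [e]
  simp only [Lap_add, Lap_const_mul _ _ _ (D_two_m F), Lap_mul, map_add, Derivation.leibniz,
    smul_eq_mul, Dtr0 F hF, Dtre F hF, DtrB F hF, Dt_m, D_2, G3, Q3]
  linear_combination (-4 * F.q ^ 2 * F.om) * F.re_sub_r0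

/-- equation for `P = y ρ^2 = a_s^2` -/
lemma DtP : F.Dt (F.y * F.ρ ^ 2) = F.β * F.D (F.D (F.y * F.ρ ^ 2))
      + (2 * F.q + (2 * F.m - 2) * F.β * F.ρ * F.h) * F.D (F.y * F.ρ ^ 2)
      - 2 * F.h * (F.β * F.ρ1 + F.q * F.ρ - F.y * F.ρ ^ 2) ^ 2
      + 2 * F.h * (-(2 * F.m - 1) * (F.y * F.ρ ^ 2) ^ 2 - F.ρ ^ 2 * F.q ^ 2
        + 2 * (F.m + 1) * (F.y * F.ρ ^ 2) + 4 * F.y * F.ρ * F.q - 6 * F.y * (F.y * F.ρ ^ 2)) := by
  simp only [map_sub, map_add, map_neg, Derivation.leibniz, Derivation.leibniz_pow, smul_eq_mul,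
    D_m, D_2, D_3, D_4, Derivation.map_one_eq_zero, map_zero, Dρ, Dq, Dρ1, Dq1, F.Dβ, Dh, Dy, rB_eq,
    re_eq, Dth F hF, Dtρ F hF, y, hF.dtβ, nsmul_eq_mul, Nat.cast_ofNat]
  ring

lemma DtA_Lap : F.Dt F.A = F.Lap F.A - 4 * F.y * F.ρ ^ 2 - 4 * (F.m + 1) + 4 * F.y := by
  rw [DtA F hF]
  simp only [Lap, F.DA, y]; ring

/-- the key parabolic identity -/
lemma key (c : R) (hc : F.D c = 0) (hc' : F.Dt c = 0) :
    F.Dt (F.A * F.Ric2 - c * F.sc) = F.Lap (F.A * F.Ric2 - c * F.sc)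
      + F.A * (- 2 * F.β * F.G3 - 4 * F.q ^ 2 * F.β * F.om ^ 2
        - 8 * F.m * F.β * F.h ^ 2 * F.ρ ^ 2 * (F.r0 - F.rB) ^ 2
        - 8 * F.m * F.β * F.h ^ 2 * (F.re - F.rB) ^ 2 + 4 * F.Q3)
      + F.Ric2 * (- 4 * F.y * F.ρ ^ 2 - 4 * (F.m + 1) + 4 * F.y)
      - 8 * F.β * F.ρ * (F.r0 * F.D F.r0 + F.re * F.D F.re + 2 * F.m * (F.rB * F.D F.rB))
      - 2 * c * F.Ric2 := by
  have e : F.A * F.Ric2 - c * F.sc = F.A * F.Ric2 + (-c) * F.sc := by ring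
  rw [e]
  rw [Lap_add, Lap_mul, Lap_const_mul _ _ _ (by simp [hc])]
  simp only [map_add, map_neg, Derivation.leibniz, smul_eq_mul, hc', DtA_Lap F hF, DtRic2 F hF,
    Dtsc F hF, F.DA, DRic2]
  ring

end flow2

end FlowAlg

end Vale.Agent.P244.BB
end
end

section

section

/-! The reduced flow as an instance of `FlowAlg`, and its maximum principles. -/

open Set Topology Filter
open scoped ContDiff

namespace Vale.Agent.P244.BB

/-- reduced metrics `E^2/β dz^2 + β η^2 + A g_B` on `[-1,1] x [0,T)` -/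
structure RData (n : ℕ) (κ T : ℝ) where
  E : smoothAlg T
  β : smoothAlg T
  A : smoothAlg T
  κpos : 0 < κ
  Epos : ∀ p ∈ dom T, 0 < ext E p
  Apos : ∀ p ∈ dom T, 0 < ext A p
  βpos : ∀ z ∈ Ioo (-1 : ℝ) 1, ∀ t ∈ Ico 0 T, 0 < ext β (z, t)
  βl : ∀ t ∈ Ico 0 T, ext β (-1, t) = 0
  βr : ∀ t ∈ Ico 0 T, ext β (1, t) = 0
  cl : ∀ t ∈ Ico 0 T, ext (dz β) (-1, t) = 2 * κ * ext E (-1, t)
  cr : ∀ t ∈ Ico 0 T, ext (dz β) (1, t) = -(2 * κ * ext E (1, t))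

namespace RData

variable {n : ℕ} {κ T : ℝ} (M : RData n κ T)

noncomputable def Ei : smoothAlg T := invS M.E (fun p hp => (M.Epos p hp).ne')
noncomputable def h : smoothAlg T := invS M.A (fun p hp => (M.Apos p hp).ne')

lemma ext_Ei {p : ℝ × ℝ} (hp : p ∈ dom T) : ext M.Ei p = (ext M.E p)⁻¹ := ext_invS _ _ hp
lemma ext_h {p : ℝ × ℝ} (hp : p ∈ dom T) : ext M.h p = (ext M.A p)⁻¹ := ext_invS _ _ hp

/-- `d/dy` -/
noncomputable def D : Derivation ℝ (smoothAlg T) (smoothAlg T) := M.Ei • pdD (1, 0)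

lemma D_apply (f : smoothAlg T) : M.D f = M.Ei * dz f := rfl

lemma ext_D (f : smoothAlg T) {p : ℝ × ℝ} (hp : p ∈ dom T) :
    ext (M.D f) p = ext (dz f) p / ext M.E p := by
  rw [D_apply, ext_mul, M.ext_Ei hp]; ring

noncomputable def F : FlowAlg (smoothAlg T) where
  D := M.D
  Dt := pdD (0, 1)
  n := n
  A := M.A
  h := M.h
  β := M.β
  ρ := (1 / 2 : ℝ) • M.D M.A
  q := (1 / 2 : ℝ) • M.D M.β
  hA := mul_invS _ _
  DA := by
    rw [mul_smul_comm, two_mul, ← two_smul ℝ, smul_smul]; norm_num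
  Dβ := by
    rw [mul_smul_comm, two_mul, ← two_smul ℝ, smul_smul]; norm_num

/-- the flow equations -/
structure IsRF : Prop where
  dtE : dt M.E = -M.F.μ * M.E
  dtA : dt M.A = -2 * M.F.rB * M.A
  dtβ : dt M.β = -2 * M.F.re * M.β

lemma isFlow (hM : M.IsRF) : M.F.IsFlow where
  comm := by
    intro f
    have h1 : M.F.Dt (M.F.D f) = dt (M.Ei * dz f) := rfl
    have h2 : dt (M.Ei * dz f) = M.Ei * dt (dz f) + dz f * dt M.Ei := dt_mul _ _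
    have h3 : dt (dz f) = dz (dt f) := pd_comm _ _ f
    have h4 : M.E * M.Ei = 1 := mul_invS _ _
    have h5 : dt M.Ei = M.F.μ * M.Ei := by
      have h6 : dt (M.E * M.Ei) = 0 := by
        rw [h4]
        exact dt_one
      have h7 : dt (M.E * M.Ei) = M.E * dt M.Ei + M.Ei * dt M.E := dt_mul _ _
      rw [h7, hM.dtE] at h6
      linear_combination M.Ei * h6 - (dt M.Ei - M.F.μ * M.Ei) * h4
    have h8 : M.F.D (M.F.Dt f) = M.Ei * dz (dt f) := rfl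
    have h9 : M.F.D f = M.Ei * dz f := rfl
    rw [h1, h2, h3, h5, h8, h9]; ring
  dtA := hM.dtA
  dtβ := hM.dtβ
  two := by
    intro f g hfg
    apply smooth_ext
    intro p hp
    have := congrArg (fun f => ext f p) hfg
    simp only [two_mul, ext_add] at this
    linarith

lemma ext_ρ {p : ℝ × ℝ} (hp : p ∈ dom T) : ext M.F.ρ p = ext (dz M.A) p / (2 * ext M.E p) := by
  show ext ((1 / 2 : ℝ) • M.D M.A) p = _
  rw [ext_smul, M.ext_D _ hp]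
  field_simp

lemma ext_q {p : ℝ × ℝ} (hp : p ∈ dom T) : ext M.F.q p = ext (dz M.β) p / (2 * ext M.E p) := by
  show ext ((1 / 2 : ℝ) • M.D M.β) p = _
  rw [ext_smul, M.ext_D _ hp]
  field_simp

lemma q_left {t : ℝ} (ht : t ∈ Ico 0 T) : ext M.F.q (-1, t) = κ := by
  have hp : ((-1 : ℝ), t) ∈ dom T := mem_dom (by norm_num) ht
  have hE := M.Epos _ hp
  rw [M.ext_q hp, M.cl t ht]
  field_simp

lemma q_right {t : ℝ} (ht : t ∈ Ico 0 T) : ext M.F.q (1, t) = -κ := by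
  have hp : ((1 : ℝ), t) ∈ dom T := mem_dom (by norm_num) ht
  have hE := M.Epos _ hp
  rw [M.ext_q hp, M.cr t ht]
  field_simp

lemma β_nonneg {p : ℝ × ℝ} (hp : p ∈ dom T) : 0 ≤ ext M.β p := by
  obtain ⟨z, t⟩ := p
  rcases hp.1.1.eq_or_lt with h | h
  · simp only at h; rw [← h, M.βl t hp.2]
  rcases hp.1.2.eq_or_lt with h' | h'
  · simp only at h'; rw [h', M.βr t hp.2]
  · exact (M.βpos z ⟨h, h'⟩ t hp.2).le

/-- the second order operator has the right sign at a spatial maximum -/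
lemma op_nonpos (f c : smoothAlg T) (j : ℝ) (hj : 0 ≤ j) {z t : ℝ} (hz : z ∈ Icc (-1 : ℝ) 1)
    (ht : t ∈ Ico 0 T) (h2 : ∀ᶠ w in 𝓝[Icc (-1) 1] z, ext f (w, t) ≤ ext f (z, t)) :
    ext M.β (z, t) * ext (M.D (M.D f)) (z, t)
      + (j * ext M.F.q (z, t) + ext M.β (z, t) * ext c (z, t)) * ext (M.D f) (z, t) ≤ 0 := by
  have hp := mem_dom hz ht
  have hE := M.Epos _ hp
  rcases space_ineq f hz ht h2 with ⟨h, h3⟩ | ⟨h, h3⟩ | ⟨h, h3, h4⟩
  · subst h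
    rw [M.βl t ht, M.q_left ht, M.ext_D f hp]
    have h5 : ext (dz f) (-1, t) / ext M.E (-1, t) ≤ 0 := div_nonpos_of_nonpos_of_nonneg h3 hE.le
    have := mul_nonneg hj M.κpos.le
    linarith only [mul_nonneg (sub_nonneg.2 h5) (sub_nonneg.2 this)]
  · subst h
    rw [M.βr t ht, M.q_right ht, M.ext_D f hp]
    have h5 : 0 ≤ ext (dz f) (1, t) / ext M.E (1, t) := div_nonneg h3 hE.le
    have := mul_nonneg hj M.κpos.le
    linarith only [mul_nonneg (sub_nonneg.2 h5) (sub_nonneg.2 this)]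
  · have hβ := M.β_nonneg hp
    have h5 : ext (M.D f) (z, t) = 0 := by rw [M.ext_D f hp, h3]; simp
    have h6 : ext (M.D (M.D f)) (z, t) ≤ 0 := by
      rw [M.ext_D _ hp]
      refine div_nonpos_of_nonpos_of_nonneg ?_ hE.le
      have h7 : dz (M.D f) = M.Ei * dz (dz f) + dz f * dz M.Ei := dz_mul _ _
      rw [h7, ext_add, ext_mul, ext_mul, h3, M.ext_Ei hp]
      have : 0 < (ext M.E (z, t))⁻¹ := inv_pos.2 hE
      linarith [mul_nonneg (sub_nonneg.2 h4) (le_of_lt (sub_pos.2 this))]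
    rw [h5]
    nlinarith only [hβ, h6]

/-- Comparison principle up to time `t₁`. -/
lemma cmp (f N c : smoothAlg T) (j : ℝ) (hj : 0 ≤ j)
    (hf : ∀ p ∈ dom T, ext (dt f) p = ext M.β p * ext (M.D (M.D f)) p
      + (j * ext M.F.q p + ext M.β p * ext c p) * ext (M.D f) p + ext N p)
    (φ φ' : ℝ → ℝ) (hφc : ContinuousOn φ (Ico 0 T)) (hφ : ∀ t ∈ Ioo 0 T, HasDerivAt φ (φ' t) t)
    (h0 : ∀ z ∈ Icc (-1 : ℝ) 1, ext f (z, 0) < φ 0) (t₁ : ℝ) (ht₁ : t₁ < T)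
    (key : ∀ z ∈ Icc (-1 : ℝ) 1, ∀ t ∈ Ioc 0 t₁, ext f (z, t) = φ t →
      (∀ w ∈ Icc (-1 : ℝ) 1, ∀ s ∈ Icc 0 t, ext f (w, s) ≤ φ s) → ext N (z, t) < φ' t) :
    ∀ z ∈ Icc (-1 : ℝ) 1, ∀ t ∈ Icc 0 t₁, ext f (z, t) < φ t := by
  intro z hz t ht
  by_contra hcon
  push Not at hcon
  have htT : t ∈ Ico 0 T := ⟨ht.1, lt_of_le_of_lt ht.2 ht₁⟩
  obtain ⟨z₀, hz₀, t₀, ht₀, h1, h2, h3⟩ :=
    first_touch (ext_continuousOn f) hφc h0 hz htT hcon
  have ht₀' : t₀ ∈ Ioo 0 T := ⟨ht₀.1, lt_of_le_of_lt ht₀.2 htT.2⟩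
  have hp : (z₀, t₀) ∈ dom T := mem_dom hz₀ ⟨ht₀'.1.le, ht₀'.2⟩
  have h4 : φ' t₀ ≤ ext (dt f) (z₀, t₀) := by
    refine time_ineq f hz₀ ht₀' (hφ t₀ ht₀') h1 ?_
    have : Ioo 0 t₀ ∈ 𝓝[<] t₀ := Ioo_mem_nhdsLT ht₀.1
    filter_upwards [this] with s hs
    exact (h3 z₀ hz₀ s ⟨hs.1.le, hs.2⟩).le
  have h5 := M.op_nonpos f c j hj hz₀ ⟨ht₀'.1.le, ht₀'.2⟩ (by
    filter_upwards [self_mem_nhdsWithin] with w hw
    rw [h1]
    exact h2 w hw t₀ ⟨ht₀'.1.le, le_rfl⟩)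
  have h6 := key z₀ hz₀ t₀ ⟨ht₀.1, ht₀.2.trans ht.2⟩ h1 h2
  rw [hf _ hp] at h4
  linarith

/-- Comparison with a constant on the whole domain. -/
lemma cmp_const (f N c : smoothAlg T) (j : ℝ) (hj : 0 ≤ j)
    (hf : ∀ p ∈ dom T, ext (dt f) p = ext M.β p * ext (M.D (M.D f)) p
      + (j * ext M.F.q p + ext M.β p * ext c p) * ext (M.D f) p + ext N p)
    (C : ℝ) (h0 : ∀ z ∈ Icc (-1 : ℝ) 1, ext f (z, 0) < C)
    (key : ∀ z ∈ Icc (-1 : ℝ) 1, ∀ t ∈ Ioo 0 T, ext f (z, t) = C → ext N (z, t) < 0) :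
    ∀ p ∈ dom T, ext f p < C := by
  rintro ⟨z, t⟩ hp
  refine M.cmp f N c j hj hf (fun _ => C) (fun _ => 0) continuousOn_const
    (fun t _ => hasDerivAt_const t C) h0 t hp.2.2 ?_ z hp.1 t ⟨hp.2.1, le_rfl⟩
  intro z hz s hs h1 _
  exact key z hz s ⟨hs.1, lt_of_le_of_lt hs.2 hp.2.2⟩ h1

/-- bounds on compact time intervals -/
lemma bdd_slice (f : smoothAlg T) {t₁ : ℝ} (ht₁ : t₁ < T) :
    ∃ C : ℝ, 0 ≤ C ∧ ∀ z ∈ Icc (-1 : ℝ) 1, ∀ t ∈ Icc 0 t₁, |ext f (z, t)| ≤ C := by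
  have hK : IsCompact (Icc (-1 : ℝ) 1 ×ˢ Icc 0 t₁) := isCompact_Icc.prod isCompact_Icc
  have hsub : Icc (-1 : ℝ) 1 ×ˢ Icc 0 t₁ ⊆ dom T :=
    fun p hp => ⟨hp.1, ⟨hp.2.1, lt_of_le_of_lt hp.2.2 ht₁⟩⟩
  obtain ⟨C, hC⟩ := hK.exists_bound_of_continuousOn ((ext_continuousOn f).mono hsub)
  refine ⟨max C 0, le_max_right _ _, fun z hz t ht => ?_⟩
  exact (hC (z, t) ⟨hz, ht⟩).trans (le_max_left _ _)

end RData

end Vale.Agent.P244.BB
end
end

section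

section

/-! A-priori bounds for reduced flows with bounded scalar curvature. -/

open Set Topology Filter
open scoped ContDiff

set_option linter.unusedSimpArgs false

namespace Vale.Agent.P244.BB

namespace RData

variable {n : ℕ} {κ T : ℝ} (M : RData n κ T)

lemma ext_m {p : ℝ × ℝ} (hp : p ∈ dom T) : ext M.F.m p = n := by
  rw [← ev_eq hp]; exact map_natCast (ev hp) n

lemma hf_of {f c N : smoothAlg T} {j : ℕ}
    (hid : dt f = M.β * M.D (M.D f) + ((j : smoothAlg T) * M.F.q + M.β * c) * M.D f + N) :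
    ∀ p ∈ dom T, ext (dt f) p = ext M.β p * ext (M.D (M.D f)) p
      + ((j : ℝ) * ext M.F.q p + ext M.β p * ext c p) * ext (M.D f) p + ext N p := by
  intro p hp
  have h1 := congrArg (ev hp) hid
  simp only [map_add, map_mul, map_natCast, ev_eq] at h1
  exact h1

/-- real values at a point -/
lemma pt (f g : smoothAlg T) (h : f = g) {p : ℝ × ℝ} (hp : p ∈ dom T) : ev hp f = ev hp g := by
  rw [h]

lemma h_pos {p : ℝ × ℝ} (hp : p ∈ dom T) : 0 < ext M.h p := by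
  rw [M.ext_h hp]; exact inv_pos.2 (M.Apos p hp)

lemma Ah {p : ℝ × ℝ} (hp : p ∈ dom T) : ext M.A p * ext M.h p = 1 := by
  rw [M.ext_h hp]; exact mul_inv_cancel₀ (M.Apos p hp).ne'

lemma ext_y {p : ℝ × ℝ} (hp : p ∈ dom T) : ext M.F.y p = ext M.β p * ext M.h p := by
  rw [← ev_eq hp, ← ev_eq hp, ← ev_eq hp]; exact map_mul (ev hp) _ _

lemma y_nonneg {p : ℝ × ℝ} (hp : p ∈ dom T) : 0 ≤ ext M.F.y p := by
  rw [M.ext_y hp]; exact mul_nonneg (M.β_nonneg hp) (M.h_pos hp).le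

variable (hM : M.IsRF)
include hM

/-- `y = b^2/a^2` stays below `Y` -/
lemma y_le {Y : ℝ} (hY : 1 ≤ Y) (h0 : ∀ z ∈ Icc (-1 : ℝ) 1, ext M.F.y (z, 0) ≤ Y) :
    ∀ p ∈ dom T, ext M.F.y p ≤ Y := by
  intro p hp
  refine le_of_forall_pos_lt_add fun ε hε => ?_
  refine M.cmp_const M.F.y (4 * (M.F.m + 1) * M.F.y * (1 - M.F.y) * M.F.h)
    (2 * (M.F.m + 1) * M.F.ρ * M.F.h) ((0 : ℕ) : ℝ) (by simp)
    (M.hf_of ?_) (Y + ε) (fun z hz => lt_of_le_of_lt (h0 z hz) (by linarith)) ?_ p hp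
  · have hid := M.F.Dty (M.isFlow hM)
    change dt M.F.y = M.β * M.D (M.D M.F.y) + M.β * (2 * (M.F.m + 1) * M.F.ρ * M.F.h) * M.D M.F.y
      + 4 * (M.F.m + 1) * M.F.y * (1 - M.F.y) * M.F.h at hid
    rw [hid]; push_cast; ring
  · intro z hz t ht h1
    have hp' : (z, t) ∈ dom T := mem_dom hz ⟨ht.1.le, ht.2⟩
    have hh := M.h_pos hp'
    have e : ext (4 * (M.F.m + 1) * M.F.y * (1 - M.F.y) * M.F.h) (z, t)
        = 4 * (n + 1) * ext M.F.y (z, t) * (1 - ext M.F.y (z, t)) * ext M.h (z, t) := by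
      rw [← ev_eq hp']
      simp only [map_mul, map_add, map_sub, map_one, map_ofNat, ev_eq, M.ext_m hp']
      rfl
    rw [e, h1]
    have h2 : 0 < 4 * ((n : ℝ) + 1) * (Y + ε) := by positivity
    have h3 : 1 - (Y + ε) < 0 := by linarith
    have h4 := mul_neg_of_pos_of_neg h2 h3
    exact mul_neg_of_neg_of_pos h4 hh

/-- `A = a^2` grows at most linearly -/
lemma A_le {Y A₀ : ℝ} (hY : 1 ≤ Y) (hy : ∀ p ∈ dom T, ext M.F.y p ≤ Y)
    (h0 : ∀ z ∈ Icc (-1 : ℝ) 1, ext M.A (z, 0) ≤ A₀) :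
    ∀ p ∈ dom T, ext M.A p ≤ A₀ + 1 + 4 * Y * T := by
  rintro ⟨z, t⟩ hp
  have h1 := M.cmp M.A (-4 * (M.F.m + 1) + 4 * M.F.y) ((2 * M.F.m - 2) * M.F.ρ * M.F.h)
    ((2 : ℕ) : ℝ) (by simp) (M.hf_of ?_) (fun t => A₀ + 1 + 4 * Y * t) (fun _ => 4 * Y)
    (by fun_prop) (fun t _ => by
      have := ((hasDerivAt_id t).const_mul (4 * Y)).const_add (A₀ + 1)
      simpa using this)
    (fun z hz => by have := h0 z hz; simp; linarith) t hp.2.2 ?_ z hp.1 t ⟨hp.2.1, le_rfl⟩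
  · have h2 : 4 * Y * t ≤ 4 * Y * T := by
      have := hp.2.2.le
      linarith only [mul_nonneg (sub_nonneg.2 this) (sub_nonneg.2 hY), this]
    linarith
  · have hid := M.F.DtA (M.isFlow hM)
    change dt M.A = M.β * M.D (M.D M.A) + (2 * M.F.q + (2 * M.F.m - 2) * M.β * M.F.ρ * M.F.h)
      * M.D M.A - 4 * (M.F.m + 1) + 4 * M.F.y at hid
    rw [hid]; push_cast; ring
  · intro z hz s hs _ _
    have hp' : (z, s) ∈ dom T := mem_dom hz ⟨hs.1.le, lt_of_le_of_lt hs.2 hp.2.2⟩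
    have e : ext (-4 * (M.F.m + 1) + 4 * M.F.y) (z, s) = -4 * (n + 1) + 4 * ext M.F.y (z, s) := by
      rw [← ev_eq hp']
      simp only [map_mul, map_add, map_neg, map_sub, map_one, map_ofNat, ev_eq, M.ext_m hp']
    rw [e]
    have h3 := hy _ hp'
    have h4 : (0 : ℝ) ≤ n := Nat.cast_nonneg n
    linarith

/-- `P = y ρ^2 = a_s^2` is bounded -/
lemma P_le (hn : 1 ≤ n) {Y P₀ : ℝ} (hY : 1 ≤ Y) (hy : ∀ p ∈ dom T, ext M.F.y p ≤ Y)
    (hP : 2 * (n + 1) + 4 * Y ^ 2 + 1 ≤ P₀)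
    (h0 : ∀ z ∈ Icc (-1 : ℝ) 1, ext (M.F.y * M.F.ρ ^ 2) (z, 0) < P₀) :
    ∀ p ∈ dom T, ext (M.F.y * M.F.ρ ^ 2) p < P₀ := by
  refine M.cmp_const (M.F.y * M.F.ρ ^ 2)
    (- 2 * M.F.h * (M.F.β * M.F.ρ1 + M.F.q * M.F.ρ - M.F.y * M.F.ρ ^ 2) ^ 2
      + 2 * M.F.h * (-(2 * M.F.m - 1) * (M.F.y * M.F.ρ ^ 2) ^ 2 - M.F.ρ ^ 2 * M.F.q ^ 2
        + 2 * (M.F.m + 1) * (M.F.y * M.F.ρ ^ 2) + 4 * M.F.y * M.F.ρ * M.F.q
        - 6 * M.F.y * (M.F.y * M.F.ρ ^ 2)))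
    ((2 * M.F.m - 2) * M.F.ρ * M.F.h) ((2 : ℕ) : ℝ) (by simp) (M.hf_of ?_) P₀ h0 ?_
  · have hid := M.F.DtP (M.isFlow hM)
    change dt (M.F.y * M.F.ρ ^ 2) = M.β * M.D (M.D (M.F.y * M.F.ρ ^ 2))
      + (2 * M.F.q + (2 * M.F.m - 2) * M.β * M.F.ρ * M.F.h) * M.D (M.F.y * M.F.ρ ^ 2)
      - 2 * M.F.h * (M.F.β * M.F.ρ1 + M.F.q * M.F.ρ - M.F.y * M.F.ρ ^ 2) ^ 2
      + 2 * M.F.h * (-(2 * M.F.m - 1) * (M.F.y * M.F.ρ ^ 2) ^ 2 - M.F.ρ ^ 2 * M.F.q ^ 2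
        + 2 * (M.F.m + 1) * (M.F.y * M.F.ρ ^ 2) + 4 * M.F.y * M.F.ρ * M.F.q
        - 6 * M.F.y * (M.F.y * M.F.ρ ^ 2)) at hid
    rw [hid]; push_cast; ring
  · intro z hz t ht h1
    have hp : (z, t) ∈ dom T := mem_dom hz ⟨ht.1.le, ht.2⟩
    have hh : 0 < ext M.F.h (z, t) := M.h_pos hp
    have hy0 := M.y_nonneg hp
    have hy1 := hy _ hp
    have hn' : (1 : ℝ) ≤ n := by exact_mod_cast hn
    have e1 : ext (M.F.y * M.F.ρ ^ 2) (z, t) = ext M.F.y (z, t) * ext M.F.ρ (z, t) ^ 2 := by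
      rw [← ev_eq hp]; simp only [map_mul, map_pow, ev_eq]
    rw [e1] at h1
    have e : ext (- 2 * M.F.h * (M.F.β * M.F.ρ1 + M.F.q * M.F.ρ - M.F.y * M.F.ρ ^ 2) ^ 2
      + 2 * M.F.h * (-(2 * M.F.m - 1) * (M.F.y * M.F.ρ ^ 2) ^ 2 - M.F.ρ ^ 2 * M.F.q ^ 2
        + 2 * (M.F.m + 1) * (M.F.y * M.F.ρ ^ 2) + 4 * M.F.y * M.F.ρ * M.F.q
        - 6 * M.F.y * (M.F.y * M.F.ρ ^ 2))) (z, t)
        = - 2 * ext M.F.h (z, t) * (ext M.F.β (z, t) * ext M.F.ρ1 (z, t)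
          + ext M.F.q (z, t) * ext M.F.ρ (z, t) - P₀) ^ 2
        + 2 * ext M.F.h (z, t) * (-(2 * n - 1) * P₀ ^ 2 - ext M.F.ρ (z, t) ^ 2 * ext M.F.q (z, t) ^ 2
        + 2 * (n + 1) * P₀ + 4 * ext M.F.y (z, t) * ext M.F.ρ (z, t) * ext M.F.q (z, t)
        - 6 * ext M.F.y (z, t) * P₀) := by
      rw [← ev_eq hp]
      simp only [map_mul, map_add, map_neg, map_sub, map_one, map_ofNat, map_pow, ev_eq,
        M.ext_m hp, h1]
    rw [e]
    set y := ext M.F.y (z, t)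
    set r := ext M.F.ρ (z, t)
    set q := ext M.F.q (z, t)
    set hh' := ext M.F.h (z, t)
    have hP0 : 1 ≤ P₀ := by linarith only [sq_nonneg Y, hP]
    have k1 : 4 * y * r * q ≤ r ^ 2 * q ^ 2 + 4 * y ^ 2 := by linarith only [sq_nonneg (r * q - 2 * y)]
    have k2 : y ^ 2 ≤ Y ^ 2 := by linarith only [mul_nonneg (sub_nonneg.2 hy1) (sub_nonneg.2 hy0), mul_nonneg (sub_nonneg.2 hy1) (sub_nonneg.2 hy1)]
    have k3 : P₀ ^ 2 ≤ (2 * n - 1) * P₀ ^ 2 := by linarith only [mul_nonneg (sq_nonneg (P₀ : ℝ)) (sub_nonneg.2 hn')]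
    have k4 : 0 ≤ 6 * y * P₀ := by positivity
    have k5 : (2 * ((n : ℝ) + 1) + 4 * Y ^ 2 + 1) * P₀ ≤ P₀ * P₀ :=
      mul_le_mul_of_nonneg_right hP (by linarith only [hP0])
    have k6 : -(2 * (n : ℝ) - 1) * P₀ ^ 2 - r ^ 2 * q ^ 2 + 2 * (n + 1) * P₀ + 4 * y * r * q
        - 6 * y * P₀ < 0 := by linarith only [mul_nonneg (sub_nonneg.2 hP) (sub_nonneg.2 hn'), mul_nonneg (sub_nonneg.2 hP) (sub_nonneg.2 hP), mul_nonneg (sq_nonneg (Y : ℝ)) (sub_nonneg.2 hn'), mul_nonneg (sq_nonneg (Y : ℝ)) (sub_nonneg.2 hP), mul_nonneg (sq_nonneg (Y : ℝ)) (sq_nonneg (Y : ℝ)), mul_nonneg (sq_nonneg (P₀ : ℝ)) (sub_nonneg.2 hn'), k4, k2, k1, hn', hP, sq_nonneg (Y : ℝ)]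
    have k7 : 2 * hh' * (-(2 * (n : ℝ) - 1) * P₀ ^ 2 - r ^ 2 * q ^ 2 + 2 * (n + 1) * P₀
        + 4 * y * r * q - 6 * y * P₀) < 0 := mul_neg_of_pos_of_neg (by linarith only [hh]) k6
    have k8 : 0 ≤ 2 * hh' * (ext M.F.β (z, t) * ext M.F.ρ1 (z, t) + q * r - P₀) ^ 2 := by
      (clear * - hh; positivity)
    linarith only [k7, k8]

/-- upper bound for `q = b_s` -/
lemma q_le {Y Q₀ : ℝ} (hY : 1 ≤ Y) (hy : ∀ p ∈ dom T, ext M.F.y p ≤ Y)
    (hQ : 2 * Y ≤ Q₀) (hQκ : κ < Q₀) (h0 : ∀ z ∈ Icc (-1 : ℝ) 1, ext M.F.q (z, 0) < Q₀)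
    (hn : 1 ≤ n) :
    ∀ p ∈ dom T, ext M.F.q p < Q₀ := by
  refine M.cmp_const M.F.q
    (- 2 * M.F.m * M.F.β * M.F.h ^ 2 * (M.F.ρ ^ 2 * M.F.q + 3 * M.F.q - 4 * M.F.y * M.F.ρ))
    (2 * M.F.m * M.F.ρ * M.F.h) ((0 : ℕ) : ℝ) (by simp) (M.hf_of ?_) Q₀ h0 ?_
  · have hid := M.F.Dtq (M.isFlow hM)
    change dt M.F.q = M.β * M.D (M.D M.F.q) + 2 * M.F.m * M.β * M.F.ρ * M.F.h * M.D M.F.q
      - 2 * M.F.m * M.F.β * M.F.h ^ 2 * (M.F.ρ ^ 2 * M.F.q + 3 * M.F.q - 4 * M.F.y * M.F.ρ) at hid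
    rw [hid]; push_cast; ring
  · intro z hz t ht h1
    have ht' : t ∈ Ico 0 T := ⟨ht.1.le, ht.2⟩
    have hp : (z, t) ∈ dom T := mem_dom hz ht'
    have hz' : z ∈ Ioo (-1 : ℝ) 1 := by
      refine ⟨lt_of_le_of_ne hz.1 ?_, lt_of_le_of_ne hz.2 ?_⟩
      · rintro rfl; rw [M.q_left ht'] at h1; linarith
      · rintro rfl; rw [M.q_right ht'] at h1; linarith [M.κpos]
    have hβ : 0 < ext M.F.β (z, t) := M.βpos z hz' t ht'
    have hh : 0 < ext M.F.h (z, t) := M.h_pos hp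
    have hy0 := M.y_nonneg hp
    have hy1 := hy _ hp
    have hn' : (1 : ℝ) ≤ n := by exact_mod_cast hn
    have e : ext (- 2 * M.F.m * M.F.β * M.F.h ^ 2 * (M.F.ρ ^ 2 * M.F.q + 3 * M.F.q
        - 4 * M.F.y * M.F.ρ)) (z, t) = - (2 * n * ext M.F.β (z, t) * ext M.F.h (z, t) ^ 2
        * (ext M.F.ρ (z, t) ^ 2 * Q₀ + 3 * Q₀ - 4 * ext M.F.y (z, t) * ext M.F.ρ (z, t))) := by
      rw [← ev_eq hp]
      simp only [map_mul, map_add, map_neg, map_sub, map_one, map_ofNat, map_pow, ev_eq,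
        M.ext_m hp, h1]
      ring
    rw [e]
    set y := ext M.F.y (z, t)
    set r := ext M.F.ρ (z, t)
    have k1 : 0 < r ^ 2 * Q₀ + 3 * Q₀ - 4 * y * r := by
      have a1 : 4 * y * r ≤ 4 * y * |r| := by
        have := le_abs_self r; linarith only [mul_nonneg (sub_nonneg.2 hy0) (sub_nonneg.2 this)]
      have a2 : 4 * y * |r| ≤ 4 * Y * |r| := by
        have := abs_nonneg r; linarith only [mul_nonneg (sub_nonneg.2 hy1) (sub_nonneg.2 this)]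
      have a3 : 4 * Y * |r| ≤ 2 * Q₀ * |r| := by
        have := abs_nonneg r; nlinarith only [hQ, this]
      have a4 : 2 * |r| ≤ r ^ 2 + 1 := by
        have := sq_abs r; linarith only [this, sq_nonneg (|r| - 1)]
      linarith only [hY, hQ, a1, a2, a4, mul_nonneg (sq_nonneg (r : ℝ)) (sub_nonneg.2 hQ), mul_nonneg (sub_nonneg.2 hY) (sub_nonneg.2 a4)]
    have : 0 < 2 * n * ext M.F.β (z, t) * ext M.F.h (z, t) ^ 2
        * (r ^ 2 * Q₀ + 3 * Q₀ - 4 * y * r) := by (clear * - hn hβ hh k1; positivity)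
    linarith only [this]

/-- lower bound for `q = b_s` -/
lemma q_ge {Y Q₀ : ℝ} (hY : 1 ≤ Y) (hy : ∀ p ∈ dom T, ext M.F.y p ≤ Y)
    (hQ : 2 * Y ≤ Q₀) (hQκ : κ < Q₀) (h0 : ∀ z ∈ Icc (-1 : ℝ) 1, -Q₀ < ext M.F.q (z, 0))
    (hn : 1 ≤ n) :
    ∀ p ∈ dom T, -Q₀ < ext M.F.q p := by
  have key : ∀ p ∈ dom T, ext (-M.F.q) p < Q₀ := by
    refine M.cmp_const (-M.F.q)
      (2 * M.F.m * M.F.β * M.F.h ^ 2 * (M.F.ρ ^ 2 * M.F.q + 3 * M.F.q - 4 * M.F.y * M.F.ρ))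
      (2 * M.F.m * M.F.ρ * M.F.h) ((0 : ℕ) : ℝ) (by simp) (M.hf_of ?_) Q₀
      (fun z hz => by rw [ext_neg]; linarith [h0 z hz]) ?_
    · have hid := M.F.Dtq (M.isFlow hM)
      change dt M.F.q = M.β * M.D (M.D M.F.q) + 2 * M.F.m * M.β * M.F.ρ * M.F.h * M.D M.F.q
        - 2 * M.F.m * M.F.β * M.F.h ^ 2 * (M.F.ρ ^ 2 * M.F.q + 3 * M.F.q
          - 4 * M.F.y * M.F.ρ) at hid
      have e1 : dt (-M.F.q) = - dt M.F.q := (pdD (T := T) (0, 1)).map_neg _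
      rw [e1, hid, map_neg, map_neg]; push_cast; ring
    · intro z hz t ht h1
      have ht' : t ∈ Ico 0 T := ⟨ht.1.le, ht.2⟩
      have hp : (z, t) ∈ dom T := mem_dom hz ht'
      rw [ext_neg] at h1
      have h1' : ext M.F.q (z, t) = -Q₀ := by linarith
      have hz' : z ∈ Ioo (-1 : ℝ) 1 := by
        refine ⟨lt_of_le_of_ne hz.1 ?_, lt_of_le_of_ne hz.2 ?_⟩
        · rintro rfl; rw [M.q_left ht'] at h1; linarith [M.κpos]
        · rintro rfl; rw [M.q_right ht'] at h1; linarith [M.κpos]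
      have hβ : 0 < ext M.F.β (z, t) := M.βpos z hz' t ht'
      have hh : 0 < ext M.F.h (z, t) := M.h_pos hp
      have hy0 := M.y_nonneg hp
      have hy1 := hy _ hp
      have hn' : (1 : ℝ) ≤ n := by exact_mod_cast hn
      have e : ext (2 * M.F.m * M.F.β * M.F.h ^ 2 * (M.F.ρ ^ 2 * M.F.q + 3 * M.F.q
          - 4 * M.F.y * M.F.ρ)) (z, t) = - (2 * n * ext M.F.β (z, t) * ext M.F.h (z, t) ^ 2
          * (ext M.F.ρ (z, t) ^ 2 * Q₀ + 3 * Q₀ + 4 * ext M.F.y (z, t) * ext M.F.ρ (z, t))) := by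
        rw [← ev_eq hp]
        simp only [map_mul, map_add, map_neg, map_sub, map_one, map_ofNat, map_pow, ev_eq,
          M.ext_m hp, h1']
        ring
      rw [e]
      set y := ext M.F.y (z, t)
      set r := ext M.F.ρ (z, t)
      have k1 : 0 < r ^ 2 * Q₀ + 3 * Q₀ + 4 * y * r := by
        have a1 : -(4 * y * r) ≤ 4 * y * |r| := by
          have := neg_abs_le r; linarith only [mul_nonneg (sub_nonneg.2 hy0) (sub_nonneg.2 this)]
        have a2 : 4 * y * |r| ≤ 4 * Y * |r| := by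
          have := abs_nonneg r; nlinarith only [hy1, this]
        have a3 : 4 * Y * |r| ≤ 2 * Q₀ * |r| := by
          have := abs_nonneg r; linarith only [mul_nonneg (sub_nonneg.2 hQ) (sub_nonneg.2 this)]
        have a4 : 2 * |r| ≤ r ^ 2 + 1 := by
          have := sq_abs r; linarith only [this, sq_nonneg (|r| - 1)]
        linarith only [mul_nonneg (sub_nonneg.2 hY) (sub_nonneg.2 a4), mul_nonneg (sq_nonneg (r : ℝ)) (sub_nonneg.2 hQ), a4, a2, a1, hQ, hY]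
      have : 0 < 2 * n * ext M.F.β (z, t) * ext M.F.h (z, t) ^ 2
          * (r ^ 2 * Q₀ + 3 * Q₀ + 4 * y * r) := by (clear * - hn hβ hh k1; positivity)
      linarith only [this]
  intro p hp
  have := key p hp
  rw [ext_neg] at this
  linarith

end RData

end Vale.Agent.P244.BB
end
end

section

section

/-! The estimate `a^2 |Ric|^2 ≤ C` under bounded scalar curvature. -/

open Set Topology Filter
open scoped ContDiff

set_option linter.unusedSimpArgs false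

namespace Vale.Agent.P244.BB

lemma abs_mul_bound {a b S : ℝ} (ha : a ^ 2 ≤ S) (hb : b ^ 2 ≤ S) : |a * b| ≤ S := by
  rw [abs_le]; constructor <;> nlinarith only [ha, hb, sq_nonneg (a + b), sq_nonneg (a - b)]

/-- the cubic terms -/
lemma cubic_bound {n A r0 re rB W K0e K0B KeB M Cw S : ℝ} (hn : 1 ≤ n)
    (h1 : r0 = K0e + 2 * n * K0B) (h2 : re = K0e + 2 * n * KeB)
    (h3 : rB = K0B + KeB + W) (hM : 0 ≤ M) (hCw : 0 ≤ Cw) (hS0 : 0 ≤ S)
    (s0 : r0 ^ 2 ≤ S) (se : re ^ 2 ≤ S) (sB : rB ^ 2 ≤ S) (sB2 : 2 * n * rB ^ 2 ≤ S)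
    (m0 : |A * r0| ≤ M) (me : |A * re| ≤ M) (mB : |A * rB| ≤ M) (mW : |A * W| ≤ Cw) :
    A * (2 * K0e * r0 * re + 4 * n * K0B * r0 * rB + 4 * n * KeB * re * rB
          + 2 * n * (rB - K0B - KeB) * rB ^ 2) ≤ (8 * n + 6) * (M + Cw) * S := by
  have e1 : 2 * K0e = r0 + re - 2 * n * (rB - W) := by rw [h1, h2, h3]; ring
  have e2 : 4 * n * K0B = 2 * n * (rB - W) + (r0 - re) := by rw [h1, h2, h3]; ring
  have e3 : 4 * n * KeB = 2 * n * (rB - W) - (r0 - re) := by rw [h1, h2, h3]; ring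
  have e4 : rB - K0B - KeB = W := by rw [h3]; ring
  have e5 : A * (2 * K0e * r0 * re + 4 * n * K0B * r0 * rB + 4 * n * KeB * re * rB
          + 2 * n * (rB - K0B - KeB) * rB ^ 2)
        = (A * r0 + A * re - 2 * n * (A * rB - A * W)) * (r0 * re)
          + (2 * n * (A * rB - A * W) + (A * r0 - A * re)) * (r0 * rB)
          + (2 * n * (A * rB - A * W) - (A * r0 - A * re)) * (re * rB)
          + (A * W) * (2 * n * rB ^ 2) := by
    rw [e4]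
    linear_combination A * r0 * re * e1 + A * r0 * rB * e2 + A * re * rB * e3
  rw [e5]
  clear e1 e2 e3 e4 e5 h1 h2 h3
  obtain ⟨m0a, m0b⟩ := abs_le.1 m0
  obtain ⟨mea, meb⟩ := abs_le.1 me
  obtain ⟨mBa, mBb⟩ := abs_le.1 mB
  obtain ⟨mWa, mWb⟩ := abs_le.1 mW
  have hn0 : 0 ≤ 2 * n := by linarith
  have w1 : 2 * n * (A * rB - A * W) ≤ 2 * n * (M + Cw) :=
    mul_le_mul_of_nonneg_left (by linarith) hn0
  have w2 : 2 * n * (-(M + Cw)) ≤ 2 * n * (A * rB - A * W) :=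
    mul_le_mul_of_nonneg_left (by linarith) hn0
  set L := 2 * M + 2 * n * (M + Cw) with hL
  have hL0 : 0 ≤ L := by positivity
  have d1 : |A * r0 + A * re - 2 * n * (A * rB - A * W)| ≤ L := by
    rw [abs_le]; constructor <;> linarith only [m0a, mea, w1, m0b, meb, w2]
  have d2 : |2 * n * (A * rB - A * W) + (A * r0 - A * re)| ≤ L := by
    rw [abs_le]; constructor <;> linarith only [m0a, meb, w2, m0b, mea, w1]
  have d3 : |2 * n * (A * rB - A * W) - (A * r0 - A * re)| ≤ L := by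
    rw [abs_le]; constructor <;> linarith only [m0b, mea, w2, m0a, meb, w1]
  have pr : ∀ u v : ℝ, |u| ≤ L → |v| ≤ S → u * v ≤ L * S := by
    intro u v hu hv
    calc u * v ≤ |u * v| := le_abs_self _
      _ = |u| * |v| := abs_mul u v
      _ ≤ L * S := mul_le_mul hu hv (abs_nonneg v) hL0
  have f1 := pr _ _ d1 (abs_mul_bound s0 se)
  have f2 := pr _ _ d2 (abs_mul_bound s0 sB)
  have f3 := pr _ _ d3 (abs_mul_bound se sB)
  have f4 : (A * W) * (2 * n * rB ^ 2) ≤ Cw * S := by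
    calc (A * W) * (2 * n * rB ^ 2) ≤ Cw * (2 * n * rB ^ 2) := by gcongr
      _ ≤ Cw * S := by gcongr
  have f5 : 3 * L + Cw ≤ (8 * n + 6) * (M + Cw) := by
    have g1 := mul_nonneg hM (by linarith only [hn] : (0:ℝ) ≤ n)
    have g2 := mul_nonneg hCw (by linarith : (0:ℝ) ≤ n)
    rw [hL]; linarith only [hCw, w1, w2]
  have f6 : (3 * L + Cw) * S ≤ (8 * n + 6) * (M + Cw) * S := mul_le_mul_of_nonneg_right f5 hS0
  linarith only [f1, f2, f3, f4, f6]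

/-- the gradient terms -/
lemma gradient_bound {n A h β y ρ r0 re rB x0 xe xB P₀ S : ℝ}
    (hn : 1 ≤ n) (hA : 0 < A) (hAh : A * h = 1) (hβ : 0 ≤ β) (hy : y = β * h)
    (hP : y * ρ ^ 2 ≤ P₀) (hS0 : 0 ≤ S) (hSdef : S = r0 ^ 2 + re ^ 2 + 2 * n * rB ^ 2) :
    -2 * A * β * (x0 ^ 2 + xe ^ 2 + 2 * n * xB ^ 2)
      - 8 * β * ρ * (r0 * x0 + re * xe + 2 * n * (rB * xB)) ≤ 8 * P₀ * S := by
  have e : -2 * A * β * (x0 ^ 2 + xe ^ 2 + 2 * n * xB ^ 2)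
      - 8 * β * ρ * (r0 * x0 + re * xe + 2 * n * (rB * xB))
      = -2 * A * β * ((x0 + 2 * ρ * r0 * h) ^ 2 + (xe + 2 * ρ * re * h) ^ 2
        + 2 * n * (xB + 2 * ρ * rB * h) ^ 2) + 8 * (β * h * ρ ^ 2) * S := by
    rw [hSdef]
    linear_combination (8 * β * ρ * (r0 * x0 + re * xe + 2 * n * (rB * xB))
        + 8 * β * h * ρ ^ 2 * (r0 ^ 2 + re ^ 2 + 2 * n * rB ^ 2)) * hAh
  rw [e, ← hy]
  have k1 : 0 ≤ 2 * A * β * ((x0 + 2 * ρ * r0 * h) ^ 2 + (xe + 2 * ρ * re * h) ^ 2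
        + 2 * n * (xB + 2 * ρ * rB * h) ^ 2) := by (clear * - hA hβ hn; positivity)
  have k2 : (y * ρ ^ 2) * S ≤ P₀ * S := mul_le_mul_of_nonneg_right hP hS0
  linarith only [k2, k1]

/-- sign of the reaction terms -/
lemma reaction_ineq {n A h β y ρ q om r0 re rB x0 xe xB W K0e K0B KeB c M Cw Y P₀ : ℝ}
    (hn : 1 ≤ n) (hA : 0 < A) (hAh : A * h = 1) (hβ : 0 ≤ β) (hy : y = β * h) (hyY : y ≤ Y)
    (hP : y * ρ ^ 2 ≤ P₀) (h1 : r0 = K0e + 2 * n * K0B) (h2 : re = K0e + 2 * n * KeB)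
    (h3 : rB = K0B + KeB + W) (hW : |W| ≤ Cw * h) (hM : 0 ≤ M)
    (hS : A ^ 2 * (r0 ^ 2 + re ^ 2 + 2 * n * rB ^ 2) ≤ M ^ 2)
    (hc : 4 * P₀ + 2 * (8 * n + 6) * (M + Cw) + 2 * Y ≤ c) :
    A * (-2 * β * (x0 ^ 2 + xe ^ 2 + 2 * n * xB ^ 2) - 4 * q ^ 2 * β * om ^ 2
        - 8 * n * β * h ^ 2 * ρ ^ 2 * (r0 - rB) ^ 2 - 8 * n * β * h ^ 2 * (re - rB) ^ 2
        + 4 * (2 * K0e * r0 * re + 4 * n * K0B * r0 * rB + 4 * n * KeB * re * rB
          + 2 * n * (rB - K0B - KeB) * rB ^ 2))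
      + (r0 ^ 2 + re ^ 2 + 2 * n * rB ^ 2) * (-4 * y * ρ ^ 2 - 4 * (n + 1) + 4 * y)
      - 8 * β * ρ * (r0 * x0 + re * xe + 2 * n * (rB * xB))
      - 2 * c * (r0 ^ 2 + re ^ 2 + 2 * n * rB ^ 2) ≤ 0 := by
  have hh : 0 < h := by
    by_contra hcon
    push Not at hcon
    nlinarith only [hA, hcon, hAh]
  obtain ⟨S, hSdef⟩ : ∃ S, S = r0 ^ 2 + re ^ 2 + 2 * n * rB ^ 2 := ⟨_, rfl⟩
  rw [← hSdef] at hS ⊢
  have hrB : 0 ≤ 2 * n * rB ^ 2 := by positivity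
  have hrB' : rB ^ 2 ≤ 2 * n * rB ^ 2 := by linarith only [mul_nonneg (sq_nonneg (rB : ℝ)) (sub_nonneg.2 hn), sq_nonneg (rB : ℝ)]
  have s0 : r0 ^ 2 ≤ S := by linarith [sq_nonneg re]
  have se : re ^ 2 ≤ S := by linarith [sq_nonneg r0]
  have sB : rB ^ 2 ≤ S := by linarith [sq_nonneg r0, sq_nonneg re]
  have sB2 : 2 * n * rB ^ 2 ≤ S := by linarith [sq_nonneg r0, sq_nonneg re]
  have hS0 : 0 ≤ S := by rw [hSdef]; (clear * - hn; positivity)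
  have hCw : 0 ≤ Cw := by
    have : 0 ≤ Cw * h := (abs_nonneg W).trans hW
    by_contra hcon
    push Not at hcon
    linarith only [mul_nonneg (le_of_lt (sub_pos.2 hA)) (sub_nonneg.2 this), mul_eq_zero_of_left (sub_eq_zero.2 hAh) (0 - (Cw)), hcon]
  -- bounds by M
  have b1 : ∀ r : ℝ, r ^ 2 ≤ S → |A * r| ≤ M := by
    intro r hr
    refine abs_le_of_sq_le_sq ?_ hM
    calc (A * r) ^ 2 = A ^ 2 * r ^ 2 := by ring
      _ ≤ A ^ 2 * S := by gcongr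
      _ ≤ M ^ 2 := hS
  have m0 := b1 r0 s0
  have me := b1 re se
  have mB := b1 rB sB
  have mW : |A * W| ≤ Cw := by
    rw [abs_mul, abs_of_pos hA]
    calc A * |W| ≤ A * (Cw * h) := by gcongr
      _ = Cw := by linear_combination Cw * hAh
  -- T1
  have T1 := gradient_bound (x0 := x0) (xe := xe) (xB := xB) hn hA hAh hβ hy hP hS0 hSdef
  -- T2
  have T2 : 0 ≤ A * (4 * q ^ 2 * β * om ^ 2
        + 8 * n * β * h ^ 2 * ρ ^ 2 * (r0 - rB) ^ 2 + 8 * n * β * h ^ 2 * (re - rB) ^ 2) := by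
    (clear * - hA hβ hn hh; positivity)
  -- T3
  have T3 : A * (2 * K0e * r0 * re + 4 * n * K0B * r0 * rB + 4 * n * KeB * re * rB
          + 2 * n * (rB - K0B - KeB) * rB ^ 2) ≤ (8 * n + 6) * (M + Cw) * S :=
    cubic_bound hn h1 h2 h3 hM hCw hS0 s0 se sB sB2 m0 me mB mW
  -- T4
  have hy0 : 0 ≤ y := by rw [hy]; positivity
  have T4 : S * (-4 * y * ρ ^ 2 - 4 * (n + 1) + 4 * y) ≤ S * (4 * Y) := by
    refine mul_le_mul_of_nonneg_left ?_ hS0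
    have : 0 ≤ y * ρ ^ 2 := by positivity
    linarith only [hn, hyY, this]
  have hc' : (4 * P₀ + 2 * (8 * n + 6) * (M + Cw) + 2 * Y) * S ≤ c * S :=
    mul_le_mul_of_nonneg_right hc hS0
  obtain ⟨X3, hX3⟩ : ∃ X3, X3 = 2 * K0e * r0 * re + 4 * n * K0B * r0 * rB + 4 * n * KeB * re * rB
          + 2 * n * (rB - K0B - KeB) * rB ^ 2 := ⟨_, rfl⟩
  rw [← hX3] at T3 ⊢
  have e : A * (-2 * β * (x0 ^ 2 + xe ^ 2 + 2 * n * xB ^ 2) - 4 * q ^ 2 * β * om ^ 2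
        - 8 * n * β * h ^ 2 * ρ ^ 2 * (r0 - rB) ^ 2 - 8 * n * β * h ^ 2 * (re - rB) ^ 2
        + 4 * X3)
      + S * (-4 * y * ρ ^ 2 - 4 * (n + 1) + 4 * y)
      - 8 * β * ρ * (r0 * x0 + re * xe + 2 * n * (rB * xB))
      - 2 * c * S
      = (-2 * A * β * (x0 ^ 2 + xe ^ 2 + 2 * n * xB ^ 2)
      - 8 * β * ρ * (r0 * x0 + re * xe + 2 * n * (rB * xB)))
      - A * (4 * q ^ 2 * β * om ^ 2
        + 8 * n * β * h ^ 2 * ρ ^ 2 * (r0 - rB) ^ 2 + 8 * n * β * h ^ 2 * (re - rB) ^ 2)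
      + 4 * (A * X3) + S * (-4 * y * ρ ^ 2 - 4 * (n + 1) + 4 * y) - 2 * (c * S) := by ring
  rw [e]
  calc _ ≤ 8 * P₀ * S - 0 + 4 * ((8 * n + 6) * (M + Cw) * S) + S * (4 * Y)
      - 2 * ((4 * P₀ + 2 * (8 * n + 6) * (M + Cw) + 2 * Y) * S) := by
        gcongr
    _ = 0 := by ring

end Vale.Agent.P244.BB
end
end

section

section

/-! The estimate `a^2 |Ric|^2 ≤ C` under bounded scalar curvature. -/

open Set Topology Filter
open scoped ContDiff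

set_option linter.unusedSimpArgs false

namespace Vale.Agent.P244.BB

namespace RData

variable {n : ℕ} {κ T : ℝ} (M : RData n κ T)

/-- first order bounds -/
lemma exists_bounds (hM : M.IsRF) (hn : 1 ≤ n) (hT : 0 < T) :
    ∃ Y P₀ Q₀ A₀ : ℝ, 1 ≤ Y ∧ 0 ≤ P₀ ∧ 1 ≤ Q₀ ∧ 1 ≤ A₀ ∧ ∀ p ∈ dom T,
      ext M.F.y p ≤ Y ∧ ext (M.F.y * M.F.ρ ^ 2) p ≤ P₀ ∧ |ext M.F.q p| ≤ Q₀ ∧ ext M.A p ≤ A₀ := by
  have h00 : (0 : ℝ) ∈ Icc (0 : ℝ) 0 := ⟨le_rfl, le_rfl⟩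
  obtain ⟨c1, hc1, b1⟩ := bdd_slice M.F.y hT
  obtain ⟨c2, hc2, b2⟩ := bdd_slice (M.F.y * M.F.ρ ^ 2) hT
  obtain ⟨c3, hc3, b3⟩ := bdd_slice M.F.q hT
  obtain ⟨c4, hc4, b4⟩ := bdd_slice M.A hT
  set Y := c1 + 1 with hY
  have hY1 : 1 ≤ Y := by linarith
  have hy := M.y_le hM hY1 (fun z hz => by
    have := (abs_le.1 (b1 z hz 0 h00)).2; linarith)
  set P₀ := 2 * ((n : ℝ) + 1) + 4 * Y ^ 2 + 1 + c2 with hP₀
  have hPp := M.P_le hM hn hY1 hy (P₀ := P₀) (by linarith) (fun z hz => by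
    have h1 := (abs_le.1 (b2 z hz 0 h00)).2
    have : 0 < 2 * ((n : ℝ) + 1) + 4 * Y ^ 2 + 1 := by positivity
    linarith)
  set Q₀ := 2 * Y + κ + 1 + c3 with hQ₀
  have hκ := M.κpos
  have hq1 := M.q_le hM hY1 hy (Q₀ := Q₀) (by linarith) (by linarith) (fun z hz => by
    have h1 := (abs_le.1 (b3 z hz 0 h00)).2
    linarith) hn
  have hq2 := M.q_ge hM hY1 hy (Q₀ := Q₀) (by linarith) (by linarith) (fun z hz => by
    have h1 := (abs_le.1 (b3 z hz 0 h00)).1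
    linarith) hn
  have hA := M.A_le hM hY1 hy (A₀ := c4) (fun z hz => (abs_le.1 (b4 z hz 0 h00)).2)
  refine ⟨Y, P₀, Q₀, c4 + 1 + 4 * Y * T, hY1, ?_, by linarith, ?_, ?_⟩
  · positivity
  · have : 0 ≤ 4 * Y * T := by positivity
    linarith
  · intro p hp
    exact ⟨hy p hp, (hPp p hp).le, abs_le.2 ⟨(hq2 p hp).le, (hq1 p hp).le⟩, hA p hp⟩

/-- pointwise evaluations of `r0, re, rB` -/
lemma ext_r0 {p : ℝ × ℝ} (hp : p ∈ dom T) :
    ext M.F.r0 p = ext M.F.K0e p + 2 * n * ext M.F.K0B p := by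
  have : ev hp M.F.r0 = ev hp (M.F.K0e + 2 * M.F.m * M.F.K0B) := rfl
  simpa only [map_add, map_mul, map_ofNat, ev_eq, M.ext_m hp] using this

lemma ext_re {p : ℝ × ℝ} (hp : p ∈ dom T) :
    ext M.F.re p = ext M.F.K0e p + 2 * n * ext M.F.KeB p := by
  have : ev hp M.F.re = ev hp (M.F.K0e + 2 * M.F.m * M.F.KeB) := rfl
  simpa only [map_add, map_mul, map_ofNat, ev_eq, M.ext_m hp] using this

lemma ext_rB {p : ℝ × ℝ} (hp : p ∈ dom T) :
    ext M.F.rB p = ext M.F.K0B p + ext M.F.KeB p + ext M.F.W p := by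
  have : ev hp M.F.rB = ev hp (M.F.K0B + M.F.KeB + M.F.W) := rfl
  simpa only [map_add, map_mul, map_ofNat, ev_eq, M.ext_m hp] using this

lemma ext_P {p : ℝ × ℝ} (hp : p ∈ dom T) :
    ext (M.F.y * M.F.ρ ^ 2) p = ext M.F.y p * ext M.F.ρ p ^ 2 := by
  rw [← ev_eq hp]; simp only [map_mul, map_pow, ev_eq]

lemma ext_W {p : ℝ × ℝ} (hp : p ∈ dom T) :
    ext M.F.W p = ext M.h p * (2 * (n + 1) - 3 * ext M.F.y p
      - (2 * n - 1) * ext (M.F.y * M.F.ρ ^ 2) p) := by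
  have : ev hp M.F.W = ev hp (M.h * (2 * (M.F.m + 1) - 3 * M.F.y
      - (2 * M.F.m - 1) * M.F.y * M.F.ρ ^ 2)) := rfl
  simp only [map_add, map_sub, map_mul, map_pow, map_ofNat, map_one, ev_eq, M.ext_m hp] at this
  rw [this, M.ext_P hp]; ring

lemma ext_Ric2 {p : ℝ × ℝ} (hp : p ∈ dom T) :
    ext M.F.Ric2 p = ext M.F.r0 p ^ 2 + ext M.F.re p ^ 2 + 2 * n * ext M.F.rB p ^ 2 := by
  have : ev hp M.F.Ric2 = ev hp (M.F.r0 ^ 2 + M.F.re ^ 2 + 2 * M.F.m * M.F.rB ^ 2) := rfl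
  simpa only [map_add, map_mul, map_ofNat, map_pow, ev_eq, M.ext_m hp] using this

lemma W_le {Y P₀ : ℝ} (hn : 1 ≤ n) {p : ℝ × ℝ} (hp : p ∈ dom T)
    (hy : ext M.F.y p ≤ Y) (hP : ext (M.F.y * M.F.ρ ^ 2) p ≤ P₀) :
    |ext M.F.W p| ≤ (2 * (n + 1) + 3 * Y + (2 * n - 1) * P₀) * ext M.h p := by
  have hh := M.h_pos hp
  have hy0 := M.y_nonneg hp
  have hP0 : 0 ≤ ext (M.F.y * M.F.ρ ^ 2) p := by
    rw [M.ext_P hp]; positivity
  have hn' : (1 : ℝ) ≤ n := by exact_mod_cast hn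
  rw [M.ext_W hp, abs_mul, abs_of_pos hh, mul_comm]
  refine mul_le_mul_of_nonneg_right ?_ hh.le
  rw [abs_le]
  have k1 : (2 * (n : ℝ) - 1) * ext (M.F.y * M.F.ρ ^ 2) p ≤ (2 * n - 1) * P₀ :=
    mul_le_mul_of_nonneg_left hP (by linarith)
  have k2 : 0 ≤ (2 * (n : ℝ) - 1) * ext (M.F.y * M.F.ρ ^ 2) p :=
    mul_nonneg (by linarith) hP0
  constructor <;> linarith only [hy, hn', k1, hy0, k2]

/-- the element appearing in the evolution of `A Ric2 - c sc` -/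
noncomputable def NF (c : ℝ) : smoothAlg T :=
  M.F.A * (- 2 * M.F.β * M.F.G3 - 4 * M.F.q ^ 2 * M.F.β * M.F.om ^ 2
        - 8 * M.F.m * M.F.β * M.F.h ^ 2 * M.F.ρ ^ 2 * (M.F.r0 - M.F.rB) ^ 2
        - 8 * M.F.m * M.F.β * M.F.h ^ 2 * (M.F.re - M.F.rB) ^ 2 + 4 * M.F.Q3)
      + M.F.Ric2 * (- 4 * M.F.y * M.F.ρ ^ 2 - 4 * (M.F.m + 1) + 4 * M.F.y)
      - 8 * M.F.β * M.F.ρ * (M.F.r0 * M.F.D M.F.r0 + M.F.re * M.F.D M.F.re
        + 2 * M.F.m * (M.F.rB * M.F.D M.F.rB))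
      - 2 * cst c * M.F.Ric2

lemma NF_id (hM : M.IsRF) (c : ℝ) :
    dt (M.A * M.F.Ric2 - cst c * M.F.sc) = M.β * M.D (M.D (M.A * M.F.Ric2
        - cst c * M.F.sc)) + (((2 : ℕ) : smoothAlg T) * M.F.q + M.β * (2 * M.F.m * M.F.ρ * M.F.h))
          * M.D (M.A * M.F.Ric2 - cst c * M.F.sc) + M.NF c := by
  have h1 := M.F.key (M.isFlow hM) (cst c) (M.D.map_algebraMap c)
    ((pdD (T := T) (0, 1)).map_algebraMap c)
  change dt (M.A * M.F.Ric2 - cst c * M.F.sc) = (M.β * M.D (M.D (M.A * M.F.Ric2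
    - cst c * M.F.sc)) + (2 * M.F.q + 2 * M.F.m * M.β * M.F.ρ * M.F.h) * M.D (M.A * M.F.Ric2
    - cst c * M.F.sc)) + _ + _ - _ - _ at h1
  rw [h1, NF]; push_cast; ring

lemma NF_nonpos (hn : 1 ≤ n) {p : ℝ × ℝ} (hp : p ∈ dom T) {c MM Y P₀ : ℝ}
    (hMM : 0 ≤ MM) (hy : ext M.F.y p ≤ Y) (hP : ext (M.F.y * M.F.ρ ^ 2) p ≤ P₀)
    (hS : ext (M.A ^ 2 * M.F.Ric2) p ≤ MM ^ 2)
    (hc : 4 * P₀ + 2 * (8 * n + 6) * (MM + (2 * (n + 1) + 3 * Y + (2 * n - 1) * P₀)) + 2 * Y ≤ c) :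
    ext (M.NF c) p ≤ 0 := by
  have hn' : (1 : ℝ) ≤ n := by exact_mod_cast hn
  have e : ext (M.NF c) p = ext M.A p * (-2 * ext M.β p * (ext (M.F.D M.F.r0) p ^ 2
        + ext (M.F.D M.F.re) p ^ 2 + 2 * n * ext (M.F.D M.F.rB) p ^ 2)
        - 4 * ext M.F.q p ^ 2 * ext M.β p * ext M.F.om p ^ 2
        - 8 * n * ext M.β p * ext M.h p ^ 2 * ext M.F.ρ p ^ 2 * (ext M.F.r0 p - ext M.F.rB p) ^ 2
        - 8 * n * ext M.β p * ext M.h p ^ 2 * (ext M.F.re p - ext M.F.rB p) ^ 2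
        + 4 * (2 * ext M.F.K0e p * ext M.F.r0 p * ext M.F.re p
          + 4 * n * ext M.F.K0B p * ext M.F.r0 p * ext M.F.rB p
          + 4 * n * ext M.F.KeB p * ext M.F.re p * ext M.F.rB p
          + 2 * n * (ext M.F.rB p - ext M.F.K0B p - ext M.F.KeB p) * ext M.F.rB p ^ 2))
      + (ext M.F.r0 p ^ 2 + ext M.F.re p ^ 2 + 2 * n * ext M.F.rB p ^ 2)
        * (-4 * ext M.F.y p * ext M.F.ρ p ^ 2 - 4 * (n + 1) + 4 * ext M.F.y p)
      - 8 * ext M.β p * ext M.F.ρ p * (ext M.F.r0 p * ext (M.F.D M.F.r0) p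
        + ext M.F.re p * ext (M.F.D M.F.re) p + 2 * n * (ext M.F.rB p * ext (M.F.D M.F.rB) p))
      - 2 * c * (ext M.F.r0 p ^ 2 + ext M.F.re p ^ 2 + 2 * n * ext M.F.rB p ^ 2) := by
    rw [← ev_eq hp]
    simp only [NF, FlowAlg.G3, FlowAlg.Q3, map_add, map_sub, map_mul, map_neg, map_pow, map_ofNat,
        map_one, ev_eq, M.ext_m hp, ext_cst c hp, M.ext_Ric2 hp]
    rfl
  rw [e]
  have hS' : ext M.A p ^ 2 * (ext M.F.r0 p ^ 2 + ext M.F.re p ^ 2 + 2 * n * ext M.F.rB p ^ 2)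
      ≤ MM ^ 2 := by
    rw [← ev_eq hp] at hS
    simp only [map_mul, map_pow, ev_eq, M.ext_Ric2 hp] at hS
    exact hS
  have hW := M.W_le hn hp hy hP
  rw [M.ext_P hp] at hP
  exact reaction_ineq hn' (M.Apos _ hp) (M.Ah hp) (M.β_nonneg hp) (M.ext_y hp) hy
        hP (M.ext_r0 hp) (M.ext_re hp) (M.ext_rB hp) hW hMM hS' hc

/-- comparison for `A Ric2 - c sc` up to time `t` -/
lemma comp_ric (hM : M.IsRF) (hn : 1 ≤ n) (hT : 0 < T) {C₀ Y P₀ c MM K₁ : ℝ}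
    (hR : ∀ p ∈ dom T, |ext M.F.sc p| ≤ C₀) (hc0 : 0 ≤ c) (hMM : 0 ≤ MM)
    (hb : ∀ p ∈ dom T, ext M.F.y p ≤ Y ∧ ext (M.F.y * M.F.ρ ^ 2) p ≤ P₀)
    (b1 : ∀ z ∈ Icc (-1 : ℝ) 1, ext (M.A * M.F.Ric2) (z, 0) ≤ K₁)
    (hc : 4 * P₀ + 2 * (8 * n + 6) * (MM + (2 * (n + 1) + 3 * Y + (2 * n - 1) * P₀)) + 2 * Y ≤ c)
    (t : ℝ) (ht : t ∈ Ico 0 T) (hyp : ∀ z ∈ Icc (-1 : ℝ) 1, ∀ s ∈ Icc 0 t,
      ext (M.A ^ 2 * M.F.Ric2) (z, s) ≤ MM ^ 2) : ∀ z ∈ Icc (-1 : ℝ) 1,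
      ext (M.A * M.F.Ric2) (z, t) ≤ K₁ + 2 * (c * C₀) := by
  intro z hz
  refine le_of_forall_pos_lt_add fun ε hε => ?_
  set δ := ε / (1 + T) with hδ
  have hδ0 : 0 < δ := by positivity
  have h2 := M.cmp (M.A * M.F.Ric2 - cst c * M.F.sc) (M.NF c) _ ((2 : ℕ) : ℝ) (by simp)
    (M.hf_of (M.NF_id hM c))
    (fun s => K₁ + c * C₀ + δ * (1 + s)) (fun _ => δ) (by fun_prop)
    (fun s _ => by
      have := (((hasDerivAt_id s).const_add 1).const_mul δ).const_add (K₁ + c * C₀)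
      simpa using this) ?_ t ht.2 ?_ z hz t ⟨ht.1, le_rfl⟩
  · have hp : (z, t) ∈ dom T := mem_dom hz ht
    have h3 := hR _ hp
    rw [ext_sub, ext_mul (cst c), ext_cst _ hp] at h2
    have h4 : c * ext M.F.sc (z, t) ≤ c * C₀ :=
      mul_le_mul_of_nonneg_left (abs_le.1 h3).2 hc0
    have h5 : δ * (1 + t) < ε := by
      rw [hδ, div_mul_eq_mul_div, div_lt_iff₀ (by linarith)]
      have := ht.2
      nlinarith only [hε, this]
    linarith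
  · intro w hw
    have hp : (w, 0) ∈ dom T := mem_dom hw ⟨le_rfl, hT⟩
    have h3 := hR _ hp
    have h4 := b1 w hw
    rw [ext_sub, ext_mul (cst c), ext_cst _ hp]
    have h5 : c * (-C₀) ≤ c * ext M.F.sc (w, 0) :=
      mul_le_mul_of_nonneg_left (abs_le.1 h3).1 hc0
    simp only [add_zero, mul_one]
    linarith
  · intro w hw s hs _ _
    have hs' : s ∈ Ico 0 T := ⟨hs.1.le, lt_of_le_of_lt hs.2 ht.2⟩
    have hp : (w, s) ∈ dom T := mem_dom hw hs'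
    refine lt_of_le_of_lt ?_ hδ0
    have hS := hyp w hw s ⟨hs.1.le, hs.2⟩
    exact M.NF_nonpos hn hp hMM (hb _ hp).1 (hb _ hp).2 hS hc

/-- The key estimate: bounded scalar curvature gives `a^2 |Ric|^2 ≤ K`. -/
theorem ric_le (hM : M.IsRF) (hn : 1 ≤ n) (hT : 0 < T) {C₀ : ℝ}
    (hR : ∀ p ∈ dom T, |ext M.F.sc p| ≤ C₀) :
    ∃ K : ℝ, 0 ≤ K ∧ ∀ p ∈ dom T, ext M.A p * ext M.F.Ric2 p ≤ K := by
  obtain ⟨Y, P₀, Q₀, A₀, hY, hP₀, hQ₀, hA₀, hb⟩ := M.exists_bounds hM hn hT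
  have hn' : (1 : ℝ) ≤ n := by exact_mod_cast hn
  have hC₀ : 0 ≤ C₀ := (abs_nonneg _).trans
    (hR (0, 0) (mem_dom (by norm_num) ⟨le_rfl, hT⟩))
  have h00 : (0 : ℝ) ∈ Icc (0 : ℝ) 0 := ⟨le_rfl, le_rfl⟩
  obtain ⟨K₁, hK₁, b1⟩ := bdd_slice (M.A * M.F.Ric2) hT
  obtain ⟨K₂, hK₂, b2⟩ := bdd_slice (M.A ^ 2 * M.F.Ric2) hT
  obtain ⟨Cw, hCw⟩ : ∃ Cw, Cw = 2 * ((n : ℝ) + 1) + 3 * Y + (2 * n - 1) * P₀ := ⟨_, rfl⟩
  have hCw0 : 0 ≤ Cw := by
    have : 0 ≤ (2 * (n : ℝ) - 1) * P₀ := mul_nonneg (by linarith) hP₀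
    rw [hCw]; linarith only [hY, this]
  obtain ⟨c₀, hc₀⟩ : ∃ c₀, c₀ = 4 * P₀ + 2 * (8 * n + 6) * Cw + 2 * Y := ⟨_, rfl⟩
  obtain ⟨c₁, hc₁⟩ : ∃ c₁, c₁ = 2 * (8 * (n : ℝ) + 6) := ⟨_, rfl⟩
  have hc₀0 : 0 ≤ c₀ := by rw [hc₀]; positivity
  have hc₁0 : 0 ≤ c₁ := by rw [hc₁]; positivity
  obtain ⟨L, hL⟩ : ∃ L, L = A₀ * (K₁ + 2 * C₀ * (c₀ + c₁)) := ⟨_, rfl⟩
  have hL0 : 0 ≤ L := by rw [hL]; (clear * - hA₀ hK₁ hC₀ hc₀0 hc₁0; positivity)
  obtain ⟨MM, hMM⟩ : ∃ MM, MM = L + K₂ + 2 := ⟨_, rfl⟩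
  have hMM1 : 1 ≤ MM := by linarith
  obtain ⟨c, hc⟩ : ∃ c, c = c₀ + c₁ * MM := ⟨_, rfl⟩
  have hc0 : 0 ≤ c := by rw [hc]; positivity
  have comp := M.comp_ric hM hn hT hR hc0 (by linarith : 0 ≤ MM)
    (fun p hp => ⟨(hb p hp).1, (hb p hp).2.1⟩)
    (fun z hz => (abs_le.1 (b1 z hz 0 h00)).2)
    (by rw [← hCw, hc, hc₀, hc₁]; linarith)
  -- `A^2 Ric2 < MM^2` everywhere
  have all : ∀ p ∈ dom T, ext (M.A ^ 2 * M.F.Ric2) p ≤ MM ^ 2 := by
    rintro ⟨z, t⟩ hp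
    by_contra hcon
    push Not at hcon
    obtain ⟨z₀, hz₀, t₀, ht₀, h1, h2, h3⟩ := first_touch (u := ext (M.A ^ 2 * M.F.Ric2))
      (φ := fun _ => MM ^ 2) (ext_continuousOn _) continuousOn_const (fun w hw => by
        have h4 := (abs_le.1 (b2 w hw 0 h00)).2
        have h5 : K₂ < MM ^ 2 := by nlinarith only [hL0, hMM]
        linarith) hp.1 hp.2 hcon.le
    have ht₀' : t₀ ∈ Ico 0 T := ⟨ht₀.1.le, lt_of_le_of_lt ht₀.2 hp.2.2⟩
    have hp₀ : (z₀, t₀) ∈ dom T := mem_dom hz₀ ht₀'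
    have h4 := comp t₀ ht₀' h2 z₀ hz₀
    have h5 : ext (M.A ^ 2 * M.F.Ric2) (z₀, t₀) = ext M.A (z₀, t₀)
        * ext (M.A * M.F.Ric2) (z₀, t₀) := by
      rw [← ev_eq hp₀, ← ev_eq hp₀, ← ev_eq hp₀]
      simp only [map_mul, map_pow]; ring
    rw [h5] at h1
    have hA1 := M.Apos _ hp₀
    have hA2 := (hb _ hp₀).2.2.2
    have h6 : MM ^ 2 ≤ A₀ * (K₁ + 2 * (c * C₀)) := by
      have h7 : 0 ≤ K₁ + 2 * (c * C₀) := by (clear * - hK₁ hc0 hC₀; positivity)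
      calc MM ^ 2 = ext M.A (z₀, t₀) * ext (M.A * M.F.Ric2) (z₀, t₀) := h1.symm
        _ ≤ ext M.A (z₀, t₀) * (K₁ + 2 * (c * C₀)) := by gcongr
        _ ≤ A₀ * (K₁ + 2 * (c * C₀)) := by gcongr
    have h8 : A₀ * (K₁ + 2 * (c * C₀)) ≤ L * MM := by
      have e1 : L * MM = A₀ * (K₁ * MM + 2 * C₀ * (c₀ * MM + c₁ * MM)) := by rw [hL]; ring
      rw [e1, hc]
      have g1 : K₁ ≤ K₁ * MM := le_mul_of_one_le_right hK₁ hMM1
      have g2 : c₀ ≤ c₀ * MM := le_mul_of_one_le_right hc₀0 hMM1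
      have g3 : 2 * ((c₀ + c₁ * MM) * C₀) ≤ 2 * C₀ * (c₀ * MM + c₁ * MM) := by
        have : (c₀ + c₁ * MM) * C₀ ≤ (c₀ * MM + c₁ * MM) * C₀ := by gcongr
        linarith only [this]
      have g4 : K₁ + 2 * ((c₀ + c₁ * MM) * C₀) ≤ K₁ * MM + 2 * C₀ * (c₀ * MM + c₁ * MM) := by
        linarith only [g1, g3]
      gcongr
    have h9 : L * MM < MM ^ 2 := by
      have : L < MM := by linarith only [hK₂, hMM]
      nlinarith only [hK₂, hL0, hMM]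
    linarith
  refine ⟨K₁ + 2 * (c * C₀), by (clear * - hK₁ hc0 hC₀; positivity), ?_⟩
  rintro ⟨z, t⟩ hp
  have h1 := comp t hp.2 (fun z hz s hs => all _ (mem_dom hz ⟨hs.1, lt_of_le_of_lt hs.2 hp.2.2⟩))
    z hp.1
  rwa [ext_mul] at h1

end RData

end Vale.Agent.P244.BB
end
end

section

section

/-! Reflection `z ↦ -z`. -/

open Set Topology Filter
open scoped ContDiff

set_option linter.unusedSimpArgs false

namespace Vale.Agent.P244.BB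

variable {T : ℝ}

lemma refl_mem {p : ℝ × ℝ} (hp : p ∈ dom T) : (-p.1, p.2) ∈ dom T :=
  ⟨⟨by linarith [hp.1.2], by linarith [hp.1.1]⟩, hp.2⟩

/-- composition with the reflection, as a ring homomorphism -/
def refl : smoothAlg T →+* smoothAlg T where
  toFun f := ⟨fun p => f.1 ⟨(-p.1.1, p.1.2), refl_mem p.2⟩, by
    obtain ⟨F, hF, hfF⟩ := f.2
    refine ⟨fun p => F (-p.1, p.2), ?_, fun p => hfF _⟩
    exact hF.comp ((contDiff_fst.neg.prodMk contDiff_snd).contDiffOn) (fun p hp => refl_mem hp)⟩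
  map_one' := rfl
  map_mul' _ _ := rfl
  map_zero' := rfl
  map_add' _ _ := rfl

lemma ext_refl (f : smoothAlg T) (z t : ℝ) : ext (refl f) (z, t) = ext f (-z, t) := by
  by_cases hp : (z, t) ∈ dom T
  · have hp' : (-z, t) ∈ dom T := refl_mem hp
    rw [ext_apply _ hp, ext_apply _ hp']; rfl
  · have hp' : (-z, t) ∉ dom T := by
      intro h; apply hp; have := refl_mem h; simpa using this
    simp [ext, hp, hp']

lemma dz_refl (f : smoothAlg T) : dz (refl f) = - refl (dz f) := by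
  apply smooth_ext
  rintro ⟨z, t⟩ hp
  have hz := hp.1
  have ht := hp.2
  simp only at hz ht
  have hz' : -z ∈ Icc (-1 : ℝ) 1 := ⟨by linarith [hz.2], by linarith [hz.1]⟩
  have h1 := hasDerivWithinAt_z (refl f) hz ht
  have h2 := hasDerivWithinAt_z f hz' ht
  have h3 : HasDerivWithinAt (fun w : ℝ => -w) (-1) (Icc (-1) 1) z :=
    (hasDerivAt_neg z).hasDerivWithinAt
  have h4 := HasDerivWithinAt.comp z h2 h3 (fun w hw => ⟨by linarith [hw.2], by linarith [hw.1]⟩)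
  have h5 : ((fun z => ext f (z, t)) ∘ fun w => -w) = fun w => ext (refl f) (w, t) := by
    funext w; simp [ext_refl]
  rw [h5] at h4
  have hU := uniqueDiffOn_Icc (show (-1 : ℝ) < 1 by norm_num) z hz
  have h6 := hU.eq_deriv _ h1 h4
  rw [ext_neg, ext_refl, h6]; ring

lemma dt_refl (f : smoothAlg T) : dt (refl f) = refl (dt f) := by
  apply smooth_ext
  rintro ⟨z, t⟩ hp
  have hz := hp.1
  have ht := hp.2
  simp only at hz ht
  have hz' : -z ∈ Icc (-1 : ℝ) 1 := ⟨by linarith [hz.2], by linarith [hz.1]⟩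
  have h1 := hasDerivWithinAt_t (refl f) hz ht
  have h2 := hasDerivWithinAt_t f hz' ht
  have h5 : (fun s => ext f (-z, s)) = fun s => ext (refl f) (z, s) := by
    funext w; rw [ext_refl]
  rw [h5] at h2
  have hU := uniqueDiffOn_Ico 0 T t ht
  have h6 := hU.eq_deriv _ h1 h2
  rw [ext_refl, h6]

namespace RData

variable {n : ℕ} {κ : ℝ} (M : RData n κ T)

/-- the reflected data -/
noncomputable def reflect : RData n κ T where
  E := refl M.E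
  β := refl M.β
  A := refl M.A
  κpos := M.κpos
  Epos := by
    rintro ⟨z, t⟩ hp; rw [ext_refl]; exact M.Epos _ (refl_mem hp)
  Apos := by
    rintro ⟨z, t⟩ hp; rw [ext_refl]; exact M.Apos _ (refl_mem hp)
  βpos := by
    intro z hz t ht
    rw [ext_refl]
    exact M.βpos _ ⟨by linarith [hz.2], by linarith [hz.1]⟩ t ht
  βl := by intro t ht; rw [ext_refl, neg_neg]; exact M.βr t ht
  βr := by intro t ht; rw [ext_refl]; exact M.βl t ht
  cl := by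
    intro t ht
    rw [dz_refl, ext_neg, ext_refl, ext_refl, neg_neg, M.cr t ht]; ring
  cr := by
    intro t ht
    rw [dz_refl, ext_neg, ext_refl, ext_refl, M.cl t ht]

lemma reflect_Ei : M.reflect.Ei = refl M.Ei := by
  apply smooth_ext
  rintro ⟨z, t⟩ hp
  rw [M.reflect.ext_Ei hp, ext_refl, M.ext_Ei (refl_mem hp)]
  change (ext (refl M.E) (z, t))⁻¹ = _
  rw [ext_refl]

lemma reflect_h : M.reflect.h = refl M.h := by
  apply smooth_ext
  rintro ⟨z, t⟩ hp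
  rw [M.reflect.ext_h hp, ext_refl, M.ext_h (refl_mem hp)]
  change (ext (refl M.A) (z, t))⁻¹ = _
  rw [ext_refl]

lemma reflect_D (f : smoothAlg T) : M.reflect.D (refl f) = - refl (M.D f) := by
  rw [D_apply, D_apply, reflect_Ei, dz_refl, map_mul]; ring

lemma refl_smul (c : ℝ) (f : smoothAlg T) : refl (c • f) = c • refl f := by
  apply smooth_ext
  rintro ⟨z, t⟩ hp
  rw [ext_refl, ext_smul, ext_smul, ext_refl]

lemma reflect_ρ : M.reflect.F.ρ = - refl M.F.ρ := by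
  change (1 / 2 : ℝ) • M.reflect.D (refl M.A) = - refl ((1 / 2 : ℝ) • M.D M.A)
  rw [reflect_D, refl_smul, smul_neg]

lemma reflect_q : M.reflect.F.q = - refl M.F.q := by
  change (1 / 2 : ℝ) • M.reflect.D (refl M.β) = - refl ((1 / 2 : ℝ) • M.D M.β)
  rw [reflect_D, refl_smul, smul_neg]

lemma reflect_ρ1 : M.reflect.F.ρ1 = refl M.F.ρ1 := by
  change M.reflect.D M.reflect.F.ρ = refl (M.D M.F.ρ)
  rw [reflect_ρ, map_neg, reflect_D, neg_neg]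

lemma reflect_q1 : M.reflect.F.q1 = refl M.F.q1 := by
  change M.reflect.D M.reflect.F.q = refl (M.D M.F.q)
  rw [reflect_q, map_neg, reflect_D, neg_neg]

lemma reflect_β : M.reflect.F.β = refl M.F.β := rfl
lemma reflect_h' : M.reflect.F.h = refl M.F.h := M.reflect_h
lemma reflect_m : M.reflect.F.m = refl M.F.m := by
  change (n : smoothAlg T) = refl (n : smoothAlg T)
  rw [map_natCast]

lemma reflect_y : M.reflect.F.y = refl M.F.y := by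
  simp only [FlowAlg.y, reflect_β, reflect_h', map_mul]

lemma reflect_K0e : M.reflect.F.K0e = refl M.F.K0e := by
  simp only [FlowAlg.K0e, reflect_q1, map_neg]

lemma reflect_K0B : M.reflect.F.K0B = refl M.F.K0B := by
  simp only [FlowAlg.K0B, reflect_q, reflect_ρ, reflect_ρ1, reflect_β, reflect_h', map_neg,
    map_mul, map_add, map_pow]; ring

lemma reflect_KeB : M.reflect.F.KeB = refl M.F.KeB := by
  simp only [FlowAlg.KeB, reflect_q, reflect_ρ, reflect_β, reflect_h', map_neg,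
    map_mul, map_add, map_sub, map_pow]; ring

lemma reflect_r0 : M.reflect.F.r0 = refl M.F.r0 := by
  simp only [FlowAlg.r0, reflect_K0e, reflect_K0B, reflect_m, map_add, map_mul, map_ofNat]

lemma reflect_re : M.reflect.F.re = refl M.F.re := by
  simp only [FlowAlg.re, reflect_K0e, reflect_KeB, reflect_m, map_add, map_mul, map_ofNat]

lemma reflect_rB : M.reflect.F.rB = refl M.F.rB := by
  simp only [FlowAlg.rB, FlowAlg.W, reflect_K0B, reflect_KeB, reflect_m, reflect_y, reflect_ρ,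
    reflect_h', map_add, map_mul, map_sub, map_ofNat, map_one, map_pow]; ring

lemma reflect_isRF (hM : M.IsRF) : M.reflect.IsRF where
  dtE := by
    change dt (refl M.E) = _ * refl M.E
    rw [dt_refl, hM.dtE]
    simp only [FlowAlg.μ, reflect_r0, reflect_re, map_mul, map_neg, map_add]
  dtA := by
    change dt (refl M.A) = _ * _ * refl M.A
    rw [dt_refl, hM.dtA]
    simp only [reflect_rB, map_mul, map_neg, map_ofNat]
  dtβ := by
    change dt (refl M.β) = _ * _ * refl M.β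
    rw [dt_refl, hM.dtβ]
    simp only [reflect_re, map_mul, map_neg, map_ofNat]

end RData

end Vale.Agent.P244.BB
end
end

section

section

/-! One-dimensional tools in the space variable. -/

open Set Topology Filter
open scoped ContDiff

set_option linter.unusedSimpArgs false

namespace Vale.Agent.P244.BB

/-- last zero -/
lemma exists_last_zero {f : ℝ → ℝ} {a b : ℝ} (hab : a ≤ b) (hf : ContinuousOn f (Icc a b))
    (ha : 0 ≤ f a) (hb : f b < 0) : ∃ c ∈ Ico a b, f c = 0 ∧ ∀ z ∈ Ioc c b, f z < 0 := by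
  set S : Set ℝ := Icc a b ∩ f ⁻¹' (Ici 0) with hS
  have hSc : IsCompact S :=
    isCompact_Icc.of_isClosed_subset (hf.preimage_isClosed_of_isClosed isClosed_Icc isClosed_Ici)
      inter_subset_left
  have hSn : S.Nonempty := ⟨a, ⟨le_rfl, hab⟩, ha⟩
  obtain ⟨c, hcS, hcu⟩ := hSc.exists_isGreatest hSn
  have hcb : c < b := by
    refine lt_of_le_of_ne hcS.1.2 ?_
    rintro rfl
    have : 0 ≤ f c := hcS.2
    linarith
  refine ⟨c, ⟨hcS.1.1, hcb⟩, ?_, ?_⟩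
  · have h1 : (0 : ℝ) ∈ Icc (f b) (f c) := ⟨hb.le, hcS.2⟩
    obtain ⟨z, hz, hz0⟩ := intermediate_value_Icc' hcb.le
      (hf.mono (Icc_subset_Icc hcS.1.1 le_rfl)) h1
    have h2 : z ∈ S := ⟨⟨hcS.1.1.trans hz.1, hz.2⟩, by simp [hz0]⟩
    have h3 := hcu h2
    have h4 : z = c := le_antisymm h3 hz.1
    rw [← h4]; exact hz0
  · intro z hz
    by_contra hcon
    push Not at hcon
    have h2 : z ∈ S := ⟨⟨hcS.1.1.trans hz.1.le, hz.2⟩, hcon⟩
    have h3 := hcu h2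
    exact absurd hz.1 (not_lt.2 h3)

variable {T : ℝ}

lemma cont_z (f : smoothAlg T) {t : ℝ} (ht : t ∈ Ico 0 T) :
    ContinuousOn (fun z => ext f (z, t)) (Icc (-1) 1) :=
  fun _ hz => (hasDerivWithinAt_z f hz ht).continuousWithinAt

namespace RData

variable {n : ℕ} {κ : ℝ} (M : RData n κ T)

lemma mono_D (f : smoothAlg T) {a b t : ℝ} (ha : -1 ≤ a) (hb : b ≤ 1) (ht : t ∈ Ico 0 T)
    (h : ∀ z ∈ Ioo a b, 0 ≤ ext (M.D f) (z, t)) :
    MonotoneOn (fun z => ext f (z, t)) (Icc a b) := by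
  have hd : ∀ z ∈ Ioo a b, HasDerivAt (fun z => ext f (z, t)) (ext (dz f) (z, t)) z := by
    intro z hz
    exact hasDerivAt_z f ⟨lt_of_le_of_lt ha hz.1, lt_of_lt_of_le hz.2 hb⟩ ht
  refine monotoneOn_of_deriv_nonneg (convex_Icc a b)
    ((cont_z f ht).mono (Icc_subset_Icc ha hb)) ?_ ?_
  · rw [interior_Icc]
    intro z hz
    exact (hd z hz).differentiableAt.differentiableWithinAt
  · rw [interior_Icc]
    intro z hz
    rw [(hd z hz).deriv]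
    have hp : (z, t) ∈ dom T := mem_dom ⟨ha.trans hz.1.le, hz.2.le.trans hb⟩ ht
    have h1 := h z hz
    rw [M.ext_D f hp] at h1
    have hE := M.Epos _ hp
    by_contra hcon
    push Not at hcon
    have := div_neg_of_neg_of_pos hcon hE
    linarith

/-- first order barrier -/
lemma barrier (f : smoothAlg T) {a b t : ℝ} (ha : -1 ≤ a) (hb : b ≤ 1) (ht : t ∈ Ico 0 T)
    (h0 : 0 ≤ ext f (a, t))
    (h : ∀ z ∈ Ioo a b, ext f (z, t) < 0 → 0 ≤ ext (M.D f) (z, t)) :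
    ∀ z ∈ Icc a b, 0 ≤ ext f (z, t) := by
  intro z hz
  by_contra hcon
  push Not at hcon
  obtain ⟨c, hc, hc0, hc1⟩ := exists_last_zero (f := fun z => ext f (z, t)) hz.1
    ((cont_z f ht).mono (Icc_subset_Icc ha (hz.2.trans hb))) h0 hcon
  have hm := M.mono_D f (a := c) (b := z) (ha.trans hc.1) (hz.2.trans hb) ht (by
    intro w hw
    exact h w ⟨lt_of_le_of_lt hc.1 hw.1, lt_of_lt_of_le hw.2 hz.2⟩ (hc1 w ⟨hw.1, hw.2.le⟩))
  have := hm ⟨le_rfl, hc.2.le⟩ ⟨hc.2.le, le_rfl⟩ hc.2.le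
  simp only at this hc0
  rw [hc0] at this
  linarith

lemma ext_DA {p : ℝ × ℝ} (hp : p ∈ dom T) : ext (M.D M.A) p = 2 * ext M.F.ρ p := by
  have := pt _ _ M.F.DA hp
  simp only [map_mul, map_ofNat, ev_eq] at this
  exact this

/-- left of a point with `ρ > 0` and `A ≤ δ`, `ρ` stays positive and `A` is increasing. -/
lemma rho_pos_left {δ z₀ t : ℝ} (hz₀ : z₀ ∈ Icc (-1 : ℝ) 1) (ht : t ∈ Ico 0 T)
    (h0 : ∀ z ∈ Icc (-1 : ℝ) 1, ext M.A (z, t) ≤ δ → ext M.F.ρ (z, t) = 0 →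
      0 ≤ ext M.F.ρ1 (z, t) → False)
    (hρ : 0 < ext M.F.ρ (z₀, t)) (hA : ext M.A (z₀, t) ≤ δ) :
    (∀ z ∈ Icc (-1 : ℝ) z₀, 0 < ext M.F.ρ (z, t)) ∧
    MonotoneOn (fun z => ext M.A (z, t)) (Icc (-1) z₀) := by
  have key : ∀ z ∈ Icc (-1 : ℝ) z₀, 0 < ext M.F.ρ (z, t) := by
    intro z hz
    by_contra hcon
    push Not at hcon
    obtain ⟨c, hc, hc0, hc1⟩ := exists_last_zero (f := fun z => ext (-M.F.ρ) (z, t)) hz.2
      ((cont_z _ ht).mono (Icc_subset_Icc hz.1 hz₀.2)) (by rw [ext_neg]; linarith)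
      (by rw [ext_neg]; linarith)
    have hcI : c ∈ Icc (-1 : ℝ) 1 := ⟨hz.1.trans hc.1, hc.2.le.trans hz₀.2⟩
    have hpos : ∀ w ∈ Ioc c z₀, 0 < ext M.F.ρ (w, t) := by
      intro w hw
      have := hc1 w hw
      simp only [ext_neg] at this
      linarith
    have hc0' : ext M.F.ρ (c, t) = 0 := by
      simp only [ext_neg] at hc0
      linarith
    have hm := M.mono_D M.A (a := c) (b := z₀) hcI.1 hz₀.2 ht (by
      intro w hw
      have hp : (w, t) ∈ dom T := mem_dom ⟨hcI.1.trans hw.1.le, hw.2.le.trans hz₀.2⟩ ht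
      rw [M.ext_DA hp]
      have := hpos w ⟨hw.1, hw.2.le⟩
      linarith)
    have h1 := hm ⟨le_rfl, hc.2.le⟩ ⟨hc.2.le, le_rfl⟩ hc.2.le
    refine h0 c hcI (le_trans h1 hA) hc0' ?_
    -- `D ρ ≥ 0` at `c`
    have hp : (c, t) ∈ dom T := mem_dom hcI ht
    have e : ext M.F.ρ1 (c, t) = ext (dz M.F.ρ) (c, t) / ext M.E (c, t) := M.ext_D M.F.ρ hp
    rw [e]
    refine div_nonneg ?_ (M.Epos _ hp).le
    have hd := (hasDerivWithinAt_z M.F.ρ hcI ht).mono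
      (show Icc c z₀ ⊆ Icc (-1 : ℝ) 1 from Icc_subset_Icc hcI.1 hz₀.2)
    rw [hasDerivWithinAt_iff_tendsto_slope] at hd
    have hcl : c ∈ closure (Icc c z₀ \ {c}) := by
      have h3 : Ioc c z₀ ⊆ Icc c z₀ \ {c} := by
        intro x hx; exact ⟨⟨hx.1.le, hx.2⟩, by simp; exact (ne_of_gt hx.1)⟩
      refine closure_mono h3 ?_
      rw [closure_Ioc hc.2.ne]; exact ⟨le_rfl, hc.2.le⟩
    have : (𝓝[Icc c z₀ \ {c}] c).NeBot := mem_closure_iff_nhdsWithin_neBot.1 hcl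
    refine ge_of_tendsto hd ?_
    filter_upwards [self_mem_nhdsWithin] with w hw
    have h5 : c < w := lt_of_le_of_ne hw.1.1 (fun h => hw.2 h.symm)
    rw [slope_def_field, hc0']
    have := hpos w ⟨h5, hw.1.2⟩
    apply div_nonneg <;> linarith
  refine ⟨key, ?_⟩
  refine M.mono_D M.A le_rfl hz₀.2 ht ?_
  intro w hw
  have hp : (w, t) ∈ dom T := mem_dom ⟨hw.1.le, hw.2.le.trans hz₀.2⟩ ht
  rw [M.ext_DA hp]
  have := key w ⟨hw.1.le, hw.2.le⟩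
  linarith

end RData

end Vale.Agent.P244.BB
end
end

section

section

/-! One-dimensional touching lemmas. -/

open Set Topology Filter
open scoped ContDiff

set_option linter.unusedSimpArgs false

namespace Vale.Agent.P244.BB

lemma slope_right {f : ℝ → ℝ} {f' a₀ b₀ b c : ℝ} (hd : HasDerivWithinAt f f' (Icc a₀ b₀) c)
    (ha : a₀ ≤ c) (hcb : c < b) (hb : b ≤ b₀) (h : ∀ w ∈ Ioc c b, f c ≤ f w) : 0 ≤ f' := by
  have hd := hd.mono (show Icc c b ⊆ Icc a₀ b₀ from Icc_subset_Icc ha hb)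
  rw [hasDerivWithinAt_iff_tendsto_slope] at hd
  have hcl : c ∈ closure (Icc c b \ {c}) := by
    have h3 : Ioc c b ⊆ Icc c b \ {c} := by
      intro x hx; exact ⟨⟨hx.1.le, hx.2⟩, by simp; exact (ne_of_gt hx.1)⟩
    refine closure_mono h3 ?_
    rw [closure_Ioc hcb.ne]; exact ⟨le_rfl, hcb.le⟩
  have : (𝓝[Icc c b \ {c}] c).NeBot := mem_closure_iff_nhdsWithin_neBot.1 hcl
  refine ge_of_tendsto hd ?_
  filter_upwards [self_mem_nhdsWithin] with w hw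
  have h5 : c < w := lt_of_le_of_ne hw.1.1 (fun h => hw.2 h.symm)
  rw [slope_def_field]
  have := h w ⟨h5, hw.1.2⟩
  apply div_nonneg <;> linarith

lemma slope_left {f : ℝ → ℝ} {f' a₀ b₀ a c : ℝ} (hd : HasDerivWithinAt f f' (Icc a₀ b₀) c)
    (ha : a₀ ≤ a) (hac : a < c) (hb : c ≤ b₀) (h : ∀ w ∈ Ico a c, f c ≤ f w) : f' ≤ 0 := by
  have hd := hd.mono (show Icc a c ⊆ Icc a₀ b₀ from Icc_subset_Icc ha hb)
  rw [hasDerivWithinAt_iff_tendsto_slope] at hd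
  have hcl : c ∈ closure (Icc a c \ {c}) := by
    have h3 : Ico a c ⊆ Icc a c \ {c} := by
      intro x hx; exact ⟨⟨hx.1, hx.2.le⟩, by simp; exact (ne_of_lt hx.2)⟩
    refine closure_mono h3 ?_
    rw [closure_Ico hac.ne]; exact ⟨hac.le, le_rfl⟩
  have : (𝓝[Icc a c \ {c}] c).NeBot := mem_closure_iff_nhdsWithin_neBot.1 hcl
  refine le_of_tendsto hd ?_
  filter_upwards [self_mem_nhdsWithin] with w hw
  have h5 : w < c := lt_of_le_of_ne hw.1.2 (fun h => hw.2 h)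
  rw [slope_def_field]
  have := h w ⟨hw.1.1, h5⟩
  apply div_nonpos_of_nonneg_of_nonpos <;> linarith

/-- first zero -/
lemma exists_first_zero {f : ℝ → ℝ} {a b : ℝ} (hab : a ≤ b) (hf : ContinuousOn f (Icc a b))
    (ha : 0 < f a) (hb : f b ≤ 0) : ∃ c ∈ Ioc a b, f c = 0 ∧ ∀ z ∈ Ico a c, 0 < f z := by
  set S : Set ℝ := Icc a b ∩ f ⁻¹' (Iic 0) with hS
  have hSc : IsCompact S :=
    isCompact_Icc.of_isClosed_subset (hf.preimage_isClosed_of_isClosed isClosed_Icc isClosed_Iic)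
      inter_subset_left
  have hSn : S.Nonempty := ⟨b, ⟨hab, le_rfl⟩, hb⟩
  obtain ⟨c, hcS, hcu⟩ := hSc.exists_isLeast hSn
  have hac : a < c := by
    refine lt_of_le_of_ne hcS.1.1 ?_
    rintro rfl
    have : f a ≤ 0 := hcS.2
    linarith
  refine ⟨c, ⟨hac, hcS.1.2⟩, ?_, ?_⟩
  · have h1 : (0 : ℝ) ∈ Icc (f c) (f a) := ⟨hcS.2, ha.le⟩
    obtain ⟨z, hz, hz0⟩ := intermediate_value_Icc' hac.le
      (hf.mono (Icc_subset_Icc le_rfl hcS.1.2)) h1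
    have h2 : z ∈ S := ⟨⟨hz.1, hz.2.trans hcS.1.2⟩, by simp [hz0]⟩
    have h3 := hcu h2
    have h4 : z = c := le_antisymm hz.2 h3
    rw [← h4]; exact hz0
  · intro z hz
    by_contra hcon
    push Not at hcon
    have h2 : z ∈ S := ⟨⟨hz.1, hz.2.le.trans hcS.1.2⟩, hcon⟩
    have h3 := hcu h2
    exact absurd hz.2 (not_lt.2 h3)

namespace RData

variable {T : ℝ} {n : ℕ} {κ : ℝ} (M : RData n κ T)

/-- backward touching lemma -/
lemma touch_back (f : smoothAlg T) {a b t : ℝ} (ha : -1 ≤ a) (hb : b ≤ 1) (ht : t ∈ Ico 0 T)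
    (hfb : 0 < ext f (b, t)) (h : ∀ z ∈ Ico a b, ext f (z, t) = 0 → ext (M.D f) (z, t) < 0) :
    ∀ z ∈ Icc a b, 0 < ext f (z, t) := by
  intro z hz
  by_contra hcon
  push Not at hcon
  obtain ⟨c, hc, hc0, hc1⟩ := exists_last_zero (f := fun z => ext (-f) (z, t)) hz.2
    ((cont_z _ ht).mono (Icc_subset_Icc (ha.trans hz.1) hb)) (by rw [ext_neg]; linarith)
    (by rw [ext_neg]; linarith)
  have hcI : c ∈ Icc (-1 : ℝ) 1 := ⟨ha.trans (hz.1.trans hc.1), hc.2.le.trans hb⟩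
  have hp : (c, t) ∈ dom T := mem_dom hcI ht
  have hc0' : ext f (c, t) = 0 := by simp only [ext_neg] at hc0; linarith
  have h1 := slope_right (hasDerivWithinAt_z f hcI ht) hcI.1 hc.2 hb (by
    intro w hw
    have := hc1 w hw
    simp only [ext_neg] at this
    simp only [hc0']
    linarith)
  have h2 := h c ⟨hz.1.trans hc.1, hc.2⟩ hc0'
  rw [M.ext_D f hp] at h2
  have := div_nonneg h1 (M.Epos _ hp).le
  linarith

/-- forward touching lemma -/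
lemma touch_forw (f : smoothAlg T) {a b t : ℝ} (ha : -1 ≤ a) (hb : b ≤ 1) (ht : t ∈ Ico 0 T)
    (hfa : 0 < ext f (a, t)) (h : ∀ z ∈ Ioc a b, ext f (z, t) = 0 → 0 < ext (M.D f) (z, t)) :
    ∀ z ∈ Icc a b, 0 < ext f (z, t) := by
  intro z hz
  by_contra hcon
  push Not at hcon
  obtain ⟨c, hc, hc0, hc1⟩ := exists_first_zero (f := fun z => ext f (z, t)) hz.1
    ((cont_z _ ht).mono (Icc_subset_Icc ha (hz.2.trans hb))) hfa hcon
  have hcI : c ∈ Icc (-1 : ℝ) 1 := ⟨ha.trans hc.1.le, (hc.2.trans hz.2).trans hb⟩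
  have hp : (c, t) ∈ dom T := mem_dom hcI ht
  have h1 := slope_left (hasDerivWithinAt_z f hcI ht) ha hc.1 hcI.2 (by
    intro w hw
    have := hc1 w hw
    simp only [hc0]
    linarith)
  have h2 := h c ⟨hc.1, hc.2.trans hz.2⟩ hc0
  rw [M.ext_D f hp] at h2
  have := div_nonpos_of_nonpos_of_nonneg h1 (M.Epos _ hp).le
  linarith

end RData

end Vale.Agent.P244.BB
end
end
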