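import Vale.Agent.P244.MathlibUsed
import Vale.Agent.P244.Bdl.B1
import Vale.Agent.P244.BBDefs
attribute [-instance] ProperSMul.toContinuousSMul IsTopologicalTorsor.toContinuousSMul IdemSemiring.toCanonicallyOrderedAdd IdemSemiring.toMulLeftMono IdemSemiring.toMulRightMono AddQuantale.instAddLeftMono AddQuantale.instAddRightMono Quantale.instMulLeftMono Quantale.instMulRightMono FiniteDimensional.rclike_to_real IsScalarTower.complexToReal FiniteDimensional.complexToReal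

set_option linter.all false

section

section

/-! Final steps: a lower bound for `A` from bolt inequalities, and curvature bounds from it. -/

open Set Topology Filter
open scoped ContDiff

set_option linter.unusedSimpArgs false

namespace Vale.Agent.P244.BB

namespace RData

variable {n : ℕ} {κ T : ℝ} (M : RData n κ T)

/-- lower bound for `A`. -/
lemma A_ge_of (hT : 0 < T) {δ G : ℝ} (hδ : 0 < δ) (hG : 0 ≤ G)
    (hint : ∀ z ∈ Ioo (-1 : ℝ) 1, ∀ t ∈ Ico 0 T, ext M.A (z, t) ≤ δ →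
      (∀ w ∈ Icc (-1 : ℝ) 1, ext M.A (z, t) ≤ ext M.A (w, t)) → False)
    (hl : ∀ t ∈ Ico 0 T, ext M.A (-1, t) ≤ δ →
      (∀ w ∈ Icc (-1 : ℝ) 1, ext M.A (-1, t) ≤ ext M.A (w, t)) →
      - (G * ext M.A (-1, t)) ≤ ext (dt M.A) (-1, t))
    (hr : ∀ t ∈ Ico 0 T, ext M.A (1, t) ≤ δ →
      (∀ w ∈ Icc (-1 : ℝ) 1, ext M.A (1, t) ≤ ext M.A (w, t)) →
      - (G * ext M.A (1, t)) ≤ ext (dt M.A) (1, t)) :
    ∃ c : ℝ, 0 < c ∧ ∀ p ∈ dom T, c ≤ ext M.A p := by
  have h00 : (0 : ℝ) ∈ Icc (0 : ℝ) 0 := ⟨le_rfl, le_rfl⟩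
  obtain ⟨C, hC, b1⟩ := bdd_slice M.h hT
  obtain ⟨c, hc⟩ : ∃ c, c = min δ (1 / (C + 1)) := ⟨_, rfl⟩
  have hc0 : 0 < c := by rw [hc]; positivity
  have hcδ : c ≤ δ := by rw [hc]; exact min_le_left _ _
  have hA0 : ∀ z ∈ Icc (-1 : ℝ) 1, c < ext M.A (z, 0) := by
    intro z hz
    have hp : (z, (0 : ℝ)) ∈ dom T := mem_dom hz ⟨le_rfl, hT⟩
    have h1 := (abs_le.1 (b1 z hz 0 h00)).2
    have h2 := M.Ah hp
    have h3 := M.Apos _ hp
    have h4 : c ≤ 1 / (C + 1) := by rw [hc]; exact min_le_right _ _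
    have h5 : 1 / (C + 1) < ext M.A (z, 0) := by
      rw [div_lt_iff₀ (by linarith)]
      linarith only [mul_nonneg (le_of_lt (sub_pos.2 h3)) (sub_nonneg.2 h1), h3, h2]
    linarith
  have main : ∀ p ∈ dom T, c * Real.exp (-((G + 1) * p.2)) ≤ ext M.A p := by
    rintro ⟨z, t⟩ hp
    by_contra hcon
    push Not at hcon
    obtain ⟨z₀, hz₀, t₀, ht₀, h1, h2, h3⟩ := first_touch (u := ext (-M.A))
      (φ := fun s => -(c * Real.exp (-((G + 1) * s)))) (ext_continuousOn _)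
      (by fun_prop) (fun w hw => by
        rw [ext_neg]; simp only [mul_zero, neg_zero, Real.exp_zero, mul_one]
        linarith [hA0 w hw]) hp.1 hp.2 (by rw [ext_neg]; linarith)
    have ht₀' : t₀ ∈ Ioo 0 T := ⟨ht₀.1, lt_of_le_of_lt ht₀.2 hp.2.2⟩
    have ht₀'' : t₀ ∈ Ico 0 T := ⟨ht₀'.1.le, ht₀'.2⟩
    have hp₀ : (z₀, t₀) ∈ dom T := mem_dom hz₀ ht₀''
    have hA1 := M.Apos _ hp₀
    rw [ext_neg] at h1
    have h1' : ext M.A (z₀, t₀) = c * Real.exp (-((G + 1) * t₀)) := by linarith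
    have hle : ext M.A (z₀, t₀) ≤ δ := by
      rw [h1']
      have : Real.exp (-((G + 1) * t₀)) ≤ 1 := by
        rw [Real.exp_le_one_iff]
        have := mul_nonneg (by linarith : 0 ≤ G + 1) ht₀'.1.le
        linarith
      linarith only [mul_nonneg (le_of_lt (sub_pos.2 hc0)) (sub_nonneg.2 this), hcδ]
    have hmin : ∀ w ∈ Icc (-1 : ℝ) 1, ext M.A (z₀, t₀) ≤ ext M.A (w, t₀) := by
      intro w hw
      have := h2 w hw t₀ ⟨ht₀'.1.le, le_rfl⟩
      rw [ext_neg] at this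
      linarith
    have hd : HasDerivAt (fun s => -(c * Real.exp (-((G + 1) * s))))
        ((G + 1) * (c * Real.exp (-((G + 1) * t₀)))) t₀ := by
      have e1 : HasDerivAt (fun s : ℝ => -((G + 1) * s)) (-((G + 1) * 1)) t₀ :=
        ((hasDerivAt_id t₀).const_mul (G + 1)).neg
      have e2 := (e1.exp.const_mul c).neg
      refine e2.congr_deriv ?_
      ring
    have h4 := time_ineq (-M.A) hz₀ ht₀' hd (by rw [ext_neg]; exact h1) (by
      have : Ioo 0 t₀ ∈ 𝓝[<] t₀ := Ioo_mem_nhdsLT ht₀'.1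
      filter_upwards [this] with s hs
      exact (h3 z₀ hz₀ s ⟨hs.1.le, hs.2⟩).le)
    have e1 : dt (-M.A) = - dt M.A := (pdD (T := T) (0, 1)).map_neg _
    rw [e1, ext_neg, ← h1'] at h4
    rcases hz₀.1.eq_or_lt with h | h
    · subst h
      have := hl t₀ ht₀'' hle hmin
      linarith
    rcases hz₀.2.eq_or_lt with h' | h'
    · subst h'
      have := hr t₀ ht₀'' hle hmin
      linarith
    · exact hint z₀ ⟨h, h'⟩ t₀ ht₀'' hle hmin
  refine ⟨c * Real.exp (-((G + 1) * T)), by positivity, fun p hp => le_trans ?_ (main p hp)⟩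
  have : (G + 1) * p.2 ≤ (G + 1) * T := mul_le_mul_of_nonneg_left hp.2.2.le (by linarith)
  gcongr

lemma real_bounds {n r w K0e K0B KeB r0 re rB W : ℝ} (hn : 1 ≤ n) (hr : 0 ≤ r) (hw : 0 ≤ w)
    (a1 : |r0| ≤ r) (a2 : |re| ≤ r) (a3 : |rB| ≤ r) (a4 : |W| ≤ w)
    (e0 : r0 = K0e + 2 * n * K0B) (e1 : re = K0e + 2 * n * KeB) (e2 : rB = K0B + KeB + W) :
    |K0e| ≤ r + 2 * n * (2 * r + w) ∧ |K0B| ≤ r + 2 * n * (2 * r + w) ∧
    |KeB| ≤ r + 2 * n * (2 * r + w) := by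
  have hn0 : 0 < n := by linarith
  have f1 : 2 * K0B = rB - W + (r0 - re) / (2 * n) := by
    field_simp
    linear_combination (-2 * n) * e2 + (-1) * e0 + e1
  have f2 : 2 * KeB = rB - W - (r0 - re) / (2 * n) := by
    field_simp
    linear_combination (-2 * n) * e2 + e0 - e1
  have a1' := abs_le.1 a1
  have a2' := abs_le.1 a2
  have a3' := abs_le.1 a3
  have a4' := abs_le.1 a4
  have f3 : |(r0 - re) / (2 * n)| ≤ 2 * r := by
    rw [abs_div, abs_of_pos (by positivity : (0 : ℝ) < 2 * n), div_le_iff₀ (by positivity)]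
    have h1 : |r0 - re| ≤ 2 * r := by rw [abs_le]; constructor <;> linarith only [a1', a2']
    linarith only [mul_nonneg (sub_nonneg.2 hr) (sub_nonneg.2 hn), h1, hr]
  have f3' := abs_le.1 f3
  have f4 : |K0B| ≤ 2 * r + w := by
    rw [abs_le]; constructor <;> linarith only [f1, a3', a4', f3']
  have f5 : |KeB| ≤ 2 * r + w := by
    rw [abs_le]; constructor <;> linarith only [e2, f1, a3', a4', f3']
  have f6 : 2 * r + w ≤ 2 * n * (2 * r + w) := by
    have : 0 ≤ 2 * r + w := by positivity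
    nlinarith only [hr, hw, hn]
  refine ⟨?_, ?_, ?_⟩
  · have f7 : |2 * n * K0B| ≤ 2 * n * (2 * r + w) := by
      rw [abs_mul, abs_of_pos (by positivity : (0 : ℝ) < 2 * n)]
      gcongr
    have f7' := abs_le.1 f7
    rw [abs_le]; constructor <;> linarith only [e0, a1', f7']
  · linarith only [hr, f4, f6]
  · linarith only [hr, f5, f6]

lemma real_bounds2 {y ρ q Y P₀ Q₀ : ℝ} (b0 : 0 ≤ y) (b1 : y ≤ Y) (b2 : y * ρ ^ 2 ≤ P₀)
    (b3 : |q| ≤ Q₀) : |q - y * ρ| ≤ Q₀ + (Y + P₀) := by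
  have g1 : |y * ρ| ≤ Y + P₀ := by
    rw [abs_le]
    constructor
    · linarith only [b0, b1, b2, mul_nonneg b0 (sq_nonneg (ρ + 1)), mul_nonneg b0 (sq_nonneg ρ)]
    · linarith only [b0, b1, b2, mul_nonneg b0 (sq_nonneg (ρ - 1)), mul_nonneg b0 (sq_nonneg ρ)]
  have g2 := abs_le.1 g1
  have g3 := abs_le.1 b3
  rw [abs_le]; constructor <;> linarith

lemma ric_comp_le {p : ℝ × ℝ} (hp : p ∈ dom T) (hn : 1 ≤ n) {K c : ℝ} (hc : 0 < c)
    (h1 : ext M.A p * ext M.F.Ric2 p ≤ K) (h2 : c ≤ ext M.A p) :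
    |ext M.F.r0 p| ≤ Real.sqrt (K / c) ∧ |ext M.F.re p| ≤ Real.sqrt (K / c) ∧
      |ext M.F.rB p| ≤ Real.sqrt (K / c) := by
  have hn' : (1 : ℝ) ≤ n := by exact_mod_cast hn
  have h3 := M.Apos p hp
  have h4 : ext M.F.Ric2 p ≤ K / c := by
    rw [le_div_iff₀ hc]
    have h5 : 0 ≤ ext M.F.Ric2 p := by rw [M.ext_Ric2 hp]; positivity
    nlinarith only [h1, h2, h5]
  have h5 : 0 ≤ K / c := by
    have : 0 ≤ ext M.F.Ric2 p := by rw [M.ext_Ric2 hp]; (clear * - hn; positivity)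
    linarith
  rw [M.ext_Ric2 hp] at h4
  have hr0 : 0 ≤ Real.sqrt (K / c) := Real.sqrt_nonneg _
  have h6 : Real.sqrt (K / c) ^ 2 = K / c := Real.sq_sqrt h5
  have g1 : 0 ≤ ext M.F.r0 p ^ 2 := sq_nonneg _
  have g2 : 0 ≤ ext M.F.re p ^ 2 := sq_nonneg _
  have g3 : 0 ≤ ext M.F.rB p ^ 2 := sq_nonneg _
  have g4 : ext M.F.rB p ^ 2 ≤ 2 * n * ext M.F.rB p ^ 2 := by nlinarith only [hn']
  refine ⟨?_, ?_, ?_⟩
  · refine abs_le_of_sq_le_sq ?_ hr0; linarith only [h4, h6, g2, g3, g4]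
  · refine abs_le_of_sq_le_sq ?_ hr0; linarith only [h4, h6, g1, g3, g4]
  · refine abs_le_of_sq_le_sq ?_ hr0; linarith only [h4, h6, g1, g2, g4]

/-- boundedness of all curvature components -/
lemma bounded_of_A_ge (hM : M.IsRF) (hn : 1 ≤ n) (hT : 0 < T) {C₀ c : ℝ}
    (hR : ∀ p ∈ dom T, |ext M.F.sc p| ≤ C₀) (hc : 0 < c) (hA : ∀ p ∈ dom T, c ≤ ext M.A p) :
    ∃ C : ℝ, ∀ p ∈ dom T, |ext M.F.K0e p| ≤ C ∧ |ext M.F.K0B p| ≤ C ∧ |ext M.F.KeB p| ≤ C ∧
      ext M.h p ≤ C ∧ ext M.F.y p * ext M.h p ≤ C ∧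
      ext (M.F.y * M.F.ρ ^ 2) p * ext M.h p ≤ C ∧
      |(ext M.F.q p - ext M.F.y p * ext M.F.ρ p) * ext M.h p| ≤ C := by
  obtain ⟨K, hK0, hK⟩ := M.ric_le hM hn hT hR
  obtain ⟨Y, P₀, Q₀, A₀, hY, hP₀, hQ₀, hA₀, hb⟩ := M.exists_bounds hM hn hT
  have hn' : (1 : ℝ) ≤ n := by exact_mod_cast hn
  obtain ⟨r, hr⟩ : ∃ r, r = Real.sqrt (K / c) := ⟨_, rfl⟩
  have hr0 : 0 ≤ r := by rw [hr]; positivity
  obtain ⟨w, hw⟩ : ∃ w, w = (2 * ((n : ℝ) + 1) + 3 * Y + (2 * n - 1) * P₀) * (1 / c) := ⟨_, rfl⟩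
  have hCw : 0 ≤ 2 * ((n : ℝ) + 1) + 3 * Y + (2 * n - 1) * P₀ := by
    have : 0 ≤ (2 * (n : ℝ) - 1) * P₀ := mul_nonneg (by linarith only [hn']) hP₀
    linarith only [hY, this]
  have hc' : 0 < 1 / c := by positivity
  have hw0 : 0 ≤ w := by rw [hw]; (clear * - hCw hc; positivity)
  have p1 : 0 ≤ Y * (1 / c) := by positivity
  have p2 : 0 ≤ P₀ * (1 / c) := by positivity
  have p3 : 0 ≤ (Q₀ + (Y + P₀)) * (1 / c) := by positivity
  have p4 : 0 ≤ r + 2 * (n : ℝ) * (2 * r + w) := by (clear * - hr0 hn hw0; positivity)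
  refine ⟨(r + 2 * n * (2 * r + w)) + 1 / c + Y * (1 / c) + P₀ * (1 / c)
    + (Q₀ + (Y + P₀)) * (1 / c), ?_⟩
  intro p hp
  obtain ⟨a1, a2, a3⟩ := M.ric_comp_le hp hn hc (hK p hp) (hA p hp)
  rw [← hr] at a1 a2 a3
  have a5 : 0 ≤ ext M.h p := (M.h_pos hp).le
  have a6 : ext M.h p ≤ 1 / c := by
    rw [M.ext_h hp, one_div]
    exact inv_anti₀ hc (hA p hp)
  obtain ⟨b1, b2, b3, b4⟩ := hb p hp
  have a4 : |ext M.F.W p| ≤ w := by
    refine (M.W_le hn hp b1 b2).trans ?_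
    rw [hw]
    exact mul_le_mul_of_nonneg_left a6 hCw
  have b0 := M.y_nonneg hp
  obtain ⟨k1, k2, k3⟩ := real_bounds hn' hr0 hw0 a1 a2 a3 a4 (M.ext_r0 hp) (M.ext_re hp)
    (M.ext_rB hp)
  refine ⟨?_, ?_, ?_, ?_, ?_, ?_, ?_⟩
  · linarith only [hc', p1, p2, p3, k1]
  · linarith only [hc', p1, p2, p3, k2]
  · linarith only [k3, p3, p2, p1, hc']
  · linarith only [p1, p2, p3, p4, a6]
  · have : ext M.F.y p * ext M.h p ≤ Y * (1 / c) := by gcongr
    linarith only [hc', p2, p3, p4, this]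
  · have : ext (M.F.y * M.F.ρ ^ 2) p * ext M.h p ≤ P₀ * (1 / c) := by gcongr
    linarith only [hc', p1, p3, p4, this]
  · rw [M.ext_P hp] at b2
    have g2 := real_bounds2 b0 b1 b2 b3
    rw [abs_mul, abs_of_nonneg a5]
    have : |ext M.F.q p - ext M.F.y p * ext M.F.ρ p| * ext M.h p
        ≤ (Q₀ + (Y + P₀)) * (1 / c) := by
      gcongr
    linarith only [hc', p1, p2, p4, this]

end RData

end Vale.Agent.P244.BB
end
end

section

section

/-! The class `b ≤ a`, `|a a_s| ≤ b`. -/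

open Set Topology Filter
open scoped ContDiff

set_option linter.unusedSimpArgs false

namespace Vale.Agent.P244.BB

namespace RData

variable {n : ℕ} {κ T : ℝ} (M : RData n κ T)

/-- first order identity -/
lemma ext_sc_sub {p : ℝ × ℝ} (hp : p ∈ dom T) (hn : 1 ≤ n) :
    2 * ext M.F.ρ p * ext M.F.q p = 2 * (n + 1) - ext M.F.y p
      - (2 * n - 1) * ext M.F.y p * ext M.F.ρ p ^ 2
      - ext M.A p * (ext M.F.sc p - 2 * ext M.F.r0 p) / (2 * n) := by
  have h1 := pt _ _ M.F.sc_sub hp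
  have hn' : (1 : ℝ) ≤ n := by exact_mod_cast hn
  simp only [map_mul, map_add, map_sub, map_one, map_ofNat, map_pow, ev_eq, M.ext_m hp] at h1
  have h2 := M.Ah hp
  have h3 : ext M.F.h p = ext M.h p := rfl
  rw [h3] at h1
  rw [h1]
  field_simp
  linear_combination (2 * (n + 1 : ℝ) - ext M.F.y p
    - (2 * n - 1) * ext M.F.y p * ext M.F.ρ p ^ 2 - 2 * ext M.F.ρ p * ext M.F.q p) * h2

lemma ext_Pi {p : ℝ × ℝ} (hp : p ∈ dom T) :
    ext M.F.Pi p = ext M.F.q p + 2 * n * ext M.F.y p * ext M.F.ρ p - n * ext M.F.y p - (n + 1) := by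
  have h1 : ev hp M.F.Pi = ev hp (M.F.q + 2 * M.F.m * M.F.y * M.F.ρ - M.F.m * M.F.y
    - (M.F.m + 1)) := rfl
  simp only [map_mul, map_add, map_sub, map_neg, map_one, map_ofNat, map_pow, ev_eq,
    M.ext_m hp] at h1
  exact h1

lemma cst_D (c : ℝ) : M.D (cst c) = 0 := M.D.map_algebraMap c

end RData

end Vale.Agent.P244.BB
end
end

section

section

/-! The function `r = √A` and first order relations with errors `O(r)`. -/

open Set Topology Filter
open scoped ContDiff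

set_option linter.unusedSimpArgs false

namespace Vale.Agent.P244.BB

variable {T : ℝ}

/-- square root of a positive element -/
noncomputable def sqrtS (f : smoothAlg T) (hf : ∀ p ∈ dom T, 0 < ext f p) : smoothAlg T :=
  mkS (fun p => √(ext f p)) ((ext_contDiffOn f).sqrt (fun p hp => (hf p hp).ne'))

lemma ext_sqrtS (f : smoothAlg T) (hf : ∀ p ∈ dom T, 0 < ext f p) {p : ℝ × ℝ}
    (hp : p ∈ dom T) : ext (sqrtS f hf) p = √(ext f p) := ext_mkS _ hp

namespace RData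

variable {n : ℕ} {κ : ℝ} (M : RData n κ T)

/-- `r = √A` -/
noncomputable def r : smoothAlg T := sqrtS M.A M.Apos

lemma r_pos {p : ℝ × ℝ} (hp : p ∈ dom T) : 0 < ext M.r p := by
  rw [r, ext_sqrtS _ _ hp]; exact Real.sqrt_pos.2 (M.Apos p hp)

lemma ext_r {p : ℝ × ℝ} (hp : p ∈ dom T) : ext M.r p = √(ext M.A p) := ext_sqrtS _ _ hp

lemma r_sq {p : ℝ × ℝ} (hp : p ∈ dom T) : ext M.r p ^ 2 = ext M.A p := by
  rw [M.ext_r hp]; exact Real.sq_sqrt (M.Apos p hp).le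

lemma r_mul : M.r * M.r = M.A := by
  apply smooth_ext
  intro p hp
  rw [ext_mul, ← M.r_sq hp]; ring

/-- `1/r` -/
noncomputable def ri : smoothAlg T := invS M.r (fun _ hp => (M.r_pos hp).ne')

lemma ext_ri {p : ℝ × ℝ} (hp : p ∈ dom T) : ext M.ri p = (ext M.r p)⁻¹ := ext_invS _ _ hp

lemma r_ri : M.r * M.ri = 1 := mul_invS _ _

lemma ri_pos {p : ℝ × ℝ} (hp : p ∈ dom T) : 0 < ext M.ri p := by
  rw [M.ext_ri hp]; exact inv_pos.2 (M.r_pos hp)

lemma r_ri_pt {p : ℝ × ℝ} (hp : p ∈ dom T) : ext M.r p * ext M.ri p = 1 := by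
  rw [M.ext_ri hp]; exact mul_inv_cancel₀ (M.r_pos hp).ne'

lemma ri_sq {p : ℝ × ℝ} (hp : p ∈ dom T) : ext M.ri p ^ 2 = ext M.h p := by
  rw [M.ext_ri hp, M.ext_h hp, ← M.r_sq hp, inv_pow]

lemma two_cancel {f g : smoothAlg T} (h : 2 * f = 2 * g) : f = g := by
  apply smooth_ext
  intro p hp
  have := congrArg (fun f => ext f p) h
  simp only [two_mul, ext_add] at this
  linarith

lemma D_r : M.D M.r = M.F.ρ * M.ri := by
  have h1 : M.D (M.r * M.r) = 2 * M.F.ρ := by rw [r_mul]; exact M.F.DA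
  rw [Derivation.leibniz, smul_eq_mul] at h1
  have h2 := M.r_ri
  apply two_cancel
  linear_combination M.ri * h1 - (2 * M.D M.r) * h2

lemma D_ri : M.D M.ri = - M.F.ρ * M.ri ^ 3 := by
  have h1 : M.D (M.r * M.ri) = 0 := by rw [r_ri]; simp
  rw [Derivation.leibniz, smul_eq_mul, smul_eq_mul, D_r] at h1
  have h2 := M.r_ri
  linear_combination M.ri * h1 - (M.D M.ri) * h2

lemma ext_D_ri {p : ℝ × ℝ} (hp : p ∈ dom T) :
    ext (M.D M.ri) p = - (ext M.F.ρ p * ext M.ri p ^ 3) := by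
  have h1 := pt _ _ M.D_ri hp
  simp only [map_mul, map_neg, map_pow, ev_eq] at h1
  linarith

lemma dt_r (hM : M.IsRF) : dt M.r = - M.F.rB * M.r := by
  have h1 : dt (M.r * M.r) = -2 * M.F.rB * (M.r * M.r) := by rw [r_mul]; exact hM.dtA
  rw [dt_mul] at h1
  have h2 := M.r_ri
  apply two_cancel
  linear_combination M.ri * h1 + (-2 * dt M.r - 2 * M.F.rB * M.r) * h2

lemma ext_dt_r (hM : M.IsRF) {p : ℝ × ℝ} (hp : p ∈ dom T) :
    ext (dt M.r) p = - (ext M.F.rB p * ext M.r p) := by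
  have h1 := pt _ _ (M.dt_r hM) hp
  simp only [map_mul, map_neg, map_pow, ev_eq] at h1
  linarith

lemma ext_Dy {p : ℝ × ℝ} (hp : p ∈ dom T) :
    ext (M.D M.F.y) p = 2 * ext M.h p * (ext M.F.q p - ext M.F.y p * ext M.F.ρ p) := by
  have h1 := pt _ _ M.F.Dy hp
  simp only [map_mul, map_sub, map_ofNat, map_pow, ev_eq] at h1
  exact h1

lemma ext_Dh {p : ℝ × ℝ} (hp : p ∈ dom T) :
    ext (M.D M.h) p = -2 * ext M.F.ρ p * ext M.h p ^ 2 := by
  have h1 := pt _ _ M.F.Dh hp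
  simp only [map_mul, map_neg, map_ofNat, map_pow, ev_eq] at h1
  exact h1

/-- second relation -/
lemma ext_e2 (hn : 1 ≤ n) {p : ℝ × ℝ} (hp : p ∈ dom T) :
    ext M.F.y p * (ext M.A p * ext M.F.ρ1 p + 1 - ext M.F.ρ p ^ 2)
      = ext M.A p * (ext M.F.re p - ext M.F.r0 p) / (2 * n) := by
  have h1 : ev hp (M.F.re - M.F.r0) = ev hp (M.β * (2 * M.F.m * M.h ^ 2
    * (M.A * M.F.ρ1 + 1 - M.F.ρ ^ 2))) := pt _ _ M.F.re_sub_r0 hp
  have hn' : (1 : ℝ) ≤ n := by exact_mod_cast hn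
  simp only [map_mul, map_add, map_sub, map_one, map_ofNat, map_pow, ev_eq, M.ext_m hp] at h1
  have h2 := M.Ah hp
  rw [h1, M.ext_y hp]
  field_simp
  linear_combination (-(ext M.β p * (ext M.A p * ext M.F.ρ1 p + 1 - ext M.F.ρ p ^ 2)
    * ext M.h p)) * h2

/-- third relation -/
lemma ext_e3 {p : ℝ × ℝ} (hp : p ∈ dom T) :
    ext M.A p * ext M.F.q1 p - 2 * n * (ext M.F.y p - ext M.F.ρ p * ext M.F.q p)
      = - (ext M.A p * ext M.F.re p) := by
  have h1 : ev hp M.F.re = ev hp (-M.F.q1 + 2 * M.F.m * (M.β * M.h ^ 2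
    - M.F.ρ * M.F.q * M.h)) := pt _ _ M.F.re_eq hp
  simp only [map_mul, map_add, map_sub, map_neg, map_one, map_ofNat, map_pow, ev_eq,
    M.ext_m hp] at h1
  have h2 := M.Ah hp
  rw [h1, M.ext_y hp]
  linear_combination (2 * n * (ext M.β p * ext M.h p - ext M.F.ρ p * ext M.F.q p)) * h2

/-- the three first order relations and the Lipschitz bound for `r` -/
lemma exists_err (hM : M.IsRF) (hn : 1 ≤ n) (hT : 0 < T) {C₀ : ℝ}
    (hR : ∀ p ∈ dom T, |ext M.F.sc p| ≤ C₀) :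
    ∃ C : ℝ, 1 ≤ C ∧ ∀ p ∈ dom T,
      |2 * ext M.F.ρ p * ext M.F.q p + (2 * n - 1) * (ext M.F.y p * ext M.F.ρ p ^ 2)
        + ext M.F.y p - 2 * (n + 1)| ≤ C * ext M.r p ∧
      |ext M.F.y p * (ext M.A p * ext M.F.ρ1 p + 1 - ext M.F.ρ p ^ 2)| ≤ C * ext M.r p ∧
      |ext M.A p * ext M.F.q1 p - 2 * n * (ext M.F.y p - ext M.F.ρ p * ext M.F.q p)|
        ≤ C * ext M.r p ∧
      |ext M.F.rB p| * ext M.r p ≤ C ∧ |ext M.F.re p| * ext M.r p ≤ C := by
  obtain ⟨K, hK0, hK⟩ := M.ric_le hM hn hT hR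
  obtain ⟨Y, P₀, Q₀, A₀, hY, hP₀, hQ₀, hA₀, hb⟩ := M.exists_bounds hM hn hT
  have hn' : (1 : ℝ) ≤ n := by exact_mod_cast hn
  have hC₀ : 0 ≤ C₀ := (abs_nonneg _).trans (hR (0, 0) (mem_dom (by norm_num) ⟨le_rfl, hT⟩))
  refine ⟨√A₀ * C₀ + 2 * √K + 1, by
    have : 0 ≤ √A₀ * C₀ + 2 * √K := by positivity
    linarith, ?_⟩
  intro p hp
  have hr := M.r_pos hp
  have hA := M.Apos p hp
  have hrA := M.r_sq hp
  have hr2 := M.ext_r hp
  have hrle : ext M.r p ≤ √A₀ := by rw [hr2]; exact Real.sqrt_le_sqrt (hb p hp).2.2.2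
  have k1 := M.ric_comp_le hp hn hA (hK p hp) le_rfl
  have k2 : √(K / ext M.A p) * ext M.r p = √K := by
    rw [hr2, ← Real.sqrt_mul (by positivity)]
    congr 1
    field_simp
  obtain ⟨k3, k4, k5⟩ := k1
  have hsK : 0 ≤ √K := Real.sqrt_nonneg _
  have m3 : |ext M.F.r0 p| * ext M.r p ≤ √K := by rw [← k2]; gcongr
  have m4 : |ext M.F.re p| * ext M.r p ≤ √K := by rw [← k2]; gcongr
  have m5 : |ext M.F.rB p| * ext M.r p ≤ √K := by rw [← k2]; gcongr
  have m6 : |ext M.F.sc p| * ext M.r p ≤ √A₀ * C₀ := by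
    rw [mul_comm]
    have := hR p hp
    gcongr
  have hs0 : 0 ≤ √A₀ * C₀ := by positivity
  have hAr : ext M.A p = ext M.r p * ext M.r p := by rw [← hrA]; ring
  have two_n : (1 : ℝ) ≤ 2 * n := by linarith only [hn']
  refine ⟨?_, ?_, ?_, ?_, ?_⟩
  · have e := M.ext_sc_sub hp hn
    have e' : 2 * ext M.F.ρ p * ext M.F.q p + (2 * n - 1) * (ext M.F.y p * ext M.F.ρ p ^ 2)
        + ext M.F.y p - 2 * (n + 1)
        = -(ext M.A p * (ext M.F.sc p - 2 * ext M.F.r0 p) / (2 * n)) := by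
      linear_combination e
    rw [e', abs_neg, abs_div, abs_of_pos (by linarith only [hn'] : (0 : ℝ) < 2 * n)]
    refine (div_le_self (abs_nonneg _) two_n).trans ?_
    rw [abs_mul, abs_of_pos hA, hAr]
    have : |ext M.F.sc p - 2 * ext M.F.r0 p| ≤ |ext M.F.sc p| + 2 * |ext M.F.r0 p| := by
      have := abs_sub (ext M.F.sc p) (2 * ext M.F.r0 p)
      rw [abs_mul, abs_two] at this
      exact this
    have h3 : ext M.r p * |ext M.F.sc p - 2 * ext M.F.r0 p| ≤ √A₀ * C₀ + 2 * √K + 1 := by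
      have : ext M.r p * |ext M.F.sc p - 2 * ext M.F.r0 p|
        ≤ ext M.r p * (|ext M.F.sc p| + 2 * |ext M.F.r0 p|) := by gcongr
      linarith only [m3, m6, this]
    calc ext M.r p * ext M.r p * |ext M.F.sc p - 2 * ext M.F.r0 p|
        = (ext M.r p * |ext M.F.sc p - 2 * ext M.F.r0 p|) * ext M.r p := by ring
      _ ≤ _ := mul_le_mul_of_nonneg_right h3 hr.le
  · rw [M.ext_e2 hn hp, abs_div, abs_of_pos (by linarith only [hn'] : (0 : ℝ) < 2 * n)]
    refine (div_le_self (abs_nonneg _) two_n).trans ?_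
    rw [abs_mul, abs_of_pos hA, hAr]
    have := abs_sub (ext M.F.re p) (ext M.F.r0 p)
    have h3 : ext M.r p * |ext M.F.re p - ext M.F.r0 p| ≤ √A₀ * C₀ + 2 * √K + 1 := by
      have : ext M.r p * |ext M.F.re p - ext M.F.r0 p|
        ≤ ext M.r p * (|ext M.F.re p| + |ext M.F.r0 p|) := by gcongr
      linarith only [m3, m4, hs0, this]
    calc ext M.r p * ext M.r p * |ext M.F.re p - ext M.F.r0 p|
        = (ext M.r p * |ext M.F.re p - ext M.F.r0 p|) * ext M.r p := by ring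
      _ ≤ _ := mul_le_mul_of_nonneg_right h3 hr.le
  · rw [M.ext_e3 hp, abs_neg, abs_mul, abs_of_pos hA, hAr]
    calc ext M.r p * ext M.r p * |ext M.F.re p|
        = (|ext M.F.re p| * ext M.r p) * ext M.r p := by ring
      _ ≤ _ := mul_le_mul_of_nonneg_right (by linarith only [hsK, m4, hs0]) hr.le
  · linarith only [hsK, m5, hs0]
  · linarith only [hsK, m4, hs0]

end RData

end Vale.Agent.P244.BB
end
end

section

section

/-! Time-dependent arguments: Lipschitz bound, exclusion of total collapse, the left region,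
noncollapsing. -/

open Set Topology Filter
open scoped ContDiff

set_option linter.unusedSimpArgs false

namespace Vale.Agent.P244.BB

namespace RData

variable {T : ℝ} {n : ℕ} {κ : ℝ} (M : RData n κ T)

/-- the global constants -/
structure Glob (Ce Y Q₀ P₀ : ℝ) : Prop where
  rf : M.IsRF
  hn : 1 ≤ n
  hT : 0 < T
  Ce1 : 1 ≤ Ce
  Y1 : 1 ≤ Y
  Q1 : 1 ≤ Q₀
  P0 : 0 ≤ P₀
  e1 : ∀ p ∈ dom T, |2 * ext M.F.ρ p * ext M.F.q p + (2 * n - 1) * (ext M.F.y p * ext M.F.ρ p ^ 2)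
        + ext M.F.y p - 2 * (n + 1)| ≤ Ce * ext M.r p
  e2 : ∀ p ∈ dom T,
      |ext M.F.y p * (ext M.A p * ext M.F.ρ1 p + 1 - ext M.F.ρ p ^ 2)| ≤ Ce * ext M.r p
  e3 : ∀ p ∈ dom T, |ext M.A p * ext M.F.q1 p
      - 2 * n * (ext M.F.y p - ext M.F.ρ p * ext M.F.q p)| ≤ Ce * ext M.r p
  rB : ∀ p ∈ dom T, |ext M.F.rB p| * ext M.r p ≤ Ce
  re : ∀ p ∈ dom T, |ext M.F.re p| * ext M.r p ≤ Ce
  y_le : ∀ p ∈ dom T, ext M.F.y p ≤ Y
  q_le : ∀ p ∈ dom T, |ext M.F.q p| ≤ Q₀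
  P_le : ∀ p ∈ dom T, ext M.F.y p * ext M.F.ρ p ^ 2 ≤ P₀

lemma exists_glob (hM : M.IsRF) (hn : 1 ≤ n) (hT : 0 < T) {C₀ : ℝ}
    (hR : ∀ p ∈ dom T, |ext M.F.sc p| ≤ C₀) : ∃ Ce Y Q₀ P₀ : ℝ, M.Glob Ce Y Q₀ P₀ := by
  obtain ⟨Ce, hCe, he⟩ := M.exists_err hM hn hT hR
  obtain ⟨Y, P₀, Q₀, A₀, hY, hP₀, hQ₀, hA₀, hb⟩ := M.exists_bounds hM hn hT
  refine ⟨Ce, Y, Q₀, P₀, ⟨hM, hn, hT, hCe, hY, hQ₀, hP₀, fun p hp => (he p hp).1,
    fun p hp => (he p hp).2.1, fun p hp => (he p hp).2.2.1, fun p hp => (he p hp).2.2.2.1,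
    fun p hp => (he p hp).2.2.2.2, fun p hp => (hb p hp).1, fun p hp => (hb p hp).2.2.1,
    fun p hp => ?_⟩⟩
  have := (hb p hp).2.1
  rwa [M.ext_P hp] at this

variable {M} {Ce Y Q₀ P₀ : ℝ}

lemma reflect_r {z t : ℝ} (hp : (z, t) ∈ dom T) : ext M.reflect.r (z, t) = ext M.r (-z, t) := by
  rw [M.reflect.ext_r hp, M.ext_r (refl_mem hp)]
  congr 1
  exact ext_refl M.A z t

lemma Glob.refl (G : M.Glob Ce Y Q₀ P₀) : M.reflect.Glob Ce Y Q₀ P₀ where
  rf := M.reflect_isRF G.rf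
  hn := G.hn
  hT := G.hT
  Ce1 := G.Ce1
  Y1 := G.Y1
  Q1 := G.Q1
  P0 := G.P0
  e1 := by
    rintro ⟨z, t⟩ hp
    rw [reflect_r hp, M.reflect_ρ, M.reflect_q, M.reflect_y, ext_neg, ext_neg, ext_refl, ext_refl,
      ext_refl]
    have := G.e1 _ (refl_mem hp)
    simp only at this
    convert this using 2
    ring
  e2 := by
    rintro ⟨z, t⟩ hp
    have e : ext M.reflect.A (z, t) = ext M.A (-z, t) := ext_refl M.A z t
    rw [reflect_r hp, M.reflect_ρ, M.reflect_ρ1, M.reflect_y, ext_neg, ext_refl, ext_refl,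
      ext_refl, e]
    have := G.e2 _ (refl_mem hp)
    simp only at this
    convert this using 2
    ring
  e3 := by
    rintro ⟨z, t⟩ hp
    have e : ext M.reflect.A (z, t) = ext M.A (-z, t) := ext_refl M.A z t
    rw [reflect_r hp, M.reflect_ρ, M.reflect_q, M.reflect_q1, M.reflect_y, ext_neg, ext_neg,
      ext_refl, ext_refl, ext_refl, ext_refl, e]
    have := G.e3 _ (refl_mem hp)
    simp only at this
    convert this using 2
    ring
  rB := by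
    rintro ⟨z, t⟩ hp
    rw [reflect_r hp, M.reflect_rB, ext_refl]
    exact G.rB _ (refl_mem hp)
  re := by
    rintro ⟨z, t⟩ hp
    rw [reflect_r hp, M.reflect_re, ext_refl]
    exact G.re _ (refl_mem hp)
  y_le := by
    rintro ⟨z, t⟩ hp
    rw [M.reflect_y, ext_refl]
    exact G.y_le _ (refl_mem hp)
  q_le := by
    rintro ⟨z, t⟩ hp
    rw [M.reflect_q, ext_neg, ext_refl, abs_neg]
    exact G.q_le _ (refl_mem hp)
  P_le := by
    rintro ⟨z, t⟩ hp
    rw [M.reflect_y, M.reflect_ρ, ext_neg, ext_refl, ext_refl]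
    have := G.P_le _ (refl_mem hp)
    simp only at this
    linarith only [this]

lemma Glob.dt_r (G : M.Glob Ce Y Q₀ P₀) {p : ℝ × ℝ} (hp : p ∈ dom T) : |ext (dt M.r) p| ≤ Ce := by
  rw [M.ext_dt_r G.rf hp, abs_neg, abs_mul, abs_of_pos (M.r_pos hp)]
  exact G.rB p hp

/-- `r` is Lipschitz in time -/
lemma Glob.lip (G : M.Glob Ce Y Q₀ P₀) {z s t : ℝ} (hz : z ∈ Icc (-1 : ℝ) 1) (hs : 0 ≤ s)
    (hst : s ≤ t) (ht : t < T) : |ext M.r (z, t) - ext M.r (z, s)| ≤ Ce * (t - s) := by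
  have h1 := Convex.norm_image_sub_le_of_norm_hasDerivWithin_le (𝕜 := ℝ)
    (f := fun s => ext M.r (z, s)) (f' := fun s => ext (dt M.r) (z, s)) (s := Icc s t) (C := Ce)
    (x := s) (y := t) (fun u hu => (hasDerivWithinAt_t M.r hz
      ⟨hs.trans hu.1, lt_of_le_of_lt hu.2 ht⟩).mono
        (fun v hv => ⟨hs.trans hv.1, lt_of_le_of_lt hv.2 ht⟩))
    (fun u hu => G.dt_r (mem_dom hz ⟨hs.trans hu.1, lt_of_le_of_lt hu.2 ht⟩))
    (convex_Icc s t) ⟨le_rfl, hst⟩ ⟨hst, le_rfl⟩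
  rw [Real.norm_eq_abs, Real.norm_eq_abs, abs_of_nonneg (by linarith : 0 ≤ t - s)] at h1
  exact h1

/-- where `r` is small, `ρ = 0` and `ρ1 ≥ 0` is impossible -/
lemma Glob.no_min (G : M.Glob Ce Y Q₀ P₀) {p : ℝ × ℝ} (hp : p ∈ dom T)
    (hr : 32 * Ce * ext M.r p ≤ 1) (hρ : ext M.F.ρ p = 0) (hρ1 : 0 ≤ ext M.F.ρ1 p) : False := by
  have h1 := G.e1 p hp
  have h2 := G.e2 p hp
  rw [hρ] at h1 h2
  have hy := M.y_nonneg hp
  have hA := (M.Apos p hp).le
  have hn' : (1 : ℝ) ≤ n := by exact_mod_cast G.hn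
  have h3 := (abs_le.1 h2).2
  have h4 := (abs_le.1 h1).1
  have h5 : 0 ≤ ext M.F.y p * (ext M.A p * ext M.F.ρ1 p) := by (clear * - hy hA hρ1; positivity)
  linarith only [hr, h3, h4, h5]

end RData

end Vale.Agent.P244.BB
end
end

section

section

/-! From the statement-level definitions to the differential algebra. -/

open Set Topology Filter
open scoped ContDiff

set_option linter.unusedSimpArgs false

namespace Vale.Agent.P244.BB

variable {T : ℝ}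

lemma smooth_ext_interior {f g : smoothAlg T}
    (h : ∀ z ∈ Ioo (-1 : ℝ) 1, ∀ t ∈ Ioo 0 T, ext f (z, t) = ext g (z, t)) : f = g := by
  apply smooth_ext
  intro p hp
  have h1 : ContinuousWithinAt (ext (f - g)) (dom T) p := (ext_continuousOn (f - g)) p hp
  have h2 : p ∈ closure (interior (dom T)) := dom_subset_closure hp
  have h3 : ContinuousWithinAt (ext (f - g)) (interior (dom T)) p := h1.mono interior_subset
  have h4 : interior (dom T) = Ioo (-1) 1 ×ˢ Ioo 0 T := by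
    rw [dom, interior_prod_eq, interior_Icc, interior_Ico]
  have : (𝓝[interior (dom T)] p).NeBot := mem_closure_iff_nhdsWithin_neBot.1 h2
  have h5 : Tendsto (ext (f - g)) (𝓝[interior (dom T)] p) (𝓝 0) := by
    refine tendsto_const_nhds.congr' ?_
    filter_upwards [self_mem_nhdsWithin] with q hq
    rw [h4] at hq
    have := h q.1 hq.1 q.2 hq.2
    rw [ext_sub]
    simp only [Prod.mk.eta] at this
    linarith
  have h6 := tendsto_nhds_unique h3.tendsto h5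
  rw [ext_sub] at h6
  linarith

/-- continuity up to the ends in space -/
lemma le_of_interior {f : smoothAlg T} {C t : ℝ} (ht : t ∈ Ico 0 T)
    (h : ∀ z ∈ Ioo (-1 : ℝ) 1, ext f (z, t) ≤ C) : ∀ z ∈ Icc (-1 : ℝ) 1, ext f (z, t) ≤ C := by
  intro z hz
  have h1 : ContinuousWithinAt (fun z => ext f (z, t)) (Icc (-1) 1) z := cont_z f ht z hz
  have h2 : ContinuousWithinAt (fun z => ext f (z, t)) (Ioo (-1) 1) z :=
    h1.mono Ioo_subset_Icc_self
  have h3 : z ∈ closure (Ioo (-1 : ℝ) 1) := by rw [closure_Ioo (by norm_num)]; exact hz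
  have : (𝓝[Ioo (-1 : ℝ) 1] z).NeBot := mem_closure_iff_nhdsWithin_neBot.1 h3
  refine le_of_tendsto h2.tendsto ?_
  filter_upwards [self_mem_nhdsWithin] with w hw
  exact h w hw

end Vale.Agent.P244.BB

namespace Vale.Agent.P244.Bolt

open BB

namespace Profile

variable {g : Profile} {m : ℕ} {κ T : ℝ}

lemma sE (hg : g.IsMetricFamily κ T) : ContDiffOn ℝ ∞ g.E (dom T) := hg.smoothE
lemma sβ (hg : g.IsMetricFamily κ T) : ContDiffOn ℝ ∞ g.β (dom T) := hg.smoothβ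
lemma sA (hg : g.IsMetricFamily κ T) : ContDiffOn ℝ ∞ g.A (dom T) := hg.smoothA

/-- the data of the differential algebra -/
def toR (hg : g.IsMetricFamily κ T) (hκ : 0 < κ) : RData m κ T where
  E := mkS g.E (sE hg)
  β := mkS g.β (sβ hg)
  A := mkS g.A (sA hg)
  κpos := hκ
  Epos := by intro p hp; rw [ext_mkS _ hp]; exact hg.Epos p hp
  Apos := by intro p hp; rw [ext_mkS _ hp]; exact hg.Apos p hp
  βpos := by
    intro z hz t ht
    rw [ext_mkS _ (mem_dom (Ioo_subset_Icc_self hz) ht)]; exact hg.βpos _ ⟨hz, ht⟩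
  βl := by
    intro t ht
    rw [ext_mkS _ (mem_dom (by norm_num) ht)]; exact hg.βleft t ht
  βr := by
    intro t ht
    rw [ext_mkS _ (mem_dom (by norm_num) ht)]; exact hg.βright t ht
  cl := by
    intro t ht
    have hz : (-1 : ℝ) ∈ Icc (-1 : ℝ) 1 := by norm_num
    rw [ext_mkS _ (mem_dom hz ht), ← hg.slopeLeft t ht]
    have h1 := hasDerivWithinAt_z (mkS g.β (sβ hg)) hz ht
    have h2 := h1.congr (f₁ := fun z => g.β (z, t))
      (fun z hz => (ext_mkS (sβ hg) (mem_dom hz ht)).symm) (ext_mkS (sβ hg) (mem_dom hz ht)).symm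
    exact (h2.derivWithin (uniqueDiffOn_Icc (by norm_num) _ hz)).symm
  cr := by
    intro t ht
    have hz : (1 : ℝ) ∈ Icc (-1 : ℝ) 1 := by norm_num
    rw [ext_mkS _ (mem_dom hz ht), ← hg.slopeRight t ht]
    have h1 := hasDerivWithinAt_z (mkS g.β (sβ hg)) hz ht
    have h2 := h1.congr (f₁ := fun z => g.β (z, t))
      (fun z hz => (ext_mkS (sβ hg) (mem_dom hz ht)).symm) (ext_mkS (sβ hg) (mem_dom hz ht)).symm
    exact (h2.derivWithin (uniqueDiffOn_Icc (by norm_num) _ hz)).symm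

section
variable (hg : g.IsMetricFamily κ T) (hκ : 0 < κ)
include hg hκ

variable (m) in
lemma basics {z t : ℝ} (hz : z ∈ Ioo (-1 : ℝ) 1) (ht : t ∈ Ico 0 T) :
    0 < g.b (z, t) ∧ 0 < g.a (z, t) ∧ 0 < g.E (z, t) ∧
    g.b (z, t) ^ 2 = ext (toR (m := m) hg hκ).β (z, t) ∧
    g.a (z, t) ^ 2 = ext (toR (m := m) hg hκ).A (z, t) ∧
    g.E (z, t) = ext (toR (m := m) hg hκ).E (z, t) ∧
    g.a (z, t) ^ 2 * ext (toR (m := m) hg hκ).h (z, t) = 1 := by
  have hp : (z, t) ∈ dom T := mem_dom (Ioo_subset_Icc_self hz) ht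
  have h1 := hg.βpos (z, t) ⟨hz, ht⟩
  have h2 := hg.Apos (z, t) hp
  have h3 := hg.Epos (z, t) hp
  have e1 : g.b (z, t) ^ 2 = ext (toR (m := m) hg hκ).β (z, t) := by
    have : ext (toR (m := m) hg hκ).β (z, t) = g.β (z, t) := ext_mkS (sβ hg) hp
    rw [this]; exact Real.sq_sqrt h1.le
  have e2 : g.a (z, t) ^ 2 = ext (toR (m := m) hg hκ).A (z, t) := by
    have : ext (toR (m := m) hg hκ).A (z, t) = g.A (z, t) := ext_mkS (sA hg) hp
    rw [this]; exact Real.sq_sqrt h2.le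
  refine ⟨Real.sqrt_pos.2 h1, Real.sqrt_pos.2 h2, h3, e1, e2, (ext_mkS (sE hg) hp).symm, ?_⟩
  rw [e2]; exact RData.Ah _ hp

/-- `ds` of a function agreeing with an expression having a known derivative -/
lemma ds_eq {f : ℝ × ℝ → ℝ} {f' z t : ℝ} (hz : z ∈ Ioo (-1 : ℝ) 1) (ht : t ∈ Ico 0 T)
    (h : HasDerivAt (fun z => f (z, t)) f' z) : g.ds f (z, t) = f' * g.b (z, t) / g.E (z, t) := by
  obtain ⟨h1, h2, h3, _⟩ := basics 0 hg hκ hz ht
  simp only [ds, w]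
  rw [h.deriv]
  field_simp

variable (m) in
lemma deriv_b {z t : ℝ} (hz : z ∈ Ioo (-1 : ℝ) 1) (ht : t ∈ Ico 0 T) :
    HasDerivAt (fun z => g.b (z, t))
      (ext (toR (m := m) hg hκ).F.q (z, t) * g.E (z, t) / g.b (z, t)) z := by
  have hp : (z, t) ∈ dom T := mem_dom (Ioo_subset_Icc_self hz) ht
  obtain ⟨h1, h2, h3, h4, h5, h6, h7⟩ := basics m hg hκ hz ht
  have k1 := hasDerivAt_z (toR (m := m) hg hκ).β hz ht
  have k2 : HasDerivAt (fun z => g.β (z, t)) (ext (dz (toR (m := m) hg hκ).β) (z, t)) z := by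
    refine k1.congr_of_eventuallyEq ?_
    filter_upwards [Ioo_mem_nhds hz.1 hz.2] with w hw
    exact (ext_mkS (sβ hg) (mem_dom (Ioo_subset_Icc_self hw) ht)).symm
  have k3 := k2.sqrt (hg.βpos (z, t) ⟨hz, ht⟩).ne'
  refine k3.congr_deriv ?_
  rw [RData.ext_q _ hp, ← h6]
  have : √(g.β (z, t)) = g.b (z, t) := rfl
  rw [this]
  field_simp

variable (m) in
lemma deriv_a {z t : ℝ} (hz : z ∈ Ioo (-1 : ℝ) 1) (ht : t ∈ Ico 0 T) :
    HasDerivAt (fun z => g.a (z, t))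
      (ext (toR (m := m) hg hκ).F.ρ (z, t) * g.E (z, t) / g.a (z, t)) z := by
  have hp : (z, t) ∈ dom T := mem_dom (Ioo_subset_Icc_self hz) ht
  obtain ⟨h1, h2, h3, h4, h5, h6, h7⟩ := basics m hg hκ hz ht
  have k1 := hasDerivAt_z (toR (m := m) hg hκ).A hz ht
  have k2 : HasDerivAt (fun z => g.A (z, t)) (ext (dz (toR (m := m) hg hκ).A) (z, t)) z := by
    refine k1.congr_of_eventuallyEq ?_
    filter_upwards [Ioo_mem_nhds hz.1 hz.2] with w hw
    exact (ext_mkS (sA hg) (mem_dom (Ioo_subset_Icc_self hw) ht)).symm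
  have k3 := k2.sqrt (hg.Apos (z, t) hp).ne'
  refine k3.congr_deriv ?_
  rw [RData.ext_ρ _ hp, ← h6]
  have : √(g.A (z, t)) = g.a (z, t) := rfl
  rw [this]
  field_simp

variable (m) in
lemma ds_b {z t : ℝ} (hz : z ∈ Ioo (-1 : ℝ) 1) (ht : t ∈ Ico 0 T) :
    g.ds g.b (z, t) = ext (toR (m := m) hg hκ).F.q (z, t) := by
  obtain ⟨h1, h2, h3, _⟩ := basics m hg hκ hz ht
  rw [ds_eq hg hκ hz ht (deriv_b m hg hκ hz ht)]
  field_simp

variable (m) in
lemma ds_a {z t : ℝ} (hz : z ∈ Ioo (-1 : ℝ) 1) (ht : t ∈ Ico 0 T) :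
    g.ds g.a (z, t) = g.b (z, t) * ext (toR (m := m) hg hκ).F.ρ (z, t) / g.a (z, t) := by
  obtain ⟨h1, h2, h3, _⟩ := basics m hg hκ hz ht
  rw [ds_eq hg hκ hz ht (deriv_a m hg hκ hz ht)]
  field_simp

lemma ext_D_mul (f : smoothAlg T) {z t : ℝ} (hz : z ∈ Ioo (-1 : ℝ) 1) (ht : t ∈ Ico 0 T) :
    HasDerivAt (fun z => ext f (z, t))
      (ext ((toR (m := m) hg hκ).D f) (z, t) * g.E (z, t)) z := by
  have hp : (z, t) ∈ dom T := mem_dom (Ioo_subset_Icc_self hz) ht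
  obtain ⟨h1, h2, h3, h4, h5, h6, h7⟩ := basics m hg hκ hz ht
  refine (hasDerivAt_z f hz ht).congr_deriv ?_
  rw [RData.ext_D _ _ hp, ← h6]
  field_simp

variable (m) in
lemma K1_eq {z t : ℝ} (hz : z ∈ Ioo (-1 : ℝ) 1) (ht : t ∈ Ico 0 T) :
    g.K1 (z, t) = ext (toR (m := m) hg hκ).F.K0e (z, t) := by
  obtain ⟨h1, h2, h3, _⟩ := basics m hg hκ hz ht
  have k1 : HasDerivAt (fun z => g.ds g.b (z, t))
      (ext (toR (m := m) hg hκ).F.q1 (z, t) * g.E (z, t)) z := by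
    refine (ext_D_mul hg hκ (toR (m := m) hg hκ).F.q hz ht).congr_of_eventuallyEq ?_
    filter_upwards [Ioo_mem_nhds hz.1 hz.2] with w hw
    exact ds_b m hg hκ hw ht
  have e : ext (toR (m := m) hg hκ).F.K0e (z, t) = - ext (toR (m := m) hg hκ).F.q1 (z, t) :=
    ext_neg _ _
  rw [K1, ds_eq hg hκ hz ht k1, e]
  field_simp

omit hg hκ in
lemma pt_K0B {m : ℕ} (M : RData m κ T) {p : ℝ × ℝ} (hp : p ∈ dom T) : ext M.F.K0B p =
    -(ext M.β p * ext M.F.ρ1 p + ext M.F.q p * ext M.F.ρ p) * ext M.h p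
      + ext M.β p * ext M.F.ρ p ^ 2 * ext M.h p ^ 2 := by
  have h1 : ev hp M.F.K0B = ev hp (-(M.β * M.F.ρ1 + M.F.q * M.F.ρ) * M.h
    + M.β * M.F.ρ ^ 2 * M.h ^ 2) := rfl
  simpa only [map_mul, map_add, map_sub, map_neg, map_one, map_ofNat, map_pow, ev_eq] using h1

omit hg hκ in
lemma pt_KeB {m : ℕ} (M : RData m κ T) {p : ℝ × ℝ} (hp : p ∈ dom T) : ext M.F.KeB p =
    ext M.β p * ext M.h p ^ 2 - ext M.F.ρ p * ext M.F.q p * ext M.h p := by
  have h1 : ev hp M.F.KeB = ev hp (M.β * M.h ^ 2 - M.F.ρ * M.F.q * M.h) := rfl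
  simpa only [map_mul, map_add, map_sub, map_neg, map_one, map_ofNat, map_pow, ev_eq] using h1

variable (m) in
lemma K2_eq {z t : ℝ} (hz : z ∈ Ioo (-1 : ℝ) 1) (ht : t ∈ Ico 0 T) :
    g.K2 (z, t) = ext (toR (m := m) hg hκ).F.K0B (z, t) := by
  have hp : (z, t) ∈ dom T := mem_dom (Ioo_subset_Icc_self hz) ht
  obtain ⟨h1, h2, h3, h4, h5, h6, h7⟩ := basics m hg hκ hz ht
  have k0 := ((deriv_b m hg hκ hz ht).mul
    (ext_D_mul (m := m) hg hκ (toR (m := m) hg hκ).F.ρ hz ht)).div (deriv_a m hg hκ hz ht) h2.ne'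
  have k1 := k0.congr_of_eventuallyEq (f₁ := fun z => g.ds g.a (z, t)) (by
    filter_upwards [Ioo_mem_nhds hz.1 hz.2] with w hw
    exact ds_a m hg hκ hw ht)
  rw [K2, ds_eq hg hκ hz ht k1, pt_K0B _ hp, ← h4]
  have e1 : ext ((toR (m := m) hg hκ).D (toR (m := m) hg hκ).F.ρ) (z, t)
    = ext (toR (m := m) hg hκ).F.ρ1 (z, t) := rfl
  simp only [Pi.mul_apply]
  rw [e1]
  have h8 : ext (toR (m := m) hg hκ).h (z, t) = 1 / g.a (z, t) ^ 2 := by
    field_simp; linarith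
  rw [h8]
  field_simp
  ring

variable (m) in
lemma K3_eq {z t : ℝ} (hz : z ∈ Ioo (-1 : ℝ) 1) (ht : t ∈ Ico 0 T) :
    g.K3 (z, t) = ext (toR (m := m) hg hκ).F.KeB (z, t) := by
  have hp : (z, t) ∈ dom T := mem_dom (Ioo_subset_Icc_self hz) ht
  obtain ⟨h1, h2, h3, h4, h5, h6, h7⟩ := basics m hg hκ hz ht
  rw [K3, pt_KeB _ hp, ← h4, ds_a m hg hκ hz ht, ds_b m hg hκ hz ht]
  have h8 : ext (toR (m := m) hg hκ).h (z, t) = 1 / g.a (z, t) ^ 2 := by
    field_simp; linarith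
  rw [h8]
  field_simp

variable (m) in
lemma ric_eq {z t : ℝ} (hz : z ∈ Ioo (-1 : ℝ) 1) (ht : t ∈ Ico 0 T) :
    g.ricS m (z, t) = ext (toR (m := m) hg hκ).F.r0 (z, t) ∧
    g.ricF m (z, t) = ext (toR (m := m) hg hκ).F.re (z, t) ∧
    g.ricB m (z, t) = ext (toR (m := m) hg hκ).F.rB (z, t) := by
  have hp : (z, t) ∈ dom T := mem_dom (Ioo_subset_Icc_self hz) ht
  obtain ⟨h1, h2, h3, h4, h5, h6, h7⟩ := basics m hg hκ hz ht
  refine ⟨?_, ?_, ?_⟩
  · rw [ricS, K1_eq m hg hκ hz ht, K2_eq m hg hκ hz ht, RData.ext_r0 _ hp]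
  · rw [ricF, K1_eq m hg hκ hz ht, K3_eq m hg hκ hz ht, RData.ext_re _ hp]
  · rw [ricB, K2_eq m hg hκ hz ht, K3_eq m hg hκ hz ht, RData.ext_rB _ hp, RData.ext_W _ hp,
      RData.ext_P _ hp, RData.ext_y _ hp, ds_a m hg hκ hz ht, ← h4]
    have h8 : ext (toR (m := m) hg hκ).h (z, t) = 1 / g.a (z, t) ^ 2 := by
      field_simp; linarith
    rw [h8]
    field_simp
    ring

variable (m) in
lemma scal_eq {z t : ℝ} (hz : z ∈ Ioo (-1 : ℝ) 1) (ht : t ∈ Ico 0 T) :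
    g.scal m (z, t) = ext (toR (m := m) hg hκ).F.sc (z, t) := by
  have hp : (z, t) ∈ dom T := mem_dom (Ioo_subset_Icc_self hz) ht
  obtain ⟨h1, h2, h3⟩ := ric_eq m hg hκ hz ht
  have e : ev hp (toR (m := m) hg hκ).F.sc = ev hp ((toR (m := m) hg hκ).F.r0
    + (toR (m := m) hg hκ).F.re + 2 * (toR (m := m) hg hκ).F.m * (toR (m := m) hg hκ).F.rB) := rfl
  simp only [map_mul, map_add, map_ofNat, ev_eq, RData.ext_m _ hp] at e
  rw [scal, h1, h2, h3, e]

end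

/-- the flow equations hold in the differential algebra -/
lemma toR_isRF (hf : g.IsRicciFlow m κ T) (hκ : 0 < κ) :
    (toR (m := m) hf.toIsMetricFamily hκ).IsRF := by
  have hg := hf.toIsMetricFamily
  have flowA : ∀ z ∈ Ioo (-1 : ℝ) 1, ∀ t ∈ Ioo 0 T,
      ext (dt (toR (m := m) hg hκ).A) (z, t) = -2 * ext (toR (m := m) hg hκ).F.rB (z, t)
        * ext (toR (m := m) hg hκ).A (z, t) := by
    intro z hz t ht
    have ht' : t ∈ Ico 0 T := ⟨ht.1.le, ht.2⟩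
    have hzI := Ioo_subset_Icc_self hz
    obtain ⟨h1, h2, h3, h4, h5, h6, h7⟩ := basics m hg hκ hz ht'
    have k1 := hasDerivAt_t (toR (m := m) hg hκ).A hzI ht
    have k2 := hf.flow_a z hz t ht
    have k3 : HasDerivAt (fun s => g.a (z, s) ^ 2) (ext (dt (toR (m := m) hg hκ).A) (z, t)) t := by
      refine k1.congr_of_eventuallyEq ?_
      filter_upwards [Ioo_mem_nhds ht.1 ht.2] with s hs
      exact (basics m hg hκ hz ⟨hs.1.le, hs.2⟩).2.2.2.2.1
    rw [k3.unique k2, (ric_eq m hg hκ hz ht').2.2, h5]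
  have flowβ : ∀ z ∈ Ioo (-1 : ℝ) 1, ∀ t ∈ Ioo 0 T,
      ext (dt (toR (m := m) hg hκ).β) (z, t) = -2 * ext (toR (m := m) hg hκ).F.re (z, t)
        * ext (toR (m := m) hg hκ).β (z, t) := by
    intro z hz t ht
    have ht' : t ∈ Ico 0 T := ⟨ht.1.le, ht.2⟩
    have hzI := Ioo_subset_Icc_self hz
    obtain ⟨h1, h2, h3, h4, h5, h6, h7⟩ := basics m hg hκ hz ht'
    have k1 := hasDerivAt_t (toR (m := m) hg hκ).β hzI ht
    have k2 := hf.flow_b z hz t ht
    have k3 : HasDerivAt (fun s => g.b (z, s) ^ 2) (ext (dt (toR (m := m) hg hκ).β) (z, t)) t := by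
      refine k1.congr_of_eventuallyEq ?_
      filter_upwards [Ioo_mem_nhds ht.1 ht.2] with s hs
      exact (basics m hg hκ hz ⟨hs.1.le, hs.2⟩).2.2.2.1
    rw [k3.unique k2, (ric_eq m hg hκ hz ht').2.1, h4]
  have flowE : ∀ z ∈ Ioo (-1 : ℝ) 1, ∀ t ∈ Ioo 0 T,
      ext (dt (toR (m := m) hg hκ).E) (z, t) = -(ext (toR (m := m) hg hκ).F.r0 (z, t)
        + ext (toR (m := m) hg hκ).F.re (z, t)) * ext (toR (m := m) hg hκ).E (z, t) := by
    intro z hz t ht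
    have ht' : t ∈ Ico 0 T := ⟨ht.1.le, ht.2⟩
    have hzI := Ioo_subset_Icc_self hz
    obtain ⟨h1, h2, h3, h4, h5, h6, h7⟩ := basics m hg hκ hz ht'
    have hβpos : 0 < ext (toR (m := m) hg hκ).β (z, t) := by rw [← h4]; positivity
    have hEpos : 0 < ext (toR (m := m) hg hκ).E (z, t) := by rw [← h6]; positivity
    have k1 := hasDerivAt_t (toR (m := m) hg hκ).β hzI ht
    have k1' := hasDerivAt_t (toR (m := m) hg hκ).E hzI ht
    have k2 := hf.flow_w z hz t ht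
    have k3 := (k1'.pow 2).div k1 hβpos.ne'
    have k4 := k3.congr_of_eventuallyEq (f₁ := fun s => g.w (z, s) ^ 2) (by
      filter_upwards [Ioo_mem_nhds ht.1 ht.2] with s hs
      obtain ⟨g1, g2, g3, g4, g5, g6, g7⟩ := basics m hg hκ hz ⟨hs.1.le, hs.2⟩
      simp only [w, Pi.div_apply, Pi.pow_apply]
      rw [← g4, ← g6, div_pow])
    have k5 := k4.unique k2
    rw [(ric_eq m hg hκ hz ht').1, flowβ z hz t ht] at k5
    simp only [w, Pi.pow_apply, div_pow, h4, h6] at k5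
    field_simp at k5
    norm_num at k5
    refine mul_left_cancel₀ hEpos.ne' ?_
    linear_combination k5 / 2
  constructor
  · apply smooth_ext_interior
    intro z hz t ht
    have hp : (z, t) ∈ dom T := mem_dom (Ioo_subset_Icc_self hz) ⟨ht.1.le, ht.2⟩
    have := flowE z hz t ht
    rw [this]
    have e : ev hp (-(toR (m := m) hg hκ).F.μ * (toR (m := m) hg hκ).E)
        = ev hp (-((toR (m := m) hg hκ).F.r0 + (toR (m := m) hg hκ).F.re)
          * (toR (m := m) hg hκ).E) := rfl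
    simp only [map_mul, map_neg, map_add, ev_eq] at e
    rw [ext_mul, ext_neg, e]
  · apply smooth_ext_interior
    intro z hz t ht
    have hp : (z, t) ∈ dom T := mem_dom (Ioo_subset_Icc_self hz) ⟨ht.1.le, ht.2⟩
    have := flowA z hz t ht
    rw [this, ← ev_eq hp, ← ev_eq hp, ← ev_eq hp]
    simp only [map_mul, map_neg, map_add, map_ofNat]
  · apply smooth_ext_interior
    intro z hz t ht
    have hp : (z, t) ∈ dom T := mem_dom (Ioo_subset_Icc_self hz) ⟨ht.1.le, ht.2⟩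
    have := flowβ z hz t ht
    rw [this, ← ev_eq hp, ← ev_eq hp, ← ev_eq hp]
    simp only [map_mul, map_neg, map_add, map_ofNat]

/-- bounded scalar curvature transfers -/
lemma toR_sc (hg : g.IsMetricFamily κ T) (hκ : 0 < κ) {C₀ : ℝ}
    (hR : ∀ p ∈ Ioo (-1 : ℝ) 1 ×ˢ Ico 0 T, |g.scal m p| ≤ C₀) :
    ∀ p ∈ dom T, |ext (toR (m := m) hg hκ).F.sc p| ≤ C₀ := by
  rintro ⟨z, t⟩ hp
  have h1 := le_of_interior (f := (toR (m := m) hg hκ).F.sc) (C := C₀) hp.2 (fun w hw => by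
    rw [← scal_eq m hg hκ hw hp.2]
    exact (abs_le.1 (hR (w, t) ⟨hw, hp.2⟩)).2) z hp.1
  have h2 := le_of_interior (f := -(toR (m := m) hg hκ).F.sc) (C := C₀) hp.2 (fun w hw => by
    rw [ext_neg, ← scal_eq m hg hκ hw hp.2]
    have := (abs_le.1 (hR (w, t) ⟨hw, hp.2⟩)).1
    simp only at this ⊢
    linarith) z hp.1
  rw [ext_neg] at h2
  rw [abs_le]; constructor <;> linarith

/-- bounded curvature transfers back -/
lemma curvatureBound_of (hg : g.IsMetricFamily κ T) (hκ : 0 < κ) {C : ℝ}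
    (h : ∀ p ∈ dom T, |ext (toR (m := m) hg hκ).F.K0e p| ≤ C ∧
      |ext (toR (m := m) hg hκ).F.K0B p| ≤ C ∧ |ext (toR (m := m) hg hκ).F.KeB p| ≤ C ∧
      ext (toR (m := m) hg hκ).h p ≤ C ∧
      ext (toR (m := m) hg hκ).F.y p * ext (toR (m := m) hg hκ).h p ≤ C ∧
      ext ((toR (m := m) hg hκ).F.y * (toR (m := m) hg hκ).F.ρ ^ 2) p
        * ext (toR (m := m) hg hκ).h p ≤ C ∧
      |(ext (toR (m := m) hg hκ).F.q p - ext (toR (m := m) hg hκ).F.y p
        * ext (toR (m := m) hg hκ).F.ρ p) * ext (toR (m := m) hg hκ).h p| ≤ C) :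
    g.CurvatureBound T C := by
  rintro ⟨z, t⟩ ⟨hz, ht⟩
  simp only at hz ht
  have hp : (z, t) ∈ dom T := mem_dom (Ioo_subset_Icc_self hz) ht
  obtain ⟨h1, h2, h3, h4, h5, h6, h7⟩ := basics m hg hκ hz ht
  obtain ⟨k1, k2, k3, k4, k5, k6, k7⟩ := h (z, t) hp
  have h8 : ext (toR (m := m) hg hκ).h (z, t) = 1 / g.a (z, t) ^ 2 := by
    field_simp; linarith only [h7]
  rw [RData.ext_y _ hp, ← h4, h8] at k5 k7
  rw [RData.ext_P _ hp, RData.ext_y _ hp, ← h4, h8] at k6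
  refine ⟨?_, ?_, ?_, ?_, ?_, ?_, ?_⟩
  · rw [K1_eq m hg hκ hz ht]; exact k1
  · rw [K2_eq m hg hκ hz ht]; exact k2
  · rw [K3_eq m hg hκ hz ht]; exact k3
  · rw [← h8]; exact k4
  · refine le_trans (le_of_eq ?_) k5
    field_simp
  · refine le_trans (le_of_eq ?_) k6
    rw [ds_a m hg hκ hz ht]
    field_simp
  · refine le_trans (le_of_eq ?_) k7
    have d0 := (deriv_b m hg hκ hz ht).div (deriv_a m hg hκ hz ht) h2.ne'
    have d1 : HasDerivAt (fun z => (fun q => g.b q / g.a q) (z, t)) _ z := d0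
    rw [ds_eq hg hκ hz ht d1]
    congr 1
    field_simp

end Profile

end Vale.Agent.P244.Bolt
end
end

section

section

/-! Total collapse is impossible. -/

open Set Topology Filter
open scoped ContDiff

set_option linter.unusedSimpArgs false

namespace Vale.Agent.P244.BB

namespace RData

variable {T : ℝ} {n : ℕ} {κ : ℝ} {M : RData n κ T} {Ce Y Q₀ P₀ : ℝ}

/-- under total collapse `y` tends to be at most `1` -/
lemma Glob.y_collapse (G : M.Glob Ce Y Q₀ P₀)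
    (hcol : ∀ z ∈ Icc (-1 : ℝ) 1, ∀ t ∈ Ico 0 T, ext M.r (z, t) ≤ Ce * (T - t)) :
    ∃ c V : ℝ, 0 < c ∧ 0 < V ∧ ∀ z ∈ Icc (-1 : ℝ) 1, ∀ t ∈ Ico 0 T,
      ext M.F.y (z, t) < 1 + V * (T - t) / (T - t + c) := by
  have hT := G.hT
  have hCe := G.Ce1
  have hY := G.Y1
  have hn' : (1 : ℝ) ≤ n := by exact_mod_cast G.hn
  obtain ⟨c, hc⟩ : ∃ c, c = 4 * ((n : ℝ) + 1) / Ce ^ 2 := ⟨_, rfl⟩
  have hc0 : 0 < c := by rw [hc]; positivity
  have hc1 : c * Ce ^ 2 = 4 * (n + 1) := by rw [hc]; field_simp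
  obtain ⟨V, hV⟩ : ∃ V, V = (Y + 1) * (T + c) / T := ⟨_, rfl⟩
  have hV0 : 0 < V := by rw [hV]; positivity
  have hV1 : V * T / (T + c) = Y + 1 := by rw [hV]; field_simp
  refine ⟨c, V, hc0, hV0, ?_⟩
  have hpos : ∀ t ∈ Ico 0 T, 0 < T - t + c := fun t ht => by linarith [ht.2]
  intro z hz t ht
  have hp : (z, t) ∈ dom T := mem_dom hz ht
  refine M.cmp M.F.y (4 * (M.F.m + 1) * M.F.y * (1 - M.F.y) * M.F.h)
    (2 * (M.F.m + 1) * M.F.ρ * M.F.h) ((0 : ℕ) : ℝ) (by simp)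
    (M.hf_of ?_) (fun t => 1 + V * (T - t) / (T - t + c)) (fun t => -(V * c) / (T - t + c) ^ 2)
    ?_ ?_ ?_ t ht.2 ?_ z hz t ⟨ht.1, le_rfl⟩
  · have hid := M.F.Dty (M.isFlow G.rf)
    change dt M.F.y = M.β * M.D (M.D M.F.y) + M.β * (2 * (M.F.m + 1) * M.F.ρ * M.F.h) * M.D M.F.y
      + 4 * (M.F.m + 1) * M.F.y * (1 - M.F.y) * M.F.h at hid
    rw [hid]; push_cast; ring
  · refine continuousOn_const.add (ContinuousOn.div (by fun_prop) (by fun_prop) ?_)
    intro s hs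
    exact (hpos s hs).ne'
  · intro s hs
    have hs' := hpos s ⟨hs.1.le, hs.2⟩
    have e1 : HasDerivAt (fun s : ℝ => V * (T - s)) (V * (-1)) s :=
      ((hasDerivAt_id s).const_sub T).const_mul V
    have e2 : HasDerivAt (fun s : ℝ => T - s + c) (-1) s :=
      ((hasDerivAt_id s).const_sub T).add_const c
    refine ((e1.div e2 hs'.ne').const_add 1).congr_deriv ?_
    field_simp
    ring
  · intro w hw
    have h1 := G.y_le (w, 0) (mem_dom hw ⟨le_rfl, hT⟩)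
    simp only [sub_zero]
    rw [hV1]; linarith
  · intro w hw s hs h1 _
    have hsT : s < T := lt_of_le_of_lt hs.2 ht.2
    have hp' : (w, s) ∈ dom T := mem_dom hw ⟨hs.1.le, hsT⟩
    have hh := M.h_pos hp'
    have hs' := hpos s ⟨hs.1.le, hsT⟩
    have e : ext (4 * (M.F.m + 1) * M.F.y * (1 - M.F.y) * M.F.h) (w, s)
        = 4 * (n + 1) * ext M.F.y (w, s) * (1 - ext M.F.y (w, s)) * ext M.h (w, s) := by
      rw [← ev_eq hp']
      simp only [map_mul, map_add, map_sub, map_one, map_ofNat, ev_eq, M.ext_m hp']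
      rfl
    rw [e, h1]
    obtain ⟨x, hx⟩ : ∃ x, x = T - s := ⟨_, rfl⟩
    have hx0 : 0 < x := by rw [hx]; linarith
    rw [← hx] at hs' ⊢
    obtain ⟨v, hv⟩ : ∃ v, v = V * x / (x + c) := ⟨_, rfl⟩
    have hv0 : 0 < v := by rw [hv]; positivity
    rw [← hv]
    -- lower bound for `h`
    have hr := hcol w hw s ⟨hs.1.le, hsT⟩
    rw [← hx] at hr
    have hrp := M.r_pos hp'
    have hA : ext M.A (w, s) ≤ Ce ^ 2 * x ^ 2 := by
      rw [← M.r_sq hp', ← mul_pow]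
      exact pow_le_pow_left₀ hrp.le hr 2
    have hAh := M.Ah hp'
    have hh1 : 1 ≤ Ce ^ 2 * x ^ 2 * ext M.h (w, s) := by
      rw [← hAh]; exact mul_le_mul_of_nonneg_right hA hh.le
    -- `4(n+1) v h ≥ c V Ce^2 x/(x+c) h > V c/(x+c)^2`
    have k1 : 4 * (n + 1) * (1 + v) * (1 - (1 + v)) * ext M.h (w, s)
        ≤ -(4 * (n + 1) * v * ext M.h (w, s)) := by
      have : 0 ≤ 4 * ((n : ℝ) + 1) * v * ext M.h (w, s) * v := by (clear * - hn' hv0 hh; positivity)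
      linarith only [this]
    have k2 : V * c / (x + c) ^ 2 < 4 * (n + 1) * v * ext M.h (w, s) := by
      rw [← hc1, hv, div_lt_iff₀ (by positivity)]
      have e3 : c * Ce ^ 2 * (V * x / (x + c)) * ext M.h (w, s) * (x + c) ^ 2
          = c * V * (x + c) * (Ce ^ 2 * x * ext M.h (w, s)) := by
        field_simp
      rw [e3]
      have k3 : 1 < (x + c) * (Ce ^ 2 * x * ext M.h (w, s)) := by
        have : 0 < c * (Ce ^ 2 * x * ext M.h (w, s)) := by positivity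
        linarith only [hh1, this]
      have : 0 < c * V := by positivity
      linarith only [mul_pos (sub_pos.2 k3) (sub_pos.2 this)]
    have k3 : -(V * c) / (x + c) ^ 2 = -(V * c / (x + c) ^ 2) := by ring
    rw [k3]
    linarith only [k1, k2]

/-- total collapse is impossible -/
theorem Glob.not_total (G : M.Glob Ce Y Q₀ P₀)
    (hcol : ∀ z ∈ Ioo (-1 : ℝ) 1, ∀ t ∈ Ico 0 T, ext M.r (z, t) ≤ Ce * (T - t)) : False := by
  have hT := G.hT
  have hCe := G.Ce1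
  have hn' : (1 : ℝ) ≤ n := by exact_mod_cast G.hn
  have hcol' : ∀ z ∈ Icc (-1 : ℝ) 1, ∀ t ∈ Ico 0 T, ext M.r (z, t) ≤ Ce * (T - t) := by
    intro z hz t ht
    have h1 : ContinuousWithinAt (fun z => ext M.r (z, t)) (Icc (-1) 1) z := cont_z M.r ht z hz
    have h2 := h1.mono (Ioo_subset_Icc_self : Ioo (-1 : ℝ) 1 ⊆ Icc (-1) 1)
    have h3 : z ∈ closure (Ioo (-1 : ℝ) 1) := by rw [closure_Ioo (by norm_num)]; exact hz
    have : (𝓝[Ioo (-1 : ℝ) 1] z).NeBot := mem_closure_iff_nhdsWithin_neBot.1 h3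
    refine le_of_tendsto h2.tendsto ?_
    filter_upwards [self_mem_nhdsWithin] with w hw
    exact hcol w hw t ht
  obtain ⟨c, V, hc, hV, hy⟩ := G.y_collapse hcol'
  -- choose a late time
  obtain ⟨x, hx⟩ : ∃ x, x = min T (min (c / (2 * V)) (1 / (32 * Ce ^ 2))) := ⟨_, rfl⟩
  have hx0 : 0 < x := by rw [hx]; positivity
  have hxT : x ≤ T := by rw [hx]; exact min_le_left _ _
  have hx1 : x ≤ c / (2 * V) := by
    rw [hx]; exact (min_le_right _ _).trans (min_le_left _ _)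
  have hx2 : x ≤ 1 / (32 * Ce ^ 2) := by
    rw [hx]; exact (min_le_right _ _).trans (min_le_right _ _)
  rw [le_div_iff₀ (by positivity)] at hx1 hx2
  obtain ⟨t, ht⟩ : ∃ t, t = T - x := ⟨_, rfl⟩
  have htI : t ∈ Ico 0 T := ⟨by linarith, by linarith⟩
  have hTt : T - t = x := by linarith
  have hv : V * (T - t) / (T - t + c) ≤ 1 / 2 := by
    rw [hTt, div_le_iff₀ (by positivity)]
    linarith only [hx1, hx0]
  -- spatial maximum of `A`
  obtain ⟨z, hz, hmax⟩ := isCompact_Icc.exists_isMaxOn (nonempty_Icc.2 (by norm_num : (-1:ℝ) ≤ 1))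
    (cont_z M.A htI)
  have hp : (z, t) ∈ dom T := mem_dom hz htI
  have hr : 32 * Ce * ext M.r (z, t) ≤ 1 := by
    have := hcol' z hz t htI
    rw [hTt] at this
    have h2 : 32 * Ce * ext M.r (z, t) ≤ 32 * Ce * (Ce * x) :=
      mul_le_mul_of_nonneg_left this (by positivity)
    linarith only [h2, hx2]
  have he1 := G.e1 _ hp
  have hE := M.Epos _ hp
  have hle : Ce * ext M.r (z, t) ≤ 1 / 32 := by linarith only [hr]
  rcases space_ineq M.A hz htI (by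
    filter_upwards [self_mem_nhdsWithin] with w hw
    exact hmax hw) with ⟨h, h3⟩ | ⟨h, h3⟩ | ⟨h, h3, h4⟩
  · subst h
    have hρ : ext M.F.ρ (-1, t) ≤ 0 := by
      rw [M.ext_ρ hp]; exact div_nonpos_of_nonpos_of_nonneg h3 (by positivity)
    have hy0 : ext M.F.y (-1, t) = 0 := by rw [M.ext_y hp, M.βl t htI, zero_mul]
    rw [hy0, M.q_left htI] at he1
    have h5 := (abs_le.1 he1).1
    have h6 : ext M.F.ρ (-1, t) * κ ≤ 0 := mul_nonpos_of_nonpos_of_nonneg hρ M.κpos.le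
    linarith only [hr, h5, h6]
  · subst h
    have hρ : 0 ≤ ext M.F.ρ (1, t) := by
      rw [M.ext_ρ hp]; exact div_nonneg h3 (by positivity)
    have hy0 : ext M.F.y (1, t) = 0 := by rw [M.ext_y hp, M.βr t htI, zero_mul]
    rw [hy0, M.q_right htI] at he1
    have h5 := (abs_le.1 he1).1
    have h6 : 0 ≤ ext M.F.ρ (1, t) * κ := mul_nonneg hρ M.κpos.le
    linarith only [hr, h5, h6]
  · have hρ : ext M.F.ρ (z, t) = 0 := by rw [M.ext_ρ hp, h3, zero_div]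
    rw [hρ] at he1
    have h5 := (abs_le.1 he1).1
    have h6 := hy z hz t htI
    linarith only [hv, hr, h5, h6]

end RData

end Vale.Agent.P244.BB
end
end

section

section

/-! The left region and noncollapsing at its outer boundary. -/

open Set Topology Filter
open scoped ContDiff

set_option linter.unusedSimpArgs false

namespace Vale.Agent.P244.BB

namespace RData

variable {T : ℝ} {n : ℕ} {κ : ℝ} {M : RData n κ T} {Ce Y Q₀ P₀ : ℝ}

/-- a negative `ρ` in the region where `A` is small and `z ≤ zm` is impossible -/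
lemma Glob.not_neg (G : M.Glob Ce Y Q₀ P₀) {zm z t D : ℝ} (hzm : zm ∈ Icc (-1 : ℝ) 1)
    (ht : t ∈ Ico 0 T) (hz : z ∈ Icc (-1 : ℝ) zm)
    (hA : 32 * Ce * ext M.r (z, t) ≤ 1) (hAm : ext M.A (z, t) < D) (hm : D ≤ ext M.A (zm, t))
    (hρ : ext M.F.ρ (z, t) < 0) : False := by
  have hz1 : z ∈ Icc (-1 : ℝ) 1 := ⟨hz.1, hz.2.trans hzm.2⟩
  have hzr : -z ∈ Icc (-1 : ℝ) 1 := ⟨by linarith [hz1.2], by linarith [hz1.1]⟩
  have hCe := G.Ce1
  have hrp := M.r_pos (mem_dom hz1 ht)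
  have eA : ∀ w, ext M.reflect.A (w, t) = ext M.A (-w, t) := fun w => ext_refl M.A w t
  obtain ⟨h1, h2⟩ := M.reflect.rho_pos_left (δ := ext M.A (z, t)) hzr ht (by
    intro w hw hA' h0 h0'
    refine G.refl.no_min (mem_dom hw ht) ?_ h0 h0'
    rw [reflect_r (mem_dom hw ht)]
    have : ext M.r (-w, t) ≤ ext M.r (z, t) := by
      rw [M.ext_r (refl_mem (mem_dom hw ht)), M.ext_r (mem_dom hz1 ht)]
      rw [eA] at hA'
      exact Real.sqrt_le_sqrt hA'
    have : 32 * Ce * ext M.r (-w, t) ≤ 32 * Ce * ext M.r (z, t) := by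
      have : 0 ≤ 32 * Ce := by linarith
      gcongr
    linarith) (by rw [M.reflect_ρ, ext_neg, ext_refl, neg_neg]; linarith)
    (by rw [eA, neg_neg])
  have h3 := h2 (⟨by linarith [hzm.2], by linarith [hz.2]⟩ : -zm ∈ Icc (-1 : ℝ) (-z))
    (⟨hzr.1, le_rfl⟩ : -z ∈ Icc (-1 : ℝ) (-z)) (by linarith [hz.2])
  simp only [eA, neg_neg] at h3
  linarith

/-- in the left region `ρ > 0` -/
lemma Glob.left_region (G : M.Glob Ce Y Q₀ P₀) {zm z t D : ℝ} (hzm : zm ∈ Icc (-1 : ℝ) 1)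
    (ht : t ∈ Ico 0 T) (hz : z ∈ Icc (-1 : ℝ) zm)
    (hA : 32 * Ce * ext M.r (z, t) < 1) (hAm : ext M.A (z, t) < D) (hm : D ≤ ext M.A (zm, t)) :
    0 < ext M.F.ρ (z, t) := by
  have hz1 : z ∈ Icc (-1 : ℝ) 1 := ⟨hz.1, hz.2.trans hzm.2⟩
  have hp := mem_dom hz1 ht
  rcases lt_trichotomy (ext M.F.ρ (z, t)) 0 with h | h | h
  · exact (G.not_neg hzm ht hz hA.le hAm hm h).elim
  · exfalso
    have hzlt : z < zm := by
      refine lt_of_le_of_ne hz.2 ?_
      rintro rfl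
      linarith
    have h1 : ext M.F.ρ1 (z, t) < 0 := by
      by_contra hcon
      push Not at hcon
      exact G.no_min hp hA.le h hcon
    -- points to the right with `ρ < 0`
    have hc1 : ContinuousWithinAt (fun w => ext M.A (w, t)) (Icc (-1) 1) z := cont_z M.A ht z hz1
    have hc2 : ContinuousWithinAt (fun w => 32 * Ce * ext M.r (w, t)) (Icc (-1) 1) z :=
      (cont_z M.r ht z hz1).const_mul _ |>.congr (fun _ _ => rfl) rfl
    have hev : ∀ᶠ w in 𝓝[Icc (-1) 1] z, ext M.A (w, t) < D ∧ 32 * Ce * ext M.r (w, t) < 1 :=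
      (hc1.eventually (gt_mem_nhds hAm)).and (hc2.eventually (gt_mem_nhds hA))
    rw [eventually_nhdsWithin_iff, Metric.eventually_nhds_iff] at hev
    obtain ⟨ε, hε, hev⟩ := hev
    obtain ⟨b, hb⟩ : ∃ b, b = min zm (z + ε / 2) := ⟨_, rfl⟩
    have hzb : z < b := by rw [hb]; exact lt_min hzlt (by linarith)
    have hbm : b ≤ zm := by rw [hb]; exact min_le_left _ _
    have hbε : b ≤ z + ε / 2 := by rw [hb]; exact min_le_right _ _
    by_cases hex : ∃ w ∈ Ioc z b, ext M.F.ρ (w, t) < 0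
    · obtain ⟨w, hw, hwρ⟩ := hex
      have hwI : w ∈ Icc (-1 : ℝ) 1 := ⟨hz1.1.trans hw.1.le, (hw.2.trans hbm).trans hzm.2⟩
      have h3 := hev (y := w) (by
        rw [Real.dist_eq, abs_of_pos (by linarith [hw.1])]
        linarith [hw.2]) hwI
      exact G.not_neg hzm ht ⟨hwI.1, hw.2.trans hbm⟩ h3.2.le h3.1 hm hwρ
    · push Not at hex
      have h3 := slope_right (hasDerivWithinAt_z M.F.ρ hz1 ht) hz1.1 hzb
        (hbm.trans hzm.2) (by
          intro w hw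
          simp only [h]
          exact hex w hw)
      have h4 : ext M.F.ρ1 (z, t) = ext (dz M.F.ρ) (z, t) / ext M.E (z, t) := M.ext_D M.F.ρ hp
      rw [h4] at h1
      have := div_nonneg h3 (M.Epos _ hp).le
      linarith only [this, h1]
  · exact h

lemma ext_dt_y (hM : M.IsRF) {p : ℝ × ℝ} (hp : p ∈ dom T) :
    ext (dt M.F.y) p = 2 * ext M.F.y p * (ext M.F.rB p - ext M.F.re p) := by
  have h1 : dt M.F.y = 2 * M.F.y * (M.F.rB - M.F.re) := by
    have e1 : dt M.F.y = dt (M.β * M.h) := rfl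
    have e2 : dt M.h = 2 * M.F.rB * M.h := M.F.Dth (M.isFlow hM)
    have e3 : M.F.y = M.β * M.h := rfl
    rw [e1, dt_mul, e2, hM.dtβ, e3]; ring
  have h2 := pt _ _ h1 hp
  simpa only [map_mul, map_sub, map_ofNat, ev_eq] using h2

/-- noncollapsing: `y` is bounded below in the part of `z ≤ zm` where `r ≥ r₁` -/
lemma Glob.noncollapse (G : M.Glob Ce Y Q₀ P₀) {zm t₁ r₁ : ℝ} (hzm : zm ∈ Ioo (-1 : ℝ) 1)
    (ht₁ : t₁ ∈ Ico 0 T) (hr₁ : 0 < r₁) (hL : Ce * (T - t₁) ≤ r₁ / 4)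
    (hbolt : ext M.r (-1, t₁) < r₁ / 2) :
    ∃ c : ℝ, 0 < c ∧ ∀ z ∈ Icc (-1 : ℝ) zm, ∀ t ∈ Ico t₁ T, r₁ ≤ ext M.r (z, t) →
      c ≤ ext M.F.y (z, t) := by
  have hCe := G.Ce1
  have hzm1 : ∀ z ∈ Icc (-1 : ℝ) zm, z ∈ Icc (-1 : ℝ) 1 := fun z hz => ⟨hz.1, hz.2.trans hzm.2.le⟩
  -- compactness at time `t₁`
  obtain ⟨c', hc', hmin⟩ : ∃ c' : ℝ, 0 < c' ∧ ∀ z ∈ Icc (-1 : ℝ) zm, r₁ / 2 ≤ ext M.r (z, t₁) →
      c' ≤ ext M.F.y (z, t₁) := by
    set Z : Set ℝ := Icc (-1) zm ∩ (fun z => ext M.r (z, t₁)) ⁻¹' (Ici (r₁ / 2)) with hZ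
    have hcr : ContinuousOn (fun z => ext M.r (z, t₁)) (Icc (-1) zm) :=
      (cont_z M.r ht₁).mono hzm1
    have hZc : IsCompact Z := isCompact_Icc.of_isClosed_subset
      (hcr.preimage_isClosed_of_isClosed isClosed_Icc isClosed_Ici) inter_subset_left
    rcases Z.eq_empty_or_nonempty with he | hne
    · refine ⟨1, one_pos, fun z hz hr => ?_⟩
      have : z ∈ Z := ⟨hz, hr⟩
      rw [he] at this
      exact this.elim
    · obtain ⟨z₀, hz₀, hz₀m⟩ := hZc.exists_isMinOn hne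
        ((cont_z M.F.y ht₁).mono (fun z hz => hzm1 z hz.1))
      refine ⟨ext M.F.y (z₀, t₁), ?_, fun z hz hr => hz₀m ⟨hz, hr⟩⟩
      have hz₀1 : z₀ ∈ Ioo (-1 : ℝ) 1 := by
        refine ⟨lt_of_le_of_ne hz₀.1.1 ?_, lt_of_le_of_lt hz₀.1.2 hzm.2⟩
        rintro rfl
        have : r₁ / 2 ≤ ext M.r (-1, t₁) := hz₀.2
        linarith only [this, hbolt]
      have hp : (z₀, t₁) ∈ dom T := mem_dom (Ioo_subset_Icc_self hz₀1) ht₁
      rw [M.ext_y hp]
      exact mul_pos (M.βpos z₀ hz₀1 t₁ ht₁) (M.h_pos hp)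
  obtain ⟨k, hk⟩ : ∃ k, k = 8 * Ce / r₁ := ⟨_, rfl⟩
  have hk0 : 0 ≤ k := by rw [hk]; positivity
  refine ⟨c' * Real.exp (-(k * (T - t₁))), by positivity, ?_⟩
  intro z hz t ht hr
  have hz1 := hzm1 z hz
  have htT : t ∈ Ico 0 T := ⟨ht₁.1.trans ht.1, ht.2⟩
  -- `r ≥ r₁/2` on the whole interval
  have hrs : ∀ s ∈ Icc t₁ t, r₁ / 2 ≤ ext M.r (z, s) := by
    intro s hs
    have h1 := G.lip hz1 (ht₁.1.trans hs.1) hs.2 ht.2
    have h2 := (abs_le.1 h1).2
    have h3 : Ce * (t - s) ≤ Ce * (T - t₁) := by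
      have := hs.1; have := ht.2
      exact mul_le_mul_of_nonneg_left (by linarith) (by linarith)
    linarith only [hr₁, hL, hr, h2, h3]
  have hy1 := hmin z hz (hrs t₁ ⟨le_rfl, ht.1⟩)
  -- monotonicity of `y e^{k s}`
  have hmono : MonotoneOn (fun s => ext M.F.y (z, s) * Real.exp (k * s)) (Icc t₁ t) := by
    have hd : ∀ s ∈ Icc t₁ t, HasDerivWithinAt (fun s => ext M.F.y (z, s) * Real.exp (k * s))
        (ext (dt M.F.y) (z, s) * Real.exp (k * s)
          + ext M.F.y (z, s) * (Real.exp (k * s) * (k * 1))) (Icc t₁ t) s := by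
      intro s hs
      have hsT : s ∈ Ico 0 T := ⟨ht₁.1.trans hs.1, lt_of_le_of_lt hs.2 ht.2⟩
      have h1 := (hasDerivWithinAt_t M.F.y hz1 hsT).mono
        (show Icc t₁ t ⊆ Ico 0 T from fun v hv => ⟨ht₁.1.trans hv.1, lt_of_le_of_lt hv.2 ht.2⟩)
      have h2 : HasDerivWithinAt (fun s => Real.exp (k * s)) (Real.exp (k * s) * (k * 1))
          (Icc t₁ t) s := (((hasDerivAt_id s).const_mul k).exp).hasDerivWithinAt
      exact h1.mul h2
    refine monotoneOn_of_deriv_nonneg (convex_Icc _ _)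
      (fun s hs => (hd s hs).continuousWithinAt) ?_ ?_
    · intro s hs
      exact ((hd s (interior_subset hs)).mono interior_subset).differentiableWithinAt
    · intro s hs
      have hs' := interior_subset hs
      rw [interior_Icc] at hs
      have hsT : s ∈ Ico 0 T := ⟨ht₁.1.trans hs'.1, lt_of_le_of_lt hs'.2 ht.2⟩
      have hp : (z, s) ∈ dom T := mem_dom hz1 hsT
      rw [((hd s hs').hasDerivAt (Icc_mem_nhds hs.1 hs.2)).deriv, ext_dt_y G.rf hp]
      have h1 := hrs s hs'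
      have h2 := G.rB _ hp
      have h3 := G.re _ hp
      have h4 := M.r_pos hp
      have hy := M.y_nonneg hp
      have h5 : |ext M.F.rB (z, s)| ≤ 2 * Ce / r₁ := by
        rw [le_div_iff₀ hr₁]
        have : |ext M.F.rB (z, s)| * (r₁ / 2) ≤ |ext M.F.rB (z, s)| * ext M.r (z, s) :=
          mul_le_mul_of_nonneg_left h1 (abs_nonneg _)
        linarith only [h2, this]
      have h6 : |ext M.F.re (z, s)| ≤ 2 * Ce / r₁ := by
        rw [le_div_iff₀ hr₁]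
        have : |ext M.F.re (z, s)| * (r₁ / 2) ≤ |ext M.F.re (z, s)| * ext M.r (z, s) :=
          mul_le_mul_of_nonneg_left h1 (abs_nonneg _)
        linarith only [h3, this]
      have h7 : 0 ≤ 2 * (ext M.F.rB (z, s) - ext M.F.re (z, s)) + k := by
        have g1 := (abs_le.1 h5).1
        have g2 := (abs_le.1 h6).2
        have : k = 4 * (2 * Ce / r₁) := by rw [hk]; ring
        linarith only [g1, g2, this]
      have h8 : 2 * ext M.F.y (z, s) * (ext M.F.rB (z, s) - ext M.F.re (z, s))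
          * Real.exp (k * s) + ext M.F.y (z, s) * (Real.exp (k * s) * (k * 1))
          = ext M.F.y (z, s) * Real.exp (k * s)
            * (2 * (ext M.F.rB (z, s) - ext M.F.re (z, s)) + k) := by ring
      rw [h8]
      have := Real.exp_pos (k * s)
      (clear * - hy h7; positivity)
  have h1 := hmono ⟨le_rfl, ht.1⟩ ⟨ht.1, le_rfl⟩ ht.1
  simp only at h1
  have h2 : c' * Real.exp (k * t₁) ≤ ext M.F.y (z, t) * Real.exp (k * t) :=
    (mul_le_mul_of_nonneg_right hy1 (Real.exp_pos _).le).trans h1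
  have h3 : c' * Real.exp (k * t₁ - k * t) ≤ ext M.F.y (z, t) := by
    rw [Real.exp_sub, ← mul_div_assoc, div_le_iff₀ (Real.exp_pos _)]
    exact h2
  refine le_trans ?_ h3
  have h4 : -(k * (T - t₁)) ≤ k * t₁ - k * t := by
    have : k * t ≤ k * T := mul_le_mul_of_nonneg_left ht.2.le hk0
    linarith
  gcongr

end RData

end Vale.Agent.P244.BB
end
end
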