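import Vale.Agent.P244.MathlibUsed
import Vale.Agent.P244.Bdl.B2
import Vale.Agent.P244.Bdl.B1
attribute [-instance] ProperSMul.toContinuousSMul IsTopologicalTorsor.toContinuousSMul IdemSemiring.toCanonicallyOrderedAdd IdemSemiring.toMulLeftMono IdemSemiring.toMulRightMono AddQuantale.instAddLeftMono AddQuantale.instAddRightMono Quantale.instMulLeftMono Quantale.instMulRightMono FiniteDimensional.rclike_to_real IsScalarTower.complexToReal FiniteDimensional.complexToReal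

set_option linter.all false

section

section

/-! Analysis on a time slice near a collapsing bolt. -/

open Set Topology Filter
open scoped ContDiff

set_option linter.unusedSimpArgs false

namespace Vale.Agent.P244.BB

namespace RData

variable {T : ℝ} {n : ℕ} {κ : ℝ} (M : RData n κ T)

/-- hypotheses on `[-1, z₁]` at time `t` -/
structure Slice (Ce Y Q₀ z₁ t : ℝ) : Prop where
  hn : 1 ≤ n
  Ce1 : 1 ≤ Ce
  Y1 : 1 ≤ Y
  Q1 : 1 ≤ Q₀
  hz : z₁ ∈ Icc (-1 : ℝ) 1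
  ht : t ∈ Ico 0 T
  ρpos : ∀ z ∈ Icc (-1 : ℝ) z₁, 0 < ext M.F.ρ (z, t)
  e1 : ∀ z ∈ Icc (-1 : ℝ) z₁, |2 * ext M.F.ρ (z, t) * ext M.F.q (z, t)
    + (2 * n - 1) * (ext M.F.y (z, t) * ext M.F.ρ (z, t) ^ 2)
    + ext M.F.y (z, t) - 2 * (n + 1)| ≤ Ce * ext M.r (z, t)
  e2 : ∀ z ∈ Icc (-1 : ℝ) z₁, |ext M.F.y (z, t) * (ext M.A (z, t) * ext M.F.ρ1 (z, t) + 1
    - ext M.F.ρ (z, t) ^ 2)| ≤ Ce * ext M.r (z, t)
  e3 : ∀ z ∈ Icc (-1 : ℝ) z₁, |ext M.A (z, t) * ext M.F.q1 (z, t)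
    - 2 * n * (ext M.F.y (z, t) - ext M.F.ρ (z, t) * ext M.F.q (z, t))| ≤ Ce * ext M.r (z, t)
  small : ∀ z ∈ Icc (-1 : ℝ) z₁, 32 * Ce * ext M.r (z, t) ≤ 1
  y_le : ∀ z ∈ Icc (-1 : ℝ) z₁, ext M.F.y (z, t) ≤ Y
  q_le : ∀ z ∈ Icc (-1 : ℝ) z₁, |ext M.F.q (z, t)| ≤ Q₀

variable {M} {Ce Y Q₀ z₁ t : ℝ}

lemma Slice.dom (S : M.Slice Ce Y Q₀ z₁ t) {z : ℝ} (hz : z ∈ Icc (-1 : ℝ) z₁) :
    (z, t) ∈ BB.dom T := mem_dom ⟨hz.1, hz.2.trans S.hz.2⟩ S.ht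

lemma Slice.mono (S : M.Slice Ce Y Q₀ z₁ t) :
    MonotoneOn (fun z => ext M.A (z, t)) (Icc (-1) z₁) := by
  refine M.mono_D M.A le_rfl S.hz.2 S.ht ?_
  intro w hw
  have hp := S.dom ⟨hw.1.le, hw.2.le⟩
  rw [M.ext_DA hp]
  have := S.ρpos w ⟨hw.1.le, hw.2.le⟩
  linarith

lemma Slice.sub (S : M.Slice Ce Y Q₀ z₁ t) {z₂ : ℝ} (hz₂ : z₂ ∈ Icc (-1 : ℝ) z₁) :
    M.Slice Ce Y Q₀ z₂ t := by
  have hs : ∀ z ∈ Icc (-1 : ℝ) z₂, z ∈ Icc (-1 : ℝ) z₁ := fun z hz => ⟨hz.1, hz.2.trans hz₂.2⟩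
  exact ⟨S.hn, S.Ce1, S.Y1, S.Q1, ⟨hz₂.1, hz₂.2.trans S.hz.2⟩, S.ht,
    fun z hz => S.ρpos z (hs z hz), fun z hz => S.e1 z (hs z hz), fun z hz => S.e2 z (hs z hz),
    fun z hz => S.e3 z (hs z hz), fun z hz => S.small z (hs z hz),
    fun z hz => S.y_le z (hs z hz), fun z hz => S.q_le z (hs z hz)⟩

/-- real inequality behind `Slice.sum_ge` -/
lemma sum_ge_real {n h ρ q y ρ1 A α2 e : ℝ} (hn : 1 ≤ n) (hh : 0 < h) (hρ : 0 < ρ)
    (hy : 0 ≤ y) (hAh : A * h = 1)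
    (he1 : |2 * ρ * q + (2 * n - 1) * (y * ρ ^ 2) + y - 2 * (n + 1)| ≤ e)
    (he2 : |y * (A * ρ1 + 1 - ρ ^ 2)| ≤ e) (he : e ≤ 1 / 32)
    (hf : y + y * ρ ^ 2 - 1 / 4 * (1 - α2 * h) < 0) (hα0 : 0 ≤ α2 * h) :
    0 ≤ 2 * h * (q - y * ρ) + (y * (2 * ρ * ρ1) + ρ ^ 2 * (2 * h * (q - y * ρ)))
      - 1 / 4 * (-(α2 * (-2 * ρ * h ^ 2))) := by
  have a1 := abs_le.1 he1
  have a2 := abs_le.1 he2
  have hP : 0 ≤ y * ρ ^ 2 := by positivity
  have hS : y + y * ρ ^ 2 < 1 / 4 := by linarith only [hf, hα0]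
  have k1 : 15 / 8 - 1 / 32 ≤ ρ * q := by nlinarith only [hn, he, hf, hα0, a1, hy]
  -- multiply by ρ
  have key : 0 ≤ ρ * q + ρ ^ 2 * (ρ * q - 2 * y + y * (A * ρ1 + 1 - ρ ^ 2) - α2 * h / 4) := by
    have : 0 ≤ ρ * q - 2 * y + y * (A * ρ1 + 1 - ρ ^ 2) - α2 * h / 4 := by linarith only [he, hf, hα0, a2, hP, k1]
    (clear * - k1 hρ this; positivity)
  have e3 : ρ * (2 * h * (q - y * ρ) + (y * (2 * ρ * ρ1) + ρ ^ 2 * (2 * h * (q - y * ρ)))
      - 1 / 4 * (-(α2 * (-2 * ρ * h ^ 2)))) = 2 * h * (ρ * q + ρ ^ 2 * (ρ * q - 2 * y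
        + y * (A * ρ1 + 1 - ρ ^ 2) - α2 * h / 4)) := by
    linear_combination (-2 * ρ ^ 2 * y * ρ1) * hAh
  have h2 : 0 ≤ ρ * (2 * h * (q - y * ρ) + (y * (2 * ρ * ρ1) + ρ ^ 2 * (2 * h * (q - y * ρ)))
      - 1 / 4 * (-(α2 * (-2 * ρ * h ^ 2)))) := by
    rw [e3]; (clear * - hh key; positivity)
  exact nonneg_of_mul_nonneg_right h2 hρ

/-- `y + y ρ^2` is bounded below away from the bolt -/
lemma Slice.sum_ge (S : M.Slice Ce Y Q₀ z₁ t) :
    ∀ z ∈ Icc (-1 : ℝ) z₁, 1 / 4 * (1 - ext M.A (-1, t) * ext M.h (z, t))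
      ≤ ext M.F.y (z, t) + ext M.F.y (z, t) * ext M.F.ρ (z, t) ^ 2 := by
  obtain ⟨α2, hα2⟩ : ∃ α2, α2 = ext M.A (-1, t) := ⟨_, rfl⟩
  rw [← hα2]
  have hm1 : (-1 : ℝ) ∈ Icc (-1 : ℝ) z₁ := ⟨le_rfl, S.hz.1⟩
  have hα0 : 0 < α2 := by rw [hα2]; exact M.Apos _ (S.dom hm1)
  have ef : ∀ p ∈ BB.dom T, ext (M.F.y + M.F.y * M.F.ρ ^ 2 - cst (1 / 4) * (1 - cst α2 * M.h)) p
      = ext M.F.y p + ext M.F.y p * ext M.F.ρ p ^ 2 - 1 / 4 * (1 - α2 * ext M.h p) := by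
    intro p hp
    have c1 : ev hp (cst (1 / 4)) = 1 / 4 := by rw [ev_eq, ext_cst _ hp]
    have c2 : ev hp (cst α2) = α2 := by rw [ev_eq, ext_cst _ hp]
    rw [← ev_eq hp]
    simp only [map_add, map_sub, map_mul, map_pow, map_one, c1, c2, ev_eq]
  have hb := M.barrier (M.F.y + M.F.y * M.F.ρ ^ 2 - cst (1 / 4) * (1 - cst α2 * M.h)) (a := -1)
    (b := z₁) le_rfl S.hz.2 S.ht ?_ ?_
  · intro z hz
    have := hb z hz
    rw [ef _ (S.dom hz)] at this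
    linarith
  · have hp := S.dom hm1
    rw [ef _ hp]
    have h1 : ext M.F.y (-1, t) = 0 := by rw [M.ext_y hp, M.βl t S.ht, zero_mul]
    have h2 := M.Ah hp
    rw [← hα2] at h2
    rw [h1, h2]; norm_num
  · intro w hw hneg
    have hw' : w ∈ Icc (-1 : ℝ) z₁ := ⟨hw.1.le, hw.2.le⟩
    have hp := S.dom hw'
    rw [ef _ hp] at hneg
    have e : ext (M.D (M.F.y + M.F.y * M.F.ρ ^ 2 - cst (1 / 4) * (1 - cst α2 * M.h))) (w, t)
        = 2 * ext M.h (w, t) * (ext M.F.q (w, t) - ext M.F.y (w, t) * ext M.F.ρ (w, t))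
          + (ext M.F.y (w, t) * (2 * ext M.F.ρ (w, t) * ext M.F.ρ1 (w, t))
          + ext M.F.ρ (w, t) ^ 2 * (2 * ext M.h (w, t) * (ext M.F.q (w, t)
            - ext M.F.y (w, t) * ext M.F.ρ (w, t))))
          - 1 / 4 * (-(α2 * (-2 * ext M.F.ρ (w, t) * ext M.h (w, t) ^ 2))) := by
      have c1 : ev hp (cst (1 / 4)) = 1 / 4 := by rw [ev_eq, ext_cst _ hp]
      have c2 : ev hp (cst α2) = α2 := by rw [ev_eq, ext_cst _ hp]
      have d1 : ev hp (M.D M.F.y) = _ := (ev_eq hp _).trans (M.ext_Dy hp)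
      have d2 : ev hp (M.D M.h) = _ := (ev_eq hp _).trans (M.ext_Dh hp)
      have d3 : ev hp (M.D M.F.ρ) = ext M.F.ρ1 (w, t) := ev_eq hp _
      rw [← ev_eq hp]
      simp only [map_add, map_sub, Derivation.leibniz, Derivation.leibniz_pow, smul_eq_mul,
        cst_D, Derivation.map_one_eq_zero, map_mul, map_pow, map_one, map_zero, nsmul_eq_mul,
        Nat.cast_ofNat, map_ofNat, c1, c2, d1, d2, d3]
      simp only [ev_eq]
      ring
    rw [e]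
    have h2 := M.Ah hp
    have h3 := M.h_pos hp
    have hsm : Ce * ext M.r (w, t) ≤ 1 / 32 := by linarith only [S.small w hw']
    have hn' : (1 : ℝ) ≤ n := by exact_mod_cast S.hn
    exact sum_ge_real hn' h3 (S.ρpos w hw') (M.y_nonneg hp) h2
      (S.e1 w hw') (S.e2 w hw') hsm hneg (by positivity)

/-- real inequality behind `Slice.c_bound` -/
lemma c_bound_real {ρ y r B X Ce : ℝ} (hρ : 0 < ρ) (hy : 0 ≤ y)
    (hr : 0 < r) (hCe : 1 ≤ Ce) (hB : 64 * Ce < B) (hsm : 32 * Ce * r ≤ 1)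
    (hS : 1 / 8 ≤ y + y * ρ ^ 2) (hX : |y * X| ≤ Ce * r) (hc : ρ ^ 2 - 1 ≤ B * r) :
    16 * Ce * (2 + B * r) < B ∧ |X| ≤ 8 * Ce * r * (2 + B * r) := by
  have hB0 : 0 < B := by linarith only [hB, hCe]
  constructor
  · have : 32 * Ce * r * B ≤ 1 * B := mul_le_mul_of_nonneg_right hsm hB0.le
    linarith only [hB, this]
  · have h1 : y * |X| ≤ Ce * r := by rwa [abs_mul, abs_of_nonneg hy] at hX
    have h2 : 1 ≤ 8 * (y * (1 + ρ ^ 2)) := by linarith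
    have h3 : |X| ≤ 8 * (y * (1 + ρ ^ 2)) * |X| := by
      have := mul_le_mul_of_nonneg_right h2 (abs_nonneg X)
      linarith
    have h4 : 8 * (y * (1 + ρ ^ 2)) * |X| = 8 * (1 + ρ ^ 2) * (y * |X|) := by ring
    have h5 : 8 * (1 + ρ ^ 2) * (y * |X|) ≤ 8 * (1 + ρ ^ 2) * (Ce * r) :=
      mul_le_mul_of_nonneg_left h1 (by positivity)
    have h6 : 8 * (1 + ρ ^ 2) * (Ce * r) ≤ 8 * (2 + B * r) * (Ce * r) :=
      mul_le_mul_of_nonneg_right (by linarith only [hc]) (by positivity)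
    calc |X| ≤ 8 * (1 + ρ ^ 2) * (Ce * r) := by rw [h4] at h3; exact h3.trans h5
      _ ≤ _ := by rw [show 8 * Ce * r * (2 + B * r) = 8 * (2 + B * r) * (Ce * r) by ring]; exact h6

/-- `|ρ^2-1| < B r` on the part of the slice where `A` is at least twice its value at the bolt -/
lemma Slice.c_bound (S : M.Slice Ce Y Q₀ z₁ t) {B : ℝ} (hB : 64 * Ce < B)
    (hend : |ext M.F.ρ (z₁, t) ^ 2 - 1| < B * ext M.r (z₁, t)) :
    ∀ z ∈ Icc (-1 : ℝ) z₁, 2 * ext M.A (-1, t) ≤ ext M.A (z, t) →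
      |ext M.F.ρ (z, t) ^ 2 - 1| < B * ext M.r (z, t) := by
  intro z hz hA
  have hm1 : (-1 : ℝ) ∈ Icc (-1 : ℝ) z₁ := ⟨le_rfl, S.hz.1⟩
  have hα0 : 0 < ext M.A (-1, t) := M.Apos _ (S.dom hm1)
  have hCe := S.Ce1
  have key : ∀ s : ℝ, |s| = 1 → 0 < ext (cst B * M.ri + cst s * ((M.F.ρ ^ 2 - 1) * M.h)) (z, t) := by
    intro s hs
    have hs2 : s ^ 2 = 1 := by rw [← sq_abs, hs]; norm_num
    have ef : ∀ p ∈ BB.dom T, ext (cst B * M.ri + cst s * ((M.F.ρ ^ 2 - 1) * M.h)) p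
        = B * ext M.ri p + s * ((ext M.F.ρ p ^ 2 - 1) * ext M.h p) := by
      intro p hp
      have c1 : ev hp (cst B) = B := by rw [ev_eq, ext_cst _ hp]
      have c2 : ev hp (cst s) = s := by rw [ev_eq, ext_cst _ hp]
      rw [← ev_eq hp]
      simp only [map_add, map_sub, map_mul, map_pow, map_one, c1, c2, ev_eq]
    refine M.touch_back _ (a := z) (b := z₁) hz.1 S.hz.2 S.ht ?_ ?_ z ⟨le_rfl, hz.2⟩
    · have hp := S.dom (⟨S.hz.1, le_rfl⟩ : z₁ ∈ Icc (-1 : ℝ) z₁)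
      rw [ef _ hp]
      have h1 := M.ri_pos hp
      have h2 := M.ri_sq hp
      have h3 := M.r_ri_pt hp
      obtain ⟨g1, g2⟩ := abs_lt.1 hend
      have e : B * ext M.ri (z₁, t) + s * ((ext M.F.ρ (z₁, t) ^ 2 - 1) * ext M.h (z₁, t))
          = ext M.ri (z₁, t) ^ 2 * (B * ext M.r (z₁, t) + s * (ext M.F.ρ (z₁, t) ^ 2 - 1)) := by
        rw [← h2]; linear_combination (-(B * ext M.ri (z₁, t))) * h3
      rw [e]
      have h4 : 0 < B * ext M.r (z₁, t) + s * (ext M.F.ρ (z₁, t) ^ 2 - 1) := by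
        rcases (abs_eq (by norm_num)).1 hs with h | h <;> rw [h] <;> linarith only [g1, g2]
      (clear * - h1 h4; positivity)
    · intro w hw h0
      have hw' : w ∈ Icc (-1 : ℝ) z₁ := ⟨hz.1.trans hw.1, hw.2.le⟩
      have hp := S.dom hw'
      rw [ef _ hp] at h0
      have h1 := M.ri_pos hp
      have h2 := M.ri_sq hp
      have h3 := M.r_ri_pt hp
      have h4 := M.r_pos hp
      have hAh := M.Ah hp
      have e : ext (M.D (cst B * M.ri + cst s * ((M.F.ρ ^ 2 - 1) * M.h))) (w, t)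
          = -(B * ext M.F.ρ (w, t) * ext M.ri (w, t) ^ 3)
            + s * (2 * ext M.F.ρ (w, t) * ext M.h (w, t) ^ 2 * (ext M.A (w, t) * ext M.F.ρ1 (w, t)
              + 1 - ext M.F.ρ (w, t) ^ 2)) := by
        have c1 : ev hp (cst B) = B := by rw [ev_eq, ext_cst _ hp]
        have c2 : ev hp (cst s) = s := by rw [ev_eq, ext_cst _ hp]
        have d1 : ev hp (M.D M.ri) = _ := (ev_eq hp _).trans (M.ext_D_ri hp)
        have d2 : ev hp (M.D M.h) = _ := (ev_eq hp _).trans (M.ext_Dh hp)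
        have d3 : ev hp (M.D M.F.ρ) = ext M.F.ρ1 (w, t) := ev_eq hp _
        rw [← ev_eq hp]
        simp only [map_add, map_sub, Derivation.leibniz, Derivation.leibniz_pow, smul_eq_mul,
          cst_D, Derivation.map_one_eq_zero, map_mul, map_pow, map_one, map_zero, nsmul_eq_mul,
          Nat.cast_ofNat, map_ofNat, c1, c2, d1, d2, d3]
        simp only [ev_eq]
        linear_combination (-(s * 2 * ext M.F.ρ (w, t) * ext M.F.ρ1 (w, t) * ext M.h (w, t))) * hAh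
      rw [e]
      -- value of `ρ^2 - 1`
      have h5 : s * (ext M.F.ρ (w, t) ^ 2 - 1) = -(B * ext M.r (w, t)) := by
        rw [← h2] at h0
        have : s * (ext M.F.ρ (w, t) ^ 2 - 1) * (ext M.r (w, t) * ext M.ri (w, t)) ^ 2
            = -(B * ext M.r (w, t) * (ext M.r (w, t) * ext M.ri (w, t))) := by
          linear_combination ext M.r (w, t) ^ 2 * h0
        rw [h3] at this
        linarith only [this]
      have h6 : ext M.F.ρ (w, t) ^ 2 - 1 ≤ B * ext M.r (w, t) := by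
        have hB0 : 0 < B * ext M.r (w, t) := by
          have : 0 < B := by linarith
          positivity
        rcases (abs_eq (by norm_num)).1 hs with h | h <;> rw [h] at h5 <;> linarith only [h5, hB0]
      have h7 := S.mono hz hw' hw.1
      simp only at h7
      have h8 : ext M.A (-1, t) * ext M.h (w, t) ≤ 1 / 2 := by
        have := M.h_pos hp
        have h9 : 2 * ext M.A (-1, t) * ext M.h (w, t) ≤ ext M.A (w, t) * ext M.h (w, t) :=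
          mul_le_mul_of_nonneg_right (by linarith) this.le
        linarith only [hAh, h9]
      have h9 := S.sum_ge w hw'
      obtain ⟨k1, k2⟩ := c_bound_real (S.ρpos w hw') (M.y_nonneg hp) h4 hCe hB (S.small w hw')
        (by linarith only [h8, h9]) (S.e2 w hw') h6
      obtain ⟨X, hX⟩ : ∃ X, X = ext M.A (w, t) * ext M.F.ρ1 (w, t) + 1 - ext M.F.ρ (w, t) ^ 2 :=
        ⟨_, rfl⟩
      rw [← hX] at k2 ⊢
      rw [← h2]
      have hρ := S.ρpos w hw'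
      have k3 : s * X ≤ 8 * Ce * ext M.r (w, t) * (2 + B * ext M.r (w, t)) := by
        refine (le_abs_self _).trans ?_
        rw [abs_mul, hs, one_mul]; exact k2
      have k4 : s * (2 * ext M.F.ρ (w, t) * (ext M.ri (w, t) ^ 2) ^ 2 * X)
          = 2 * ext M.F.ρ (w, t) * (ext M.ri (w, t) ^ 2) ^ 2 * (s * X) := by ring
      rw [k4]
      have k5 : 2 * ext M.F.ρ (w, t) * (ext M.ri (w, t) ^ 2) ^ 2 * (s * X)
          ≤ 2 * ext M.F.ρ (w, t) * (ext M.ri (w, t) ^ 2) ^ 2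
            * (8 * Ce * ext M.r (w, t) * (2 + B * ext M.r (w, t))) :=
        mul_le_mul_of_nonneg_left k3 (by (clear * - hρ h1; positivity))
      have k6 : 2 * ext M.F.ρ (w, t) * (ext M.ri (w, t) ^ 2) ^ 2
            * (8 * Ce * ext M.r (w, t) * (2 + B * ext M.r (w, t)))
          = ext M.F.ρ (w, t) * ext M.ri (w, t) ^ 3 * (16 * Ce * (2 + B * ext M.r (w, t))) := by
        linear_combination (ext M.F.ρ (w, t) * ext M.ri (w, t) ^ 3
          * (16 * Ce * (2 + B * ext M.r (w, t)))) * h3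
      have k7 : ext M.F.ρ (w, t) * ext M.ri (w, t) ^ 3 * (16 * Ce * (2 + B * ext M.r (w, t)))
          < ext M.F.ρ (w, t) * ext M.ri (w, t) ^ 3 * B :=
        mul_lt_mul_of_pos_left k1 (by (clear * - hρ h1; positivity))
      linarith only [k5, k6, k7]
  have hp := S.dom hz
  have e : ∀ s : ℝ, ext (cst B * M.ri + cst s * ((M.F.ρ ^ 2 - 1) * M.h)) (z, t)
      = B * ext M.ri (z, t) + s * ((ext M.F.ρ (z, t) ^ 2 - 1) * ext M.h (z, t)) := by
    intro s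
    have c1 : ev hp (cst B) = B := by rw [ev_eq, ext_cst _ hp]
    have c2 : ev hp (cst s) = s := by rw [ev_eq, ext_cst _ hp]
    rw [← ev_eq hp]
    simp only [map_add, map_sub, map_mul, map_pow, map_one, c1, c2, ev_eq]
  have k1 := key 1 (by norm_num)
  have k2 := key (-1) (by norm_num)
  rw [e] at k1 k2
  have h1 := M.ri_pos hp
  have h2 := M.ri_sq hp
  have h3 := M.r_ri_pt hp
  have h4 := M.r_pos hp
  rw [← h2] at k1 k2
  have g : ∀ s : ℝ, 0 < B * ext M.ri (z, t) + s * ((ext M.F.ρ (z, t) ^ 2 - 1) * ext M.ri (z, t) ^ 2) →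
      0 < B * ext M.r (z, t) + s * (ext M.F.ρ (z, t) ^ 2 - 1) := by
    intro s hs
    have : ext M.r (z, t) ^ 2 * (B * ext M.ri (z, t) + s * ((ext M.F.ρ (z, t) ^ 2 - 1)
        * ext M.ri (z, t) ^ 2)) = B * ext M.r (z, t) + s * (ext M.F.ρ (z, t) ^ 2 - 1) := by
      linear_combination (B * ext M.r (z, t) + s * (ext M.F.ρ (z, t) ^ 2 - 1)
        * (ext M.r (z, t) * ext M.ri (z, t) + 1)) * h3
    rw [← this]
    (clear * - h4 hs; positivity)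
  have g1 := g 1 k1
  have g2 := g (-1) k2
  rw [abs_lt]; constructor <;> linarith

end RData

end Vale.Agent.P244.BB
end
end

section

section

/-! Analysis on a time slice near a collapsing bolt: the inner region. -/

open Set Topology Filter
open scoped ContDiff

set_option linter.unusedSimpArgs false

namespace Vale.Agent.P244.BB

namespace RData

variable {T : ℝ} {n : ℕ} {κ : ℝ} (M : RData n κ T)

/-- the combination `q + m y - (m+1)` -/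
noncomputable def Y1 : smoothAlg T := M.F.q + M.F.m * M.F.y - (M.F.m + 1)

lemma ext_Y1 {p : ℝ × ℝ} (hp : p ∈ dom T) :
    ext M.Y1 p = ext M.F.q p + n * ext M.F.y p - (n + 1) := by
  have h1 : ev hp M.Y1 = ev hp (M.F.q + M.F.m * M.F.y - (M.F.m + 1)) := rfl
  simpa only [map_add, map_sub, map_mul, map_one, ev_eq, M.ext_m hp] using h1

lemma D_m' : M.D M.F.m = 0 := M.F.D_m

lemma ext_D_Y1 {p : ℝ × ℝ} (hp : p ∈ dom T) :
    ext (M.D M.Y1) p = ext M.F.q1 p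
      + n * (2 * ext M.h p * (ext M.F.q p - ext M.F.y p * ext M.F.ρ p)) := by
  have e : M.D M.Y1 = M.D (M.F.q + M.F.m * M.F.y - (M.F.m + 1)) := rfl
  have d1 : ev hp (M.D M.F.y) = _ := (ev_eq hp _).trans (M.ext_Dy hp)
  have d3 : ev hp (M.D M.F.q) = ext M.F.q1 p := ev_eq hp _
  rw [← ev_eq hp, e]
  simp only [map_add, map_sub, Derivation.leibniz, smul_eq_mul, D_m',
    Derivation.map_one_eq_zero, map_mul, map_one, map_zero, d1, d3]
  simp only [ev_eq, M.ext_m hp]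
  ring

/-- algebra relating `Y1` and `1-ρ` -/
lemma zeta_real {n ρ q y Y Ce r ζ₀ : ℝ} (hn : 1 ≤ n) (hy : 0 ≤ y) (hyY : y ≤ Y) (hY1 : 1 ≤ Y)
    (hζ₀ : 2 * (n + 1) * Y * ζ₀ ≤ 1) (hζ₀' : ζ₀ ≤ 1 / 4)
    (he1 : |2 * ρ * q + (2 * n - 1) * (y * ρ ^ 2) + y - 2 * (n + 1)| ≤ Ce * r)
    (hζ : |1 - ρ| ≤ ζ₀) :
    |1 - ρ| ≤ 2 * |q + n * y - (n + 1)| + Ce * r ∧
    |q + n * y - (n + 1)| ≤ 6 * (n + 1) * Y * |1 - ρ| + Ce * r := by
  have e : (q + n * y - (n + 1)) * ρ = (1 - ρ) * ((n + 1) + (n - 1) * y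
      - (n - 1 / 2) * y * (1 - ρ)) + (2 * ρ * q + (2 * n - 1) * (y * ρ ^ 2) + y
        - 2 * (n + 1)) / 2 := by ring
  obtain ⟨V, hV⟩ : ∃ V, V = q + n * y - (n + 1) := ⟨_, rfl⟩
  obtain ⟨b, hb⟩ : ∃ b, b = (n + 1) + (n - 1) * y - (n - 1 / 2) * y * (1 - ρ) := ⟨_, rfl⟩
  obtain ⟨e1, he⟩ : ∃ e1, e1 = 2 * ρ * q + (2 * n - 1) * (y * ρ ^ 2) + y - 2 * (n + 1) :=
    ⟨_, rfl⟩
  rw [← hV, ← hb, ← he] at e
  rw [← he] at he1
  rw [← hV]
  have h1 := abs_le.1 hζ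
  have h2 : |(n - 1 / 2) * y * (1 - ρ)| ≤ 1 / 2 := by
    rw [abs_mul, abs_of_nonneg (by
      have : 0 ≤ n - 1 / 2 := by linarith only [hn]
      positivity : 0 ≤ (n - 1 / 2) * y)]
    have : (n - 1 / 2) * y * |1 - ρ| ≤ (n + 1) * Y * ζ₀ := by
      have a1 : (n - 1 / 2) * y ≤ (n + 1) * Y := by
        have : 0 ≤ n - 1 / 2 := by linarith only [hn]
        nlinarith only [hyY, hY1, hn]
      have a2 : 0 ≤ (n + 1) * Y := by
        have : 0 ≤ Y := hy.trans hyY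
        positivity
      have a3 := abs_nonneg (1 - ρ)
      exact mul_le_mul a1 hζ a3 a2
    linarith only [hζ₀, this]
  have h3 := abs_le.1 h2
  have hb1 : 1 ≤ b := by
    rw [hb]; nlinarith only [hn, h3, hy]
  have hb2 : b ≤ 3 * (n + 1) * Y := by
    rw [hb]; nlinarith only [hY1, h3, hn, hyY]
  have hρ1 : ρ ≤ 2 := by linarith only [hζ₀', h1]
  have hρ2 : 1 / 2 ≤ ρ := by linarith only [hζ₀', h1]
  have hCr : 0 ≤ Ce * r := (abs_nonneg _).trans he1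
  constructor
  · have h4 : |1 - ρ| ≤ |(1 - ρ) * b| := by
      rw [abs_mul, abs_of_nonneg (by linarith only [hb1] : 0 ≤ b)]
      linarith only [mul_nonneg (sub_nonneg.2 hb1) (sub_nonneg.2 (abs_nonneg (1 - ρ)))]
    have h5 : (1 - ρ) * b = V * ρ - e1 / 2 := by linarith only [e]
    rw [h5] at h4
    have h6 : |V * ρ - e1 / 2| ≤ |V| * 2 + Ce * r := by
      have a1 := abs_sub (V * ρ) (e1 / 2)
      have a2 : |V * ρ| ≤ |V| * 2 := by
        rw [abs_mul, abs_of_nonneg (by linarith only [hζ₀', h1] : 0 ≤ ρ)]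
        exact mul_le_mul_of_nonneg_left hρ1 (abs_nonneg _)
      have a3 : |e1 / 2| ≤ Ce * r := by
        rw [abs_div, abs_two]; linarith only [hCr, he1]
      linarith only [a1, a2, a3]
    linarith only [h4, h6]
  · have h4 : |V| * (1 / 2) ≤ |V * ρ| := by
      rw [abs_mul, abs_of_nonneg (by linarith only [hζ₀', h1] : 0 ≤ ρ)]
      exact mul_le_mul_of_nonneg_left hρ2 (abs_nonneg _)
    rw [e] at h4
    have h5 : |(1 - ρ) * b + e1 / 2| ≤ |1 - ρ| * (3 * (n + 1) * Y) + Ce * r / 2 := by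
      have a1 := abs_add_le ((1 - ρ) * b) (e1 / 2)
      have a2 : |(1 - ρ) * b| ≤ |1 - ρ| * (3 * (n + 1) * Y) := by
        rw [abs_mul, abs_of_nonneg (by linarith only [hb1] : 0 ≤ b)]
        exact mul_le_mul_of_nonneg_left hb2 (abs_nonneg _)
      have a3 : |e1 / 2| ≤ Ce * r / 2 := by
        rw [abs_div, abs_two]; linarith only [he1]
      linarith only [a1, a2, a3]
    linarith only [h4, h5]

/-- real inequality behind the barrier for `Y1` -/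
lemma Y1_real {n Y Q₀ Ce r α ρ y q e3 W ζ N B₁ : ℝ} (hn : 1 ≤ n) (hY1 : 1 ≤ Y) (hQ1 : 1 ≤ Q₀)
    (hCe : 1 ≤ Ce) (hy : 0 ≤ y) (hyY : y ≤ Y) (hq : |q| ≤ Q₀) (hr : 0 < r) (hrα : r ≤ 2 * α)
    (hρ : 1 / 2 ≤ ρ) (he3 : |e3| ≤ Ce * r) (hζ : |ζ| ≤ 2 * W + Ce * r) (hBW : B₁ ≤ W)
    (hN : 2 * (2 * n * (Y + Q₀) + 1) ≤ N) (hB : 4 * (2 * n * (Y + Q₀) + 1) * Ce * α < B₁) :
    |2 * n * ζ * (y + q) + e3| < 2 * N * ρ * W := by
  obtain ⟨G, hG⟩ : ∃ G, G = 2 * n * (Y + Q₀) + 1 := ⟨_, rfl⟩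
  rw [← hG] at hN hB
  have hG1 : 1 ≤ G := by
    rw [hG]
    have : 0 ≤ 2 * n * (Y + Q₀) := by positivity
    linarith
  have hyq : |y + q| ≤ Y + Q₀ := by
    have := abs_le.1 hq
    rw [abs_le]; constructor <;> linarith only [hY1, hy, this, hyY]
  have hα : 0 < α := by linarith
  have hB0 : 0 < B₁ := by
    have : 0 < 4 * G * Ce * α := by positivity
    linarith
  have hW : 0 < W := by linarith
  have h1 : |2 * n * ζ * (y + q)| ≤ (G - 1) * |ζ| := by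
    rw [abs_mul, abs_mul, abs_of_pos (by positivity : (0 : ℝ) < 2 * n)]
    have : 2 * n * |ζ| * |y + q| ≤ 2 * n * |ζ| * (Y + Q₀) :=
      mul_le_mul_of_nonneg_left hyq (by positivity)
    rw [hG]; linarith
  have h2 := abs_add_le (2 * n * ζ * (y + q)) e3
  have h3 : (G - 1) * |ζ| ≤ (G - 1) * (2 * W + Ce * r) :=
    mul_le_mul_of_nonneg_left hζ (by linarith)
  have h4 : |2 * n * ζ * (y + q) + e3| ≤ 2 * (G - 1) * W + G * (Ce * r) := by linarith only [h3, h2, h1, he3]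
  have h5 : G * (Ce * r) ≤ 2 * G * Ce * α := by
    have : 0 ≤ G * Ce := by positivity
    nlinarith only [hrα, this]
  have h6 : N * W ≤ 2 * N * ρ * W := by
    have : 0 ≤ N * W := by
      have : 0 ≤ N := by linarith only [hG1, hN]
      positivity
    linarith only [mul_nonneg (sub_nonneg.2 hρ) (sub_nonneg.2 this)]
  have h7 : 2 * G * W ≤ N * W := mul_le_mul_of_nonneg_right hN hW.le
  have h8 : 2 * G * Ce * α < W := by
    have : 0 < 2 * G * Ce * α := by positivity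
    linarith
  linarith only [he3, hBW, hB, hB0, h1, h2, h3, h5, h6, h7]

variable {M} {Ce Y Q₀ z₂ t : ℝ}

/-- barrier for `Y1` on an inner interval where `|1-ρ| ≤ ζ₀` -/
lemma Slice.Y1_barrier (S : M.Slice Ce Y Q₀ z₂ t) {ζ₀ B₁ c : ℝ} {N : ℕ}
    (hc : c ∈ Icc (-1 : ℝ) z₂) (hζ₀ : 2 * (n + 1) * Y * ζ₀ ≤ 1) (hζ₀' : ζ₀ ≤ 1 / 4)
    (hζ : ∀ z ∈ Icc c z₂, |1 - ext M.F.ρ (z, t)| ≤ ζ₀)
    (hA2 : ext M.A (z₂, t) ≤ 2 * ext M.A (-1, t))
    (hN : 2 * (2 * n * (Y + Q₀) + 1) ≤ (N : ℝ))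
    (hB : 4 * (2 * n * (Y + Q₀) + 1) * Ce * ext M.r (-1, t) < B₁)
    (hend : |ext M.Y1 (z₂, t)| < B₁) :
    ∀ z ∈ Icc c z₂, |ext M.Y1 (z, t)| < B₁ * (2 * ext M.A (-1, t) * ext M.h (z, t)) ^ N := by
  intro z hz
  have hm1 : (-1 : ℝ) ∈ Icc (-1 : ℝ) z₂ := ⟨le_rfl, S.hz.1⟩
  have hz₂ : z₂ ∈ Icc (-1 : ℝ) z₂ := ⟨S.hz.1, le_rfl⟩
  obtain ⟨α2, hα2⟩ : ∃ α2, α2 = ext M.A (-1, t) := ⟨_, rfl⟩
  have hα0 : 0 < α2 := by rw [hα2]; exact M.Apos _ (S.dom hm1)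
  have hn' : (1 : ℝ) ≤ n := by exact_mod_cast S.hn
  have hαr := M.r_sq (S.dom hm1)
  have hαpos := M.r_pos (S.dom hm1)
  have hB₁ : 0 < B₁ := lt_of_le_of_lt (abs_nonneg _) hend
  rw [← hα2] at hA2 ⊢
  -- facts at points of the interval
  have facts : ∀ w ∈ Icc (-1 : ℝ) z₂, 1 ≤ 2 * α2 * ext M.h (w, t) ∧
      ext M.r (w, t) ≤ 2 * ext M.r (-1, t) := by
    intro w hw
    have hp := S.dom hw
    have h1 := S.mono hw hz₂ hw.2
    simp only at h1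
    have h2 := M.h_pos hp
    have h3 := M.Ah hp
    have h4 : ext M.A (w, t) ≤ 2 * α2 := h1.trans hA2
    constructor
    · rw [← h3]; exact mul_le_mul_of_nonneg_right h4 h2.le
    · rw [← M.r_sq hp] at h4
      rw [hα2, ← hαr] at h4
      refine abs_le_of_sq_le_sq' ?_ (by linarith only [hαpos]) |>.2
      linarith only [h4, sq_nonneg (ext M.r (-1, t))]
  have key : ∀ s : ℝ, |s| = 1 →
      0 < ext (cst B₁ * (cst (2 * α2) * M.h) ^ N + cst s * M.Y1) (z, t) := by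
    intro s hs
    have ef : ∀ p ∈ BB.dom T, ext (cst B₁ * (cst (2 * α2) * M.h) ^ N + cst s * M.Y1) p
        = B₁ * (2 * α2 * ext M.h p) ^ N + s * ext M.Y1 p := by
      intro p hp
      have c1 : ev hp (cst B₁) = B₁ := by rw [ev_eq, ext_cst _ hp]
      have c2 : ev hp (cst s) = s := by rw [ev_eq, ext_cst _ hp]
      have c3 : ev hp (cst (2 * α2)) = 2 * α2 := by rw [ev_eq, ext_cst _ hp]
      rw [← ev_eq hp]
      simp only [map_add, map_sub, map_mul, map_pow, map_one, c1, c2, c3, ev_eq]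
    refine M.touch_back _ (a := c) (b := z₂) hc.1 S.hz.2 S.ht ?_ ?_ z hz
    · rw [ef _ (S.dom hz₂)]
      have h1 := (facts z₂ hz₂).1
      have h2 : (1 : ℝ) ≤ (2 * α2 * ext M.h (z₂, t)) ^ N := one_le_pow₀ h1
      obtain ⟨g1, g2⟩ := abs_lt.1 hend
      rcases (abs_eq (by norm_num)).1 hs with h | h <;> rw [h] <;> nlinarith only [g1, hB₁, h2, g2]
    · intro w hw h0
      have hw' : w ∈ Icc (-1 : ℝ) z₂ := ⟨hc.1.trans hw.1, hw.2.le⟩
      have hp := S.dom hw'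
      rw [ef _ hp] at h0
      have h1 := M.h_pos hp
      have h3 := M.Ah hp
      obtain ⟨f1, f2⟩ := facts w hw'
      obtain ⟨W, hW⟩ : ∃ W, W = B₁ * (2 * α2 * ext M.h (w, t)) ^ N := ⟨_, rfl⟩
      rw [← hW] at h0
      have hBW : B₁ ≤ W := by
        rw [hW]
        have : (1 : ℝ) ≤ (2 * α2 * ext M.h (w, t)) ^ N := one_le_pow₀ f1
        linarith only [mul_nonneg (le_of_lt (sub_pos.2 hB₁)) (sub_nonneg.2 this)]
      have hYW : |ext M.Y1 (w, t)| = W := by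
        have hW0 : 0 < W := by linarith
        rcases (abs_eq (by norm_num)).1 hs with h | h
        · rw [h] at h0
          rw [show ext M.Y1 (w, t) = -W by linarith only [h0], abs_neg, abs_of_pos hW0]
        · rw [h] at h0
          rw [show ext M.Y1 (w, t) = W by linarith only [h0], abs_of_pos hW0]
      have hζw := hζ w ⟨hw.1, hw.2.le⟩
      obtain ⟨z1, z2⟩ := zeta_real hn' (M.y_nonneg hp) (S.y_le w hw') S.Y1 hζ₀ hζ₀'
        (S.e1 w hw') hζw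
      rw [← M.ext_Y1 hp, hYW] at z1
      have hρ2 : 1 / 2 ≤ ext M.F.ρ (w, t) := by
        have := (abs_le.1 hζw).2
        linarith only [this, hζ₀']
      have e : ext (M.D (cst B₁ * (cst (2 * α2) * M.h) ^ N + cst s * M.Y1)) (w, t)
          = B₁ * (N * (2 * α2 * ext M.h (w, t)) ^ (N - 1) * (2 * α2 * (-2 * ext M.F.ρ (w, t)
            * ext M.h (w, t) ^ 2))) + s * (ext M.F.q1 (w, t)
            + n * (2 * ext M.h (w, t) * (ext M.F.q (w, t)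
              - ext M.F.y (w, t) * ext M.F.ρ (w, t)))) := by
        have c1 : ev hp (cst B₁) = B₁ := by rw [ev_eq, ext_cst _ hp]
        have c2 : ev hp (cst s) = s := by rw [ev_eq, ext_cst _ hp]
        have c3 : ev hp (cst (2 * α2)) = 2 * α2 := by rw [ev_eq, ext_cst _ hp]
        have d1 : ev hp (M.D M.Y1) = _ := (ev_eq hp _).trans (M.ext_D_Y1 hp)
        have d2 : ev hp (M.D M.h) = _ := (ev_eq hp _).trans (M.ext_Dh hp)
        rw [← ev_eq hp]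
        simp only [map_add, map_sub, Derivation.leibniz, Derivation.leibniz_pow, smul_eq_mul,
          cst_D, map_mul, map_pow, map_one, map_zero, nsmul_eq_mul,
          map_natCast, map_ofNat, c1, c2, c3, d1, d2]
        simp only [ev_eq]
        ring
      rw [e]
      have hNpos : 0 < N := by
        have : (0 : ℝ) < N := by
          have : 0 ≤ 2 * (n : ℝ) * (Y + Q₀) := by
            have := S.Y1; have := S.Q1; positivity
          linarith only [hN, this]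
        exact_mod_cast this
      have e2 : B₁ * (N * (2 * α2 * ext M.h (w, t)) ^ (N - 1) * (2 * α2 * (-2 * ext M.F.ρ (w, t)
            * ext M.h (w, t) ^ 2))) = -(2 * N * ext M.F.ρ (w, t) * W) * ext M.h (w, t) := by
        rw [hW]
        obtain ⟨k, rfl⟩ : ∃ k, N = k + 1 := ⟨N - 1, by omega⟩
        simp only [Nat.add_sub_cancel]
        rw [pow_succ]; ring
      obtain ⟨e3, he3⟩ : ∃ e3, e3 = ext M.A (w, t) * ext M.F.q1 (w, t)
        - 2 * n * (ext M.F.y (w, t) - ext M.F.ρ (w, t) * ext M.F.q (w, t)) := ⟨_, rfl⟩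
      have e4 : s * (ext M.F.q1 (w, t) + n * (2 * ext M.h (w, t) * (ext M.F.q (w, t)
              - ext M.F.y (w, t) * ext M.F.ρ (w, t))))
          = s * (2 * n * (1 - ext M.F.ρ (w, t)) * (ext M.F.y (w, t) + ext M.F.q (w, t)) + e3)
            * ext M.h (w, t) := by
        rw [he3]; linear_combination (-(s * ext M.F.q1 (w, t))) * h3
      rw [e2, e4]
      have he3' : |e3| ≤ Ce * ext M.r (w, t) := by rw [he3]; exact S.e3 w hw'
      have k1 := Y1_real hn' S.Y1 S.Q1 S.Ce1 (M.y_nonneg hp) (S.y_le w hw') (S.q_le w hw')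
        (M.r_pos hp) f2 hρ2 he3' z1 hBW hN hB
      have k2 : s * (2 * n * (1 - ext M.F.ρ (w, t)) * (ext M.F.y (w, t) + ext M.F.q (w, t)) + e3)
          < 2 * N * ext M.F.ρ (w, t) * W := by
        refine lt_of_le_of_lt (le_abs_self _) ?_
        rw [abs_mul, hs, one_mul]; exact k1
      linarith only [mul_pos (sub_pos.2 h1) (sub_pos.2 k2)]
  have e : ∀ s : ℝ, ext (cst B₁ * (cst (2 * α2) * M.h) ^ N + cst s * M.Y1) (z, t)
        = B₁ * (2 * α2 * ext M.h (z, t)) ^ N + s * ext M.Y1 (z, t) := by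
    intro s
    have hp := S.dom (⟨hc.1.trans hz.1, hz.2⟩ : z ∈ Icc (-1 : ℝ) z₂)
    have c1 : ev hp (cst B₁) = B₁ := by rw [ev_eq, ext_cst _ hp]
    have c2 : ev hp (cst s) = s := by rw [ev_eq, ext_cst _ hp]
    have c3 : ev hp (cst (2 * α2)) = 2 * α2 := by rw [ev_eq, ext_cst _ hp]
    rw [← ev_eq hp]
    simp only [map_add, map_sub, map_mul, map_pow, map_one, c1, c2, c3, ev_eq]
  have k1 := key 1 (by norm_num)
  have k2 := key (-1) (by norm_num)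
  rw [e] at k1 k2
  rw [abs_lt]; constructor <;> linarith only [k1, k2]

end RData

end Vale.Agent.P244.BB
end
end

section

section

/-! Analysis on a time slice near a collapsing bolt: conclusion `|1-ρ| ≤ C r`. -/

open Set Topology Filter
open scoped ContDiff

set_option linter.unusedSimpArgs false

namespace Vale.Agent.P244.BB

namespace RData

variable {T : ℝ} {n : ℕ} {κ : ℝ} {M : RData n κ T} {Ce Y Q₀ z₂ t : ℝ}

/-- constants -/
noncomputable def cN (n : ℕ) (Y Q₀ : ℝ) : ℕ := ⌈2 * (2 * n * (Y + Q₀) + 1)⌉₊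
noncomputable def cb (n : ℕ) (Ce Y Q₀ B : ℝ) : ℝ :=
  4 * (2 * n * (Y + Q₀) + 1) * Ce + 12 * (n + 1) * Y * B + 2 * Ce + 1
noncomputable def cC (n : ℕ) (Ce Y Q₀ B : ℝ) : ℝ :=
  2 * 2 ^ (cN n Y Q₀) * cb n Ce Y Q₀ B + 2 * Ce
noncomputable def cζ (n : ℕ) (Y : ℝ) : ℝ := 1 / (2 * (n + 1) * Y)

lemma abs_one_sub_le {ρ : ℝ} (hρ : 0 < ρ) : |1 - ρ| ≤ |ρ ^ 2 - 1| := by
  have e : ρ ^ 2 - 1 = -((1 - ρ) * (1 + ρ)) := by ring
  rw [e, abs_neg, abs_mul, abs_of_pos (by linarith : 0 < 1 + ρ)]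
  linarith only [mul_nonneg (le_of_lt (sub_pos.2 hρ)) (sub_nonneg.2 (abs_nonneg (1 - ρ)))]

/-- the inner region -/
lemma Slice.inner (S : M.Slice Ce Y Q₀ z₂ t) {B : ℝ} (hB : 0 ≤ B)
    (hA2 : ext M.A (z₂, t) ≤ 2 * ext M.A (-1, t))
    (hend : |ext M.F.ρ (z₂, t) ^ 2 - 1| ≤ B * ext M.r (z₂, t))
    (hsm : cC n Ce Y Q₀ B * ext M.r (-1, t) < cζ n Y) :
    (∀ z ∈ Icc (-1 : ℝ) z₂, |1 - ext M.F.ρ (z, t)| ≤ cC n Ce Y Q₀ B * ext M.r (-1, t)) ∧
    |κ - (n + 1)| ≤ cC n Ce Y Q₀ B * ext M.r (-1, t) := by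
  have hn' : (1 : ℝ) ≤ n := by exact_mod_cast S.hn
  have hY := S.Y1
  have hQ := S.Q1
  have hCe := S.Ce1
  have hm1 : (-1 : ℝ) ∈ Icc (-1 : ℝ) z₂ := ⟨le_rfl, S.hz.1⟩
  have hz₂ : z₂ ∈ Icc (-1 : ℝ) z₂ := ⟨S.hz.1, le_rfl⟩
  obtain ⟨α, hα⟩ : ∃ α, α = ext M.r (-1, t) := ⟨_, rfl⟩
  have hα0 : 0 < α := by rw [hα]; exact M.r_pos (S.dom hm1)
  have hαr : α ^ 2 = ext M.A (-1, t) := by rw [hα]; exact M.r_sq (S.dom hm1)
  obtain ⟨N, hN⟩ : ∃ N, N = cN n Y Q₀ := ⟨_, rfl⟩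
  obtain ⟨b, hb⟩ : ∃ b, b = cb n Ce Y Q₀ B := ⟨_, rfl⟩
  have hb0 : 0 < b := by rw [hb, cb]; (clear * - hn' hY hQ hCe hB; positivity)
  have hC : cC n Ce Y Q₀ B = 2 * 2 ^ N * b + 2 * Ce := by rw [cC, hN, hb]
  have h2N : (1 : ℝ) ≤ 2 ^ N := one_le_pow₀ (by norm_num)
  rw [← hα] at hsm ⊢
  have hζ₀ : 2 * ((n : ℝ) + 1) * Y * cζ n Y ≤ 1 := by
    rw [cζ]; field_simp; norm_num
  have hζ₀' : cζ n Y ≤ 1 / 4 := by
    rw [cζ, div_le_div_iff₀ (by positivity) (by norm_num)]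
    linarith only [mul_nonneg (sub_nonneg.2 hn') (sub_nonneg.2 hY), hY, hn']
  have hN' : 2 * (2 * n * (Y + Q₀) + 1) ≤ (N : ℝ) := by rw [hN]; exact Nat.le_ceil _
  -- `r ≤ 2 α`
  have hr2 : ∀ w ∈ Icc (-1 : ℝ) z₂, ext M.r (w, t) ≤ 2 * α := by
    intro w hw
    have hp := S.dom hw
    have h1 := S.mono hw hz₂ hw.2
    simp only at h1
    have h4 := h1.trans hA2
    rw [← M.r_sq hp, ← hαr] at h4
    refine abs_le_of_sq_le_sq' ?_ (by linarith only [hα0]) |>.2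
    linarith only [h4, sq_nonneg α]
  have hαh : ∀ w ∈ Icc (-1 : ℝ) z₂, (2 * ext M.A (-1, t) * ext M.h (w, t)) ^ N ≤ 2 ^ N := by
    intro w hw
    have hp := S.dom hw
    have h1 := S.mono hm1 hw hw.1
    simp only at h1
    have h2 := M.h_pos hp
    have h3 := M.Ah hp
    have h5 := M.Apos _ (S.dom hm1)
    have : 2 * ext M.A (-1, t) * ext M.h (w, t) ≤ 2 := by linarith only [mul_nonneg (sub_nonneg.2 h1) (le_of_lt (sub_pos.2 h2)), h3]
    exact pow_le_pow_left₀ (by (clear * - h5 h2; positivity)) this N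
  -- value at the outer end
  have hζend : |1 - ext M.F.ρ (z₂, t)| ≤ 2 * B * α := by
    refine (abs_one_sub_le (S.ρpos _ hz₂)).trans (hend.trans ?_)
    have := hr2 _ hz₂
    linarith only [mul_nonneg (sub_nonneg.2 hB) (sub_nonneg.2 this)]
  have hbB : 2 * B ≤ b := by
    rw [hb, cb]
    have h1 : 0 ≤ 4 * (2 * n * (Y + Q₀) + 1) * Ce := by positivity
    have h2 : 2 * B ≤ 12 * (n + 1) * Y * B := by
      have : 2 ≤ 12 * ((n : ℝ) + 1) * Y := by nlinarith only [hY]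
      linarith only [mul_nonneg (sub_nonneg.2 hB) (sub_nonneg.2 this)]
    linarith only [hCe, h1, h2]
  have hbC : b ≤ cC n Ce Y Q₀ B := by
    rw [hC]; linarith only [mul_nonneg (le_of_lt (sub_pos.2 hb0)) (sub_nonneg.2 h2N), hb0, hCe]
  have hζend' : |1 - ext M.F.ρ (z₂, t)| < cζ n Y := by
    refine lt_of_le_of_lt hζend (lt_of_le_of_lt ?_ hsm)
    have : 2 * B ≤ cC n Ce Y Q₀ B := hbB.trans hbC
    nlinarith only [hα0, hbB, hbC]
  have hY1end : |ext M.Y1 (z₂, t)| < b * α := by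
    rw [M.ext_Y1 (S.dom hz₂)]
    have h1 := (zeta_real hn' (M.y_nonneg (S.dom hz₂)) (S.y_le _ hz₂) hY hζ₀ hζ₀'
      (S.e1 _ hz₂) hζend'.le).2
    refine lt_of_le_of_lt h1 ?_
    have h2 : 6 * (n + 1) * Y * |1 - ext M.F.ρ (z₂, t)| ≤ 6 * (n + 1) * Y * (2 * B * α) :=
      mul_le_mul_of_nonneg_left hζend (by positivity)
    have h3 : Ce * ext M.r (z₂, t) ≤ Ce * (2 * α) :=
      mul_le_mul_of_nonneg_left (hr2 _ hz₂) (by linarith only [hCe])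
    have h4 : b * α = 4 * (2 * n * (Y + Q₀) + 1) * Ce * α + 6 * (n + 1) * Y * (2 * B * α)
        + Ce * (2 * α) + α := by rw [hb, cb]; ring
    have h5 : 0 ≤ 4 * (2 * n * (Y + Q₀) + 1) * Ce * α := by positivity
    linarith only [hα0, h2, h3, h4, h5]
  have hBar : ∀ c ∈ Icc (-1 : ℝ) z₂, (∀ z ∈ Icc c z₂, |1 - ext M.F.ρ (z, t)| ≤ cζ n Y) →
      ∀ z ∈ Icc c z₂, |ext M.Y1 (z, t)| ≤ b * α * 2 ^ N ∧
        |1 - ext M.F.ρ (z, t)| ≤ cC n Ce Y Q₀ B * α := by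
    intro c hc hζ z hz
    have hz' : z ∈ Icc (-1 : ℝ) z₂ := ⟨hc.1.trans hz.1, hz.2⟩
    have h1 := S.Y1_barrier (N := N) (B₁ := b * α) hc hζ₀ hζ₀' hζ hA2 hN' (by
      rw [← hα, hb, cb]
      have h2 : 0 ≤ 12 * (n + 1) * Y * B := by positivity
      have h3 : 4 * (2 * n * (Y + Q₀) + 1) * Ce < 4 * (2 * n * (Y + Q₀) + 1) * Ce
        + 12 * (n + 1) * Y * B + 2 * Ce + 1 := by linarith only [hCe, h2]
      exact mul_lt_mul_of_pos_right h3 hα0) hY1end z hz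
    have h4 : |ext M.Y1 (z, t)| ≤ b * α * 2 ^ N := by
      refine h1.le.trans ?_
      exact mul_le_mul_of_nonneg_left (hαh z hz') (by positivity)
    refine ⟨h4, ?_⟩
    have h5 := (zeta_real hn' (M.y_nonneg (S.dom hz')) (S.y_le _ hz') hY hζ₀ hζ₀'
      (S.e1 _ hz') (hζ z hz)).1
    rw [← M.ext_Y1 (S.dom hz')] at h5
    have h6 : Ce * ext M.r (z, t) ≤ Ce * (2 * α) :=
      mul_le_mul_of_nonneg_left (hr2 _ hz') (by linarith)
    rw [hC]
    linarith only [h4, h5, h6]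
  -- continuity argument
  have hall : ∀ z ∈ Icc (-1 : ℝ) z₂, |1 - ext M.F.ρ (z, t)| ≤ cζ n Y := by
    intro z hz
    by_contra hcon
    push Not at hcon
    have hcont : ContinuousOn (fun z => |1 - ext M.F.ρ (z, t)| - cζ n Y) (Icc z z₂) :=
      (((continuousOn_const.sub (cont_z M.F.ρ S.ht)).abs).sub continuousOn_const).mono
        (Icc_subset_Icc hz.1 S.hz.2)
    obtain ⟨c, hc, hc0, hc1⟩ := exists_last_zero hz.2 hcont (by linarith only [hcon]) (by linarith only [hζend'])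
    have h1 := (hBar c ⟨hz.1.trans hc.1, hc.2.le⟩ (fun w hw => by
      rcases hw.1.eq_or_lt with h | h
      · rw [← h]; linarith only [hc0]
      · linarith only [hc1 w ⟨h, hw.2⟩]) c ⟨le_rfl, hc.2.le⟩).2
    linarith
  refine ⟨fun z hz => (hBar (-1) hm1 hall z hz).2, ?_⟩
  have h1 := (hBar (-1) hm1 hall (-1) hm1).1
  rw [M.ext_Y1 (S.dom hm1), M.q_left S.ht, M.ext_y (S.dom hm1), M.βl t S.ht, zero_mul,
    mul_zero, add_zero] at h1
  refine h1.trans ?_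
  rw [hC]
  linarith only [mul_nonneg (le_of_lt (sub_pos.2 hα0)) (sub_nonneg.2 hCe), mul_pos (mul_pos hb0 hα0) (by positivity : (0 : ℝ) < 2 ^ N), hα0]

/-- main estimate on a time slice -/
theorem Slice.main {z₁ : ℝ} (S : M.Slice Ce Y Q₀ z₁ t) {B : ℝ} (hB : 64 * Ce < B)
    (hend : |ext M.F.ρ (z₁, t) ^ 2 - 1| < B * ext M.r (z₁, t))
    (hA : 2 * ext M.A (-1, t) ≤ ext M.A (z₁, t))
    (hsm : cC n Ce Y Q₀ B * ext M.r (-1, t) < cζ n Y) :
    (∀ z ∈ Icc (-1 : ℝ) z₁, |1 - ext M.F.ρ (z, t)| ≤ cC n Ce Y Q₀ B * ext M.r (z, t)) ∧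
    |κ - (n + 1)| ≤ cC n Ce Y Q₀ B * ext M.r (-1, t) := by
  have hn' : (1 : ℝ) ≤ n := by exact_mod_cast S.hn
  have hY := S.Y1
  have hQ := S.Q1
  have hCe := S.Ce1
  have hm1 : (-1 : ℝ) ∈ Icc (-1 : ℝ) z₁ := ⟨le_rfl, S.hz.1⟩
  have hα0 : 0 < ext M.A (-1, t) := M.Apos _ (S.dom hm1)
  obtain ⟨z₂, hz₂, hz₂A⟩ := intermediate_value_Icc S.hz.1
    ((cont_z M.A S.ht).mono (Icc_subset_Icc le_rfl S.hz.2))
    (⟨by linarith, hA⟩ : 2 * ext M.A (-1, t) ∈ Icc _ _)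
  simp only at hz₂A
  have hB0 : 0 ≤ B := by linarith
  have hcb := S.c_bound hB hend
  obtain ⟨i1, i2⟩ := (S.sub hz₂).inner hB0 hz₂A.le (hcb z₂ hz₂ hz₂A.ge).le hsm
  refine ⟨?_, i2⟩
  have hBC : B ≤ cC n Ce Y Q₀ B := by
    have h2N : (1 : ℝ) ≤ 2 ^ (cN n Y Q₀) := one_le_pow₀ (by norm_num)
    have h1 : B ≤ cb n Ce Y Q₀ B := by
      rw [cb]
      have h1 : 0 ≤ 4 * (2 * n * (Y + Q₀) + 1) * Ce := by positivity
      have h2 : B ≤ 12 * (n + 1) * Y * B := by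
        have : 1 ≤ 12 * ((n : ℝ) + 1) * Y := by nlinarith only [hY]
        nlinarith only [hB, this, hCe]
      linarith
    have h0 : 0 ≤ cb n Ce Y Q₀ B := hB0.trans h1
    rw [cC]; linarith [mul_nonneg (sub_nonneg.2 h2N) (sub_nonneg.2 h1), mul_nonneg (sub_nonneg.2 hCe) (sub_nonneg.2 h2N), mul_nonneg (le_of_lt (sub_pos.2 hB)) (sub_nonneg.2 h2N), h1, h2N, hCe, hB]
  intro z hz
  have hp := S.dom hz
  rcases le_or_gt (2 * ext M.A (-1, t)) (ext M.A (z, t)) with h | h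
  · refine (abs_one_sub_le (S.ρpos z hz)).trans ((hcb z hz h).le.trans ?_)
    exact mul_le_mul_of_nonneg_right hBC (M.r_pos hp).le
  · have hzz : z ≤ z₂ := by
      by_contra hcon
      push Not at hcon
      have := S.mono hz₂ hz hcon.le
      simp only at this
      linarith
    refine (i1 z ⟨hz.1, hzz⟩).trans ?_
    have h1 := S.mono hm1 hz hz.1
    simp only at h1
    have h2 : ext M.r (-1, t) ≤ ext M.r (z, t) := by
      rw [M.ext_r (S.dom hm1), M.ext_r hp]; exact Real.sqrt_le_sqrt h1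
    exact mul_le_mul_of_nonneg_left h2 (hB0.trans hBC)

end RData

end Vale.Agent.P244.BB
end
end

section

section

/-! First touch on a moving region. -/

open Set Topology Filter
open scoped ContDiff

set_option linter.unusedSimpArgs false

namespace Vale.Agent.P244.BB

namespace RData

variable {T : ℝ} {n : ℕ} {κ : ℝ} {M : RData n κ T} {Ce Y Q₀ P₀ : ℝ}

lemma region_touch (u : smoothAlg T) {t₂ zm D : ℝ} (hzm : zm ∈ Ioo (-1 : ℝ) 1)
    (ht₂ : t₂ ∈ Ico 0 T) (hm : ∀ t ∈ Ico t₂ T, D < ext M.A (zm, t))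
    (h0 : ∀ z ∈ Icc (-1 : ℝ) zm, ext M.A (z, t₂) ≤ D → ext u (z, t₂) < 0)
    (hbd : ∀ t ∈ Ico t₂ T, ∀ z ∈ Icc (-1 : ℝ) zm, ext M.A (z, t) = D → ext u (z, t) < 0)
    (key : ∀ t ∈ Ioo t₂ T, ∀ z ∈ Ico (-1 : ℝ) zm, ext M.A (z, t) < D → ext u (z, t) = 0 →
      0 ≤ ext (dt u) (z, t) → (∀ᶠ w in 𝓝[Icc (-1) 1] z, ext u (w, t) ≤ ext u (z, t)) → False) :
    ∀ t ∈ Ico t₂ T, ∀ z ∈ Icc (-1 : ℝ) zm, ext M.A (z, t) ≤ D → ext u (z, t) < 0 := by
  intro t₁ ht₁ z₁ hz₁ hA₁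
  by_contra hcon
  push Not at hcon
  have hsubz : ∀ z ∈ Icc (-1 : ℝ) zm, z ∈ Icc (-1 : ℝ) 1 := fun z hz => ⟨hz.1, hz.2.trans hzm.2.le⟩
  set K : Set (ℝ × ℝ) := Icc (-1) zm ×ˢ Icc t₂ t₁ with hK
  have hKd : K ⊆ dom T := fun p hp =>
    ⟨hsubz _ hp.1, ⟨ht₂.1.trans hp.2.1, lt_of_le_of_lt hp.2.2 ht₁.2⟩⟩
  have hKc : IsCompact K := isCompact_Icc.prod isCompact_Icc
  set w : ℝ × ℝ → ℝ × ℝ := fun p => (ext M.A p, ext u p) with hw
  have hwc : ContinuousOn w K :=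
    ((ext_continuousOn M.A).prodMk (ext_continuousOn u)).mono hKd
  set B : Set (ℝ × ℝ) := K ∩ w ⁻¹' (Iic D ×ˢ Ici 0) with hB
  have hBc : IsCompact B := by
    have : IsClosed B :=
      hwc.preimage_isClosed_of_isClosed hKc.isClosed (isClosed_Iic.prod isClosed_Ici)
    exact hKc.of_isClosed_subset this inter_subset_left
  have hBn : B.Nonempty := ⟨(z₁, t₁), ⟨⟨hz₁, ⟨ht₁.1, le_rfl⟩⟩, ⟨hA₁, hcon⟩⟩⟩
  obtain ⟨⟨z₀, t₀⟩, hp₀, hmin⟩ := hBc.exists_isMinOn hBn continuous_snd.continuousOn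
  have hz₀ : z₀ ∈ Icc (-1 : ℝ) zm := hp₀.1.1
  have ht₀' : t₀ ∈ Icc t₂ t₁ := hp₀.1.2
  have hA₀ : ext M.A (z₀, t₀) ≤ D := hp₀.2.1
  have hu₀ : 0 ≤ ext u (z₀, t₀) := hp₀.2.2
  have ht₀T : t₀ < T := lt_of_le_of_lt ht₀'.2 ht₁.2
  have hlt : ∀ z ∈ Icc (-1 : ℝ) zm, ∀ s ∈ Ico t₂ t₀, ext M.A (z, s) ≤ D → ext u (z, s) < 0 := by
    intro z hz s hs hA
    by_contra hcon
    push Not at hcon
    have hin : (z, s) ∈ B := ⟨⟨hz, ⟨hs.1, hs.2.le.trans ht₀'.2⟩⟩, ⟨hA, hcon⟩⟩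
    have := hmin hin
    simp at this
    exact absurd hs.2 (not_lt.2 this)
  have ht₀ : t₂ < t₀ := by
    rcases ht₀'.1.eq_or_lt with h | h
    · exfalso
      rw [← h] at hA₀ hu₀
      have := h0 z₀ hz₀ hA₀
      linarith
    · exact h
  have hIoo : t₀ ∈ Ioo t₂ T := ⟨ht₀, ht₀T⟩
  have hIco : t₀ ∈ Ico 0 T := ⟨ht₂.1.trans ht₀.le, ht₀T⟩
  have ht0pos : 0 < t₀ := lt_of_le_of_lt ht₂.1 ht₀
  have hA₀' : ext M.A (z₀, t₀) < D := by
    refine lt_of_le_of_ne hA₀ ?_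
    intro h
    have := hbd t₀ ⟨ht₀.le, ht₀T⟩ z₀ hz₀ h
    linarith
  have hz₀lt : z₀ < zm := by
    refine lt_of_le_of_ne hz₀.2 ?_
    rintro rfl
    have := hm t₀ ⟨ht₀.le, ht₀T⟩
    linarith
  -- earlier times
  have hearly : ∀ z ∈ Icc (-1 : ℝ) zm, ext M.A (z, t₀) < D →
      ∀ᶠ s in 𝓝[<] t₀, ext u (z, s) < 0 := by
    intro z hz hA
    have hc : ContinuousWithinAt (fun s => ext M.A (z, s)) (Ico 0 T) t₀ :=
      (hasDerivWithinAt_t M.A (hsubz z hz) hIco).continuousWithinAt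
    have hev := (hc.continuousAt (Ico_mem_nhds ht0pos ht₀T)).eventually (gt_mem_nhds hA)
    have hev' : ∀ᶠ s in 𝓝[<] t₀, ext M.A (z, s) < D := hev.filter_mono nhdsWithin_le_nhds
    have : Ioo t₂ t₀ ∈ 𝓝[<] t₀ := Ioo_mem_nhdsLT ht₀
    filter_upwards [hev', this] with s hs hs2
    exact hlt z hz s ⟨hs2.1.le, hs2.2⟩ hs.le
  have hle : ∀ z ∈ Icc (-1 : ℝ) zm, ext M.A (z, t₀) ≤ D → ext u (z, t₀) ≤ 0 := by
    intro z hz hA
    rcases hA.eq_or_lt with h | h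
    · exact (hbd t₀ ⟨ht₀.le, ht₀T⟩ z hz h).le
    · have hc : ContinuousWithinAt (fun s => ext u (z, s)) (Ico 0 T) t₀ :=
        (hasDerivWithinAt_t u (hsubz z hz) hIco).continuousWithinAt
      have hc' := (hc.continuousAt (Ico_mem_nhds ht0pos ht₀T)).tendsto.mono_left
        (nhdsWithin_le_nhds (s := Iio t₀))
      refine le_of_tendsto hc' ?_
      filter_upwards [hearly z hz h] with s hs
      exact hs.le
  have hu0 : ext u (z₀, t₀) = 0 := le_antisymm (hle z₀ hz₀ hA₀) hu₀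
  refine key t₀ hIoo z₀ ⟨hz₀.1, hz₀lt⟩ hA₀' hu0 ?_ ?_
  · refine time_ineq u (hsubz z₀ hz₀) ⟨ht0pos, ht₀T⟩ (hasDerivAt_const t₀ (0 : ℝ)) hu0 ?_
    filter_upwards [hearly z₀ hz₀ hA₀'] with s hs
    exact hs.le
  · have hc1 : ContinuousWithinAt (fun w => ext M.A (w, t₀)) (Icc (-1) 1) z₀ :=
      cont_z M.A hIco z₀ (hsubz z₀ hz₀)
    have hev1 := hc1.eventually (gt_mem_nhds hA₀')
    have hev2 : ∀ᶠ w in 𝓝[Icc (-1) 1] z₀, w < zm :=
      (gt_mem_nhds hz₀lt : ∀ᶠ w in 𝓝 z₀, w < zm).filter_mono nhdsWithin_le_nhds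
    filter_upwards [hev1, hev2, self_mem_nhdsWithin] with w h1 h2 h3
    rw [hu0]
    exact hle w ⟨h3.1, h2.le⟩ h1.le

/-- `y < 3/2` near the bolt, given `|1-ρ| ≤ C r` small -/
lemma Slice.y_lt {z₁ t CL : ℝ} (S : M.Slice Ce Y Q₀ z₁ t)
    (hL : ∀ z ∈ Icc (-1 : ℝ) z₁, |1 - ext M.F.ρ (z, t)| ≤ CL * ext M.r (z, t))
    (hsm : ∀ z ∈ Icc (-1 : ℝ) z₁, 32 * CL * ext M.r (z, t) ≤ 1) :
    ∀ z ∈ Icc (-1 : ℝ) z₁, ext M.F.y (z, t) < 3 / 2 := by
  have hn' : (1 : ℝ) ≤ n := by exact_mod_cast S.hn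
  have hm1 : (-1 : ℝ) ∈ Icc (-1 : ℝ) z₁ := ⟨le_rfl, S.hz.1⟩
  have ef : ∀ p ∈ BB.dom T, ext (cst (3 / 2) - M.F.y) p = 3 / 2 - ext M.F.y p := by
    intro p hp; rw [ext_sub, ext_cst _ hp]
  have h := M.touch_forw (cst (3 / 2) - M.F.y) (a := -1) (b := z₁) (t := t) le_rfl S.hz.2 S.ht ?_ ?_
  · intro z hz
    have := h z hz
    rw [ef _ (S.dom hz)] at this
    linarith
  · rw [ef _ (S.dom hm1), M.ext_y (S.dom hm1), M.βl t S.ht]; norm_num
  · intro w hw h0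
    have hw' : w ∈ Icc (-1 : ℝ) z₁ := ⟨hw.1.le, hw.2⟩
    have hp := S.dom hw'
    rw [ef _ hp] at h0
    have hy : ext M.F.y (w, t) = 3 / 2 := by linarith only [h0]
    have e : ext (M.D (cst (3 / 2) - M.F.y)) (w, t) = -(2 * ext M.h (w, t) * (ext M.F.q (w, t)
        - ext M.F.y (w, t) * ext M.F.ρ (w, t))) := by
      rw [map_sub, cst_D, zero_sub, ext_neg, M.ext_Dy hp]
    rw [e, hy]
    have h1 := S.e1 w hw'
    rw [hy] at h1
    have h2 := (abs_le.1 h1).2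
    have h3 := S.small w hw'
    have h4 := hL w hw'
    have h5 := hsm w hw'
    have h6 := S.ρpos w hw'
    have hh := M.h_pos hp
    have h7 := abs_le.1 h4
    have h8 : 15 / 16 ≤ ext M.F.ρ (w, t) ^ 2 := by nlinarith only [h5, h7]
    have h9 : 2 * ext M.F.ρ (w, t) * (ext M.F.q (w, t) - 3 / 2 * ext M.F.ρ (w, t)) < 0 := by
      nlinarith only [h2, h3, h8]
    have h10 : ext M.F.q (w, t) - 3 / 2 * ext M.F.ρ (w, t) < 0 := by
      by_contra hcon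
      push Not at hcon
      have : 0 ≤ 2 * ext M.F.ρ (w, t) * (ext M.F.q (w, t) - 3 / 2 * ext M.F.ρ (w, t)) := by
        (clear * - h6 hcon; positivity)
      linarith only [h9, this]
    nlinarith only [h6, hh, h9]

end RData

end Vale.Agent.P244.BB
end
end

section

section

/-! The collapsing bolt: fixed scales and the estimate `|1-ρ| ≤ C r` near it. -/

open Set Topology Filter
open scoped ContDiff

set_option linter.unusedSimpArgs false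

namespace Vale.Agent.P244.BB

namespace RData

variable {T : ℝ} {n : ℕ} {κ : ℝ} {M : RData n κ T} {Ce Y Q₀ P₀ : ℝ}

/-- building a slice from the global bounds -/
lemma Glob.slice (G : M.Glob Ce Y Q₀ P₀) {z₁ t : ℝ} (hz₁ : z₁ ∈ Icc (-1 : ℝ) 1)
    (ht : t ∈ Ico 0 T) (hρ : ∀ z ∈ Icc (-1 : ℝ) z₁, 0 < ext M.F.ρ (z, t))
    (hr : ∀ z ∈ Icc (-1 : ℝ) z₁, 32 * Ce * ext M.r (z, t) ≤ 1) : M.Slice Ce Y Q₀ z₁ t := by
  have hd : ∀ z ∈ Icc (-1 : ℝ) z₁, (z, t) ∈ dom T :=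
    fun z hz => mem_dom ⟨hz.1, hz.2.trans hz₁.2⟩ ht
  exact ⟨G.hn, G.Ce1, G.Y1, G.Q1, hz₁, ht, hρ, fun z hz => G.e1 _ (hd z hz),
    fun z hz => G.e2 _ (hd z hz), fun z hz => G.e3 _ (hd z hz), hr,
    fun z hz => G.y_le _ (hd z hz), fun z hz => G.q_le _ (hd z hz)⟩

/-- description of the collapsing left end after time `t₂` at scales below `r₁` -/
structure Near (M : RData n κ T) (Ce Y Q₀ P₀ zm t₂ r₁ CL : ℝ) : Prop where
  G : M.Glob Ce Y Q₀ P₀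
  hzm : zm ∈ Ioo (-1 : ℝ) 1
  ht₂ : t₂ ∈ Ico 0 T
  hr₁ : 0 < r₁
  CL0 : 0 ≤ CL
  hCe : 32 * Ce * r₁ ≤ 1
  hm : ∀ t ∈ Ico t₂ T, r₁ < ext M.r (zm, t)
  hκ : κ = n + 1
  ρpos : ∀ t ∈ Ico t₂ T, ∀ z ∈ Icc (-1 : ℝ) zm, ext M.r (z, t) ≤ r₁ → 0 < ext M.F.ρ (z, t)
  ρle : ∀ t ∈ Ico t₂ T, ∀ z ∈ Icc (-1 : ℝ) zm, ext M.r (z, t) ≤ r₁ →
    |1 - ext M.F.ρ (z, t)| ≤ CL * ext M.r (z, t)
  down : ∀ t ∈ Ico t₂ T, ∀ z ∈ Icc (-1 : ℝ) zm, ext M.r (z, t) ≤ r₁ →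
    ∀ w ∈ Icc (-1 : ℝ) z, ext M.r (w, t) ≤ ext M.r (z, t)

lemma r_le_iff {p q : ℝ × ℝ} (hp : p ∈ dom T) (hq : q ∈ dom T) :
    ext M.r p ≤ ext M.r q ↔ ext M.A p ≤ ext M.A q := by
  rw [M.ext_r hp, M.ext_r hq]
  exact Real.sqrt_le_sqrt_iff (M.Apos q hq).le

/-- the estimate at one time -/
lemma Glob.slice_at (G : M.Glob Ce Y Q₀ P₀) {zm t am r₁ B CL cy : ℝ} (hzm : zm ∈ Ioo (-1 : ℝ) 1)
    (htI : t ∈ Ico 0 T) (hr₁0 : 0 < r₁) (hr₁a : r₁ < am) (hr₁c : 64 * Ce * r₁ ≤ 1)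
    (ham : am ≤ ext M.r (zm, t)) (hrl' : ext M.r (-1, t) ≤ r₁ / 4) (hBCe : 64 * Ce < B)
    (hcy : 0 < cy) (hBr : P₀ / cy + 1 < B * r₁)
    (hycy : ∀ z ∈ Icc (-1 : ℝ) zm, r₁ ≤ ext M.r (z, t) → cy ≤ ext M.F.y (z, t))
    (hCL : CL = cC n Ce Y Q₀ B) (hsm : CL * ext M.r (-1, t) < cζ n Y) :
    ∃ z₁ ∈ Icc (-1 : ℝ) zm,
      M.Slice Ce Y Q₀ z₁ t ∧ (∀ z ∈ Icc (-1 : ℝ) zm, ext M.r (z, t) ≤ r₁ → z ≤ z₁) ∧
      (∀ z ∈ Icc (-1 : ℝ) z₁, |1 - ext M.F.ρ (z, t)| ≤ CL * ext M.r (z, t)) ∧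
      |κ - (n + 1)| ≤ CL * ext M.r (-1, t) := by
  have hzmI : zm ∈ Icc (-1 : ℝ) 1 := Ioo_subset_Icc_self hzm
  have hpm : (zm, t) ∈ dom T := mem_dom hzmI htI
  have hpl : ((-1 : ℝ), t) ∈ dom T := mem_dom (by norm_num) htI
  have hAl : ext M.A (-1, t) ≤ r₁ ^ 2 / 16 := by
    rw [← M.r_sq hpl]
    have := M.r_pos hpl
    nlinarith only [hrl', this]
  have hAm' : am ^ 2 ≤ ext M.A (zm, t) := by
    rw [← M.r_sq hpm]
    exact pow_le_pow_left₀ (by linarith only [hr₁a, hr₁0]) ham 2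
  have ham2 : r₁ ^ 2 < am ^ 2 := pow_lt_pow_left₀ hr₁a hr₁0.le (by norm_num)
  have hr₁2 : 0 < r₁ ^ 2 := by positivity
  obtain ⟨z₁, hz₁, hz₁0, hz₁1⟩ := exists_last_zero (f := fun z => r₁ ^ 2 - ext M.A (z, t))
    hzm.1.le (continuousOn_const.sub ((cont_z M.A htI).mono (Icc_subset_Icc le_rfl hzm.2.le)))
    (by linarith only [hr₁2, hAl]) (by linarith)
  have hz₁m : z₁ ∈ Icc (-1 : ℝ) zm := ⟨hz₁.1, hz₁.2.le⟩
  have hz₁I : z₁ ∈ Icc (-1 : ℝ) 1 := ⟨hz₁.1, hz₁.2.le.trans hzm.2.le⟩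
  have hp₁ : (z₁, t) ∈ dom T := mem_dom hz₁I htI
  have hA₁ : ext M.A (z₁, t) = r₁ ^ 2 := by linarith only [hz₁0]
  have hrz₁ : ext M.r (z₁, t) = r₁ := by
    rw [M.ext_r hp₁, hA₁]; exact Real.sqrt_sq hr₁0.le
  have hCer : 0 < Ce * r₁ := by have := G.Ce1; positivity
  have hρ₁ := G.left_region (z := z₁) (D := am ^ 2) hzmI htI hz₁m
    (by rw [hrz₁]; linarith only [hCer, hr₁c]) (by rw [hA₁]; exact ham2) hAm'
  obtain ⟨hρp, hAmono⟩ := M.rho_pos_left (δ := r₁ ^ 2) hz₁I htI (fun z hz hA h0 h0' => by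
    refine G.no_min (mem_dom hz htI) ?_ h0 h0'
    have : ext M.r (z, t) ≤ r₁ := by
      rw [← hrz₁, r_le_iff (mem_dom hz htI) hp₁, hA₁]; exact hA
    have h2 : Ce * ext M.r (z, t) ≤ Ce * r₁ :=
      mul_le_mul_of_nonneg_left this (by linarith only [G.Ce1])
    linarith only [hr₁c, h2]) hρ₁ hA₁.le
  have hS : M.Slice Ce Y Q₀ z₁ t := G.slice hz₁I htI hρp (fun z hz => by
    have hpz : (z, t) ∈ dom T := mem_dom ⟨hz.1, hz.2.trans hz₁I.2⟩ htI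
    have h1 := hAmono hz ⟨hz₁.1, le_rfl⟩ hz.2
    simp only at h1
    have : ext M.r (z, t) ≤ r₁ := by
      rw [← hrz₁, r_le_iff hpz hp₁]; exact h1
    have h2 : Ce * ext M.r (z, t) ≤ Ce * r₁ :=
      mul_le_mul_of_nonneg_left this (by linarith [G.Ce1])
    linarith only [hr₁c, h2])
  -- value at the outer end
  have hend : |ext M.F.ρ (z₁, t) ^ 2 - 1| < B * ext M.r (z₁, t) := by
    rw [hrz₁]
    have h1 := hycy z₁ hz₁m hrz₁.ge
    have h2 := G.P_le _ hp₁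
    have h3 : ext M.F.ρ (z₁, t) ^ 2 ≤ P₀ / cy := by
      rw [le_div_iff₀ hcy]
      have : cy * ext M.F.ρ (z₁, t) ^ 2 ≤ ext M.F.y (z₁, t) * ext M.F.ρ (z₁, t) ^ 2 :=
        mul_le_mul_of_nonneg_right h1 (sq_nonneg _)
      linarith only [this, h2]
    have h4 : 0 ≤ ext M.F.ρ (z₁, t) ^ 2 := sq_nonneg _
    refine lt_of_le_of_lt ?_ hBr
    rw [abs_le]; constructor <;> linarith only [h3, h4, hr₁c, hCer]
  obtain ⟨m1, m2⟩ := hS.main hBCe hend (by rw [hA₁]; linarith) (by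
    rw [← hCL]; exact hsm)
  rw [← hCL] at m1 m2
  refine ⟨z₁, hz₁m, hS, fun z hz hr => ?_, m1, m2⟩
  by_contra hcon
  push Not at hcon
  have h1 := hz₁1 z ⟨hcon, hz.2⟩
  have hpz : (z, t) ∈ dom T := mem_dom ⟨hz.1, hz.2.trans hzmI.2⟩ htI
  have h2 : ext M.A (z, t) ≤ r₁ ^ 2 := by
    rw [← hrz₁] at hr
    rw [r_le_iff hpz hp₁, hA₁] at hr
    exact hr
  linarith only [h1, h2]

/-- choice of the scales -/
lemma Glob.scales (G : M.Glob Ce Y Q₀ P₀)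
    (hcol : ∀ t ∈ Ico 0 T, ext M.r (-1, t) ≤ Ce * (T - t)) :
    ∃ zm am r₁ x₁ B cy : ℝ, zm ∈ Ioo (-1 : ℝ) 1 ∧ 0 < r₁ ∧ r₁ < am ∧ 64 * Ce * r₁ ≤ 1 ∧
      0 < x₁ ∧ T - x₁ ∈ Ico 0 T ∧ Ce * x₁ ≤ r₁ / 4 ∧ 64 * Ce < B ∧ 0 < cy ∧
      P₀ / cy + 1 < B * r₁ ∧
      (∀ t ∈ Ico (T - x₁) T, am ≤ ext M.r (zm, t)) ∧
      (∀ z ∈ Icc (-1 : ℝ) zm, ∀ t ∈ Ico (T - x₁) T, r₁ ≤ ext M.r (z, t) →
        cy ≤ ext M.F.y (z, t)) := by
  have hT := G.hT
  have hCe := G.Ce1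
  have hP := G.P0
  -- a point that does not collapse
  obtain ⟨zm, hzm, tm, htm, hmm⟩ : ∃ zm ∈ Ioo (-1 : ℝ) 1, ∃ tm ∈ Ico 0 T,
      Ce * (T - tm) < ext M.r (zm, tm) := by
    by_contra hcon
    push Not at hcon
    exact G.not_total hcon
  have hzmI : zm ∈ Icc (-1 : ℝ) 1 := Ioo_subset_Icc_self hzm
  obtain ⟨am, ham⟩ : ∃ am, am = ext M.r (zm, tm) - Ce * (T - tm) := ⟨_, rfl⟩
  have ham0 : 0 < am := by linarith
  have hrm : ∀ t ∈ Ico tm T, am ≤ ext M.r (zm, t) := by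
    intro t ht
    have h1 := (abs_le.1 (G.lip hzmI htm.1 ht.1 ht.2)).1
    have h2 : Ce * (t - tm) ≤ Ce * (T - tm) :=
      mul_le_mul_of_nonneg_left (by linarith [ht.2]) (by linarith)
    linarith
  -- the outer scale
  obtain ⟨r₁, hr₁⟩ : ∃ r₁, r₁ = min (am / 2) (1 / (64 * Ce)) := ⟨_, rfl⟩
  have hr₁0 : 0 < r₁ := by rw [hr₁]; positivity
  have hr₁a : r₁ < am := by
    have : r₁ ≤ am / 2 := by rw [hr₁]; exact min_le_left _ _
    linarith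
  have hr₁c : 64 * Ce * r₁ ≤ 1 := by
    have : r₁ ≤ 1 / (64 * Ce) := by rw [hr₁]; exact min_le_right _ _
    rw [le_div_iff₀ (by positivity)] at this
    linarith
  -- first time
  obtain ⟨x₁, hx₁⟩ : ∃ x₁, x₁ = min (T - tm) (r₁ / (4 * Ce)) := ⟨_, rfl⟩
  have hx₁0 : 0 < x₁ := by
    have : 0 < T - tm := by linarith [htm.2]
    rw [hx₁]; positivity
  have hx₁a : x₁ ≤ T - tm := by rw [hx₁]; exact min_le_left _ _
  have hx₁b : Ce * x₁ ≤ r₁ / 4 := by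
    have : x₁ ≤ r₁ / (4 * Ce) := by rw [hx₁]; exact min_le_right _ _
    rw [le_div_iff₀ (by positivity)] at this
    linarith
  have ht₁ : T - x₁ ∈ Ico 0 T := ⟨by linarith [htm.1], by linarith⟩
  obtain ⟨cy, hcy, hycy⟩ := G.noncollapse (t₁ := T - x₁) hzm ht₁ hr₁0 (by
    rw [show T - (T - x₁) = x₁ by ring]; exact hx₁b) (by
    have := hcol _ ht₁
    rw [show T - (T - x₁) = x₁ by ring] at this
    linarith only [this, hx₁b, hr₁0])
  obtain ⟨B, hB⟩ : ∃ B, B = 64 * Ce + (P₀ / cy + 1) / r₁ + 1 := ⟨_, rfl⟩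
  have hBCe : 64 * Ce < B := by
    have : 0 ≤ (P₀ / cy + 1) / r₁ := by (clear * - hP hcy hr₁0; positivity)
    linarith only [hB, this]
  have hBr : P₀ / cy + 1 < B * r₁ := by
    have h1 : (P₀ / cy + 1) / r₁ * r₁ = P₀ / cy + 1 := by field_simp
    have h2 : 0 < (64 * Ce + 1) * r₁ := by positivity
    have h3 : B * r₁ = (P₀ / cy + 1) / r₁ * r₁ + (64 * Ce + 1) * r₁ := by rw [hB]; ring
    linarith only [h1, h2, h3]
  exact ⟨zm, am, r₁, x₁, B, cy, hzm, hr₁0, hr₁a, hr₁c, hx₁0, ht₁, hx₁b, hBCe, hcy, hBr,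
    fun t ht => hrm t ⟨by linarith only [ht.1, hx₁a], ht.2⟩, hycy⟩

/-- the collapsing left bolt -/
theorem Glob.near (G : M.Glob Ce Y Q₀ P₀)
    (hcol : ∀ t ∈ Ico 0 T, ext M.r (-1, t) ≤ Ce * (T - t)) :
    ∃ zm t₂ r₁ CL : ℝ, Near M Ce Y Q₀ P₀ zm t₂ r₁ CL := by
  have hT := G.hT
  have hCe := G.Ce1
  have hY := G.Y1
  have hQ := G.Q1
  have hn' : (1 : ℝ) ≤ n := by exact_mod_cast G.hn
  obtain ⟨zm, am, r₁, x₁, B, cy, hzm, hr₁0, hr₁a, hr₁c, hx₁0, ht₁, hx₁b, hBCe, hcy, hBr, hrm,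
    hycy⟩ := G.scales hcol
  have hB0 : 0 ≤ B := by linarith only [hBCe, hCe]
  obtain ⟨CL, hCL⟩ : ∃ CL, CL = cC n Ce Y Q₀ B := ⟨_, rfl⟩
  have hCL0 : 0 < CL := by
    rw [hCL, cC, cb]; (clear * - hn' hY hQ hCe hB0; positivity)
  have hζ0 : 0 < cζ n Y := by rw [cζ]; positivity
  -- second time
  obtain ⟨x₂, hx₂⟩ : ∃ x₂, x₂ = min x₁ (cζ n Y / (2 * CL * Ce)) := ⟨_, rfl⟩
  have hx₂0 : 0 < x₂ := by rw [hx₂]; positivity
  have hx₂a : x₂ ≤ x₁ := by rw [hx₂]; exact min_le_left _ _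
  have hx₂b : CL * (Ce * x₂) < cζ n Y := by
    have : x₂ ≤ cζ n Y / (2 * CL * Ce) := by rw [hx₂]; exact min_le_right _ _
    rw [le_div_iff₀ (by positivity)] at this
    have : 0 < CL * (Ce * x₂) := by positivity
    linarith
  have ht₂ : T - x₂ ∈ Ico 0 T := ⟨by linarith only [ht₁.1, hx₂a], by linarith⟩
  -- the slice estimate
  have hmain : ∀ t ∈ Ico (T - x₂) T, ∃ z₁ ∈ Icc (-1 : ℝ) zm,
      M.Slice Ce Y Q₀ z₁ t ∧ (∀ z ∈ Icc (-1 : ℝ) zm, ext M.r (z, t) ≤ r₁ → z ≤ z₁) ∧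
      (∀ z ∈ Icc (-1 : ℝ) z₁, |1 - ext M.F.ρ (z, t)| ≤ CL * ext M.r (z, t)) ∧
      |κ - (n + 1)| ≤ CL * ext M.r (-1, t) := by
    intro t ht
    have htI : t ∈ Ico 0 T := ⟨ht₂.1.trans ht.1, ht.2⟩
    have ht₁' : t ∈ Ico (T - x₁) T := ⟨by linarith only [ht.1, hx₂a], ht.2⟩
    have hrl : ext M.r (-1, t) ≤ Ce * x₂ := by
      refine (hcol t htI).trans ?_
      exact mul_le_mul_of_nonneg_left (by linarith [ht.1]) (by linarith)
    have hrl' : ext M.r (-1, t) ≤ r₁ / 4 := by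
      have : Ce * x₂ ≤ Ce * x₁ := mul_le_mul_of_nonneg_left hx₂a (by linarith only [hCe])
      linarith only [hx₁b, hrl, this]
    exact G.slice_at hzm htI hr₁0 hr₁a hr₁c (hrm t ht₁') hrl' hBCe hcy hBr
      (fun z hz hr => hycy z hz t ht₁' hr) hCL
      (lt_of_le_of_lt (mul_le_mul_of_nonneg_left hrl hCL0.le) hx₂b)
  refine ⟨zm, T - x₂, r₁, CL, G, hzm, ht₂, hr₁0, hCL0.le, by linarith only [hr₁c], ?_, ?_, ?_, ?_, ?_⟩
  · intro t ht
    exact lt_of_lt_of_le hr₁a (hrm t ⟨by linarith [ht.1], ht.2⟩)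
  · by_contra hne
    have hd : 0 < |κ - (n + 1)| := abs_pos.2 (sub_ne_zero.2 hne)
    obtain ⟨x, hx⟩ : ∃ x, x = min x₂ (|κ - (n + 1)| / (2 * CL * Ce)) := ⟨_, rfl⟩
    have hx0 : 0 < x := by rw [hx]; (clear * - hx₂0 hne hCL0 hCe; positivity)
    have hxa : x ≤ x₂ := by rw [hx]; exact min_le_left _ _
    have hxb : CL * (Ce * x) < |κ - (n + 1)| := by
      have : x ≤ |κ - (n + 1)| / (2 * CL * Ce) := by rw [hx]; exact min_le_right _ _
      rw [le_div_iff₀ (by positivity)] at this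
      have : 0 < CL * (Ce * x) := by positivity
      linarith
    obtain ⟨z₁, _, _, _, _, h5⟩ := hmain (T - x) ⟨by linarith, by linarith⟩
    have h6 := hcol (T - x) ⟨by linarith only [ht₂.1, hxa], by linarith only [hx0]⟩
    rw [show T - (T - x) = x by ring] at h6
    have : CL * ext M.r (-1, T - x) ≤ CL * (Ce * x) := mul_le_mul_of_nonneg_left h6 hCL0.le
    linarith only [this, h5, hxb]
  · intro t ht z hz hr
    obtain ⟨z₁, h1, h2, h3, h4, h5⟩ := hmain t ht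
    exact h2.ρpos z ⟨hz.1, h3 z hz hr⟩
  · intro t ht z hz hr
    obtain ⟨z₁, h1, h2, h3, h4, h5⟩ := hmain t ht
    exact h4 z ⟨hz.1, h3 z hz hr⟩
  · intro t ht z hz hr w hw
    obtain ⟨z₁, h1, h2, h3, h4, h5⟩ := hmain t ht
    have hz' : z ∈ Icc (-1 : ℝ) z₁ := ⟨hz.1, h3 z hz hr⟩
    have hw' : w ∈ Icc (-1 : ℝ) z₁ := ⟨hw.1, hw.2.trans hz'.2⟩
    rw [r_le_iff (h2.dom hw') (h2.dom hz')]
    exact h2.mono hw' hz' hw.2

end RData

end Vale.Agent.P244.BB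
end
end

section

section

/-! The bound on `(1-ρ)/A` near a collapsing bolt and the contradiction. -/

open Set Topology Filter
open scoped ContDiff

set_option linter.unusedSimpArgs false

namespace Vale.Agent.P244.BB

namespace RData

variable {T : ℝ} {n : ℕ} {κ : ℝ} (M : RData n κ T) {Ce Y Q₀ P₀ zm t₂ r₁ CL : ℝ}

/-- `g = (1-ρ)/A` -/
noncomputable def gg : smoothAlg T := (1 - 1 * M.F.ρ) * M.F.h

lemma ext_gg {p : ℝ × ℝ} (hp : p ∈ dom T) :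
    ext M.gg p = (1 - ext M.F.ρ p) * ext M.h p := by
  rw [gg, ← ev_eq hp]
  simp only [map_mul, map_sub, map_one, one_mul, ev_eq]
  rfl

/-- coefficient of the zeroth order term -/
noncomputable def Th : smoothAlg T := -(M.F.h * (4 * M.F.Pi
  + M.F.y * (1 - M.F.ρ) * (2 * M.F.m + 4 + 2 * M.F.m * (1 - M.F.ρ))))

lemma dt_gg (hM : M.IsRF) : dt M.gg = M.β * M.D (M.D M.gg) + (((4 : ℕ) : smoothAlg T) * M.F.q
      + M.β * (2 * M.F.m * M.F.ρ * M.F.h)) * M.D M.gg + M.gg * M.Th := by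
  have hid := M.F.Dtg (M.isFlow hM) 1 (by ring) (Derivation.map_one_eq_zero _)
    (Derivation.map_one_eq_zero _)
  have : dt M.gg = M.F.Dt ((1 - 1 * M.F.ρ) * M.F.h) := rfl
  rw [this, hid]
  have e1 : M.F.D = M.D := rfl
  have e2 : M.F.β = M.β := rfl
  rw [e1, e2]
  simp only [FlowAlg.Pi, Th, gg]
  push_cast; ring

lemma ext_Th {p : ℝ × ℝ} (hp : p ∈ dom T) : ext M.Th p = -(ext M.h p * (4 * ext M.F.Pi p
    + ext M.F.y p * (1 - ext M.F.ρ p) * (2 * n + 4 + 2 * n * (1 - ext M.F.ρ p)))) := by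
  rw [Th, ← ev_eq hp]
  simp only [map_mul, map_sub, map_add, map_neg, map_one, map_pow, map_ofNat, ev_eq,
      M.ext_m hp]
  rfl

/-- `Th` is of size `1/r` -/
lemma theta_real {n y ρ q h r ri Y Ce CL ζ₀ : ℝ} (hn : 1 ≤ n) (hy : 0 ≤ y) (hyY : y ≤ Y)
    (hY1 : 1 ≤ Y) (hζ₀ : 2 * (n + 1) * Y * ζ₀ ≤ 1) (hζ₀' : ζ₀ ≤ 1 / 4)
    (he1 : |2 * ρ * q + (2 * n - 1) * (y * ρ ^ 2) + y - 2 * (n + 1)| ≤ Ce * r)
    (hζ : |1 - ρ| ≤ CL * r) (hζ' : CL * r ≤ ζ₀) (hri : 0 < ri)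
    (hrri : r * ri = 1) (hh : ri ^ 2 = h) :
    |-(h * (4 * (q + 2 * n * y * ρ - n * y - (n + 1))
      + y * (1 - ρ) * (2 * n + 4 + 2 * n * (1 - ρ))))| ≤ (36 * (n + 1) * Y * CL + 4 * Ce) * ri := by
  obtain ⟨z1, z2⟩ := zeta_real hn hy hyY hY1 hζ₀ hζ₀' he1 (hζ.trans hζ')
  obtain ⟨ζ, hζd⟩ : ∃ ζ, ζ = 1 - ρ := ⟨_, rfl⟩
  have e : 4 * (q + 2 * n * y * ρ - n * y - (n + 1)) + y * (1 - ρ) * (2 * n + 4 + 2 * n * (1 - ρ))
      = 4 * (q + n * y - (n + 1)) + y * ζ * (4 - 6 * n + 2 * n * ζ) := by rw [hζd]; ring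
  rw [e]
  rw [← hζd] at hζ z2
  have h1 : |y * ζ * (4 - 6 * n + 2 * n * ζ)| ≤ 12 * (n + 1) * Y * |ζ| := by
    rw [abs_mul, abs_mul, abs_of_nonneg hy]
    have h2 : |4 - 6 * n + 2 * n * ζ| ≤ 12 * (n + 1) := by
      have h3 := abs_le.1 (hζ.trans (hζ'.trans hζ₀'))
      rw [abs_le]; constructor <;> nlinarith only [hn, h3]
    have h4 : y * |ζ| ≤ Y * |ζ| := mul_le_mul_of_nonneg_right hyY (abs_nonneg _)
    calc y * |ζ| * |4 - 6 * n + 2 * n * ζ| ≤ Y * |ζ| * (12 * (n + 1)) :=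
          mul_le_mul h4 h2 (abs_nonneg _) (by positivity)
      _ = _ := by ring
  have h5 : |4 * (q + n * y - (n + 1)) + y * ζ * (4 - 6 * n + 2 * n * ζ)|
      ≤ 36 * (n + 1) * Y * |ζ| + 4 * (Ce * r) := by
    have := abs_add_le (4 * (q + n * y - (n + 1))) (y * ζ * (4 - 6 * n + 2 * n * ζ))
    rw [abs_mul, abs_of_pos (by norm_num : (0 : ℝ) < 4)] at this
    linarith only [z2, h1, this]
  have h6 : 36 * (n + 1) * Y * |ζ| ≤ 36 * (n + 1) * Y * (CL * r) :=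
    mul_le_mul_of_nonneg_left hζ (by positivity)
  rw [abs_neg, abs_mul, ← hh, abs_of_pos (by positivity : 0 < ri ^ 2)]
  calc ri ^ 2 * |4 * (q + n * y - (n + 1)) + y * ζ * (4 - 6 * n + 2 * n * ζ)|
      ≤ ri ^ 2 * ((36 * (n + 1) * Y * CL + 4 * Ce) * r) :=
        mul_le_mul_of_nonneg_left (by linarith only [h6, h5]) (by positivity)
    _ = (36 * (n + 1) * Y * CL + 4 * Ce) * ri := by
        linear_combination ((36 * (n + 1) * Y * CL + 4 * Ce) * ri) * hrri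

/-- the evolution inequality for `r` -/
lemma r_real {n β A h r ri ρ q ρ1 y rB Ce CL : ℝ} (hn : 1 ≤ n) (hβ : y = β * h) (hA : A * h = 1)
    (hri : 0 < ri) (hr : 0 < r) (hrri : r * ri = 1) (hh : ri ^ 2 = h)
    (hy2 : y < 3 / 2)
    (he1 : |2 * ρ * q + (2 * n - 1) * (y * ρ ^ 2) + y - 2 * (n + 1)| ≤ Ce * r)
    (he2 : |y * (A * ρ1 + 1 - ρ ^ 2)| ≤ Ce * r) (hrB : |rB| * r ≤ Ce)
    (hζ : |1 - ρ| ≤ CL * r) (hsm1 : 32 * Ce * r ≤ 1) (hsm2 : 32 * n * (CL * r) ≤ 1) :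
    ri ≤ β * (ri * ρ1 + ρ * (-(ρ * ri ^ 3))) + (4 * q + β * (2 * n * ρ * h)) * (ρ * ri)
      - (-(rB * r)) := by
  have hAr : A = r ^ 2 := by
    have h1 : A * h * r ^ 2 = r ^ 2 := by rw [hA, one_mul]
    rw [← hh] at h1
    have h2 : A * ri ^ 2 * r ^ 2 = A := by
      linear_combination (A * (r * ri + 1)) * hrri
    rw [h2] at h1; exact h1
  have hβA : β = y * A := by rw [hβ]; linear_combination (-β) * hA
  have e : β * (ri * ρ1 + ρ * (-(ρ * ri ^ 3))) + (4 * q + β * (2 * n * ρ * h)) * (ρ * ri)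
      - (-(rB * r)) = ri * (y * (A * ρ1 + 1 - ρ ^ 2) - y + 4 * ρ * q + 2 * n * (y * ρ ^ 2)
        + rB * r * r) := by
    rw [hβA, ← hh, hAr]
    linear_combination (-(y * ρ ^ 2 * ri * (r * ri + 1)) + 2 * n * y * ρ ^ 2 * ri * (r * ri + 1)
      - rB * r) * hrri
  rw [e]
  have h1 := abs_le.1 he1
  have h2 := abs_le.1 he2
  have h3 := abs_le.1 hζ
  have h4 : |rB * r * r| ≤ Ce * r := by
    rw [abs_mul, abs_mul, abs_of_pos hr]
    exact mul_le_mul_of_nonneg_right hrB hr.le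
  have h4' := abs_le.1 h4
  obtain ⟨δ, hδ⟩ : ∃ δ, δ = CL * r := ⟨_, rfl⟩
  rw [← hδ] at h3 hsm2
  have hδ0 : 0 ≤ δ := by linarith only [h3]
  have hδ1 : δ ≤ 1 / 32 := by nlinarith only [hsm2, hn]
  have h5 : ρ ^ 2 ≤ 1 + 3 * δ := by nlinarith only [h3, hδ1]
  have h6 : (2 * n - 2) * (y * ρ ^ 2) ≤ (2 * n - 2) * (3 / 2 * (1 + 3 * δ)) := by
    have a1 : y * ρ ^ 2 ≤ 3 / 2 * (1 + 3 * δ) := by
      have := sq_nonneg ρ
      nlinarith only [h5, hy2]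
    exact mul_le_mul_of_nonneg_left a1 (by linarith only [hn])
  have h7 : 1 ≤ y * (A * ρ1 + 1 - ρ ^ 2) - y + 4 * ρ * q + 2 * n * (y * ρ ^ 2) + rB * r * r := by
    linarith only [hn, hy2, hsm1, h1, h2, h4', hsm2, h3, h6]
  calc ri = ri * 1 := by ring
    _ ≤ _ := mul_le_mul_of_nonneg_left h7 hri.le

lemma ext_DD_r {p : ℝ × ℝ} (hp : p ∈ dom T) : ext (M.D (M.D M.r)) p
    = ext M.ri p * ext M.F.ρ1 p + ext M.F.ρ p * (-(ext M.F.ρ p * ext M.ri p ^ 3)) := by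
  rw [D_r, Derivation.leibniz, ext_add, smul_eq_mul, smul_eq_mul, ext_mul, ext_mul,
    M.ext_D_ri hp]
  have : ext (M.D M.F.ρ) p = ext M.F.ρ1 p := rfl
  rw [this]; ring

lemma ext_D_r {p : ℝ × ℝ} : ext (M.D M.r) p = ext M.F.ρ p * ext M.ri p := by
  rw [D_r, ext_mul]

variable {M}

lemma final_real {s g θ r ri β q c X1 X2 rBr B K C5 DDg Dg : ℝ} (hB : 0 < B)
    (hri : 0 < ri) (hr : 0 < r) (hC5 : 0 ≤ C5) (hK : 2 * C5 < K) (hKr : K * r ≤ 1)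
    (h0 : s * g = B * (2 - K * r)) (hθ : |θ| ≤ C5 * ri)
    (hrr : ri ≤ β * X1 + (4 * q + β * c) * X2 - (-rBr))
    (hop : β * (s * DDg + B * (K * X1)) + (4 * q + β * c) * (s * Dg + B * (K * X2)) ≤ 0)
    (hdt : 0 ≤ s * (β * DDg + (4 * q + β * c) * Dg + g * θ) + B * (K * -rBr)) : False := by
  have hK0 : 0 < K := by linarith
  have a1 : |s * g| ≤ 2 * B := by
    rw [h0, abs_mul, abs_of_pos hB]
    have : |2 - K * r| ≤ 2 := by
      have b2 : 0 ≤ K * r := by positivity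
      rw [abs_le]; constructor <;> linarith
    linarith only [mul_nonneg (le_of_lt (sub_pos.2 hB)) (sub_nonneg.2 this)]
  have h6 : s * g * θ ≤ 2 * B * (C5 * ri) := by
    calc s * g * θ ≤ |s * g * θ| := le_abs_self _
      _ = |s * g| * |θ| := abs_mul _ _
      _ ≤ 2 * B * (C5 * ri) := mul_le_mul a1 hθ (abs_nonneg _) (by positivity)
  have h7 : B * K * ri ≤ B * K * (β * X1 + (4 * q + β * c) * X2 - (-rBr)) :=
    mul_le_mul_of_nonneg_left hrr (by positivity)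
  have h8 : 2 * B * (C5 * ri) < B * K * ri := by
    have h9 : 0 < B * ri := by positivity
    have := mul_lt_mul_of_pos_left hK h9
    linarith
  linarith

/-- facts at a point of the region -/
lemma Near.facts (N : Near M Ce Y Q₀ P₀ zm t₂ r₁ CL) {z t : ℝ} (ht : t ∈ Ico t₂ T)
    (hz : z ∈ Icc (-1 : ℝ) zm) (hr : ext M.r (z, t) ≤ r₁)
    (hsm : 32 * CL * ext M.r (z, t) ≤ 1) : ext M.F.y (z, t) < 3 / 2 := by
  have htI : t ∈ Ico 0 T := ⟨N.ht₂.1.trans ht.1, ht.2⟩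
  have hzI : z ∈ Icc (-1 : ℝ) 1 := ⟨hz.1, hz.2.trans N.hzm.2.le⟩
  have hz' : ∀ w ∈ Icc (-1 : ℝ) z, w ∈ Icc (-1 : ℝ) zm := fun w hw => ⟨hw.1, hw.2.trans hz.2⟩
  have hd := N.down t ht z hz hr
  have hCe := N.G.Ce1
  have hS : M.Slice Ce Y Q₀ z t := N.G.slice hzI htI
    (fun w hw => N.ρpos t ht w (hz' w hw) ((hd w hw).trans hr)) (fun w hw => by
      have h1 : Ce * ext M.r (w, t) ≤ Ce * r₁ :=
        mul_le_mul_of_nonneg_left ((hd w hw).trans hr) (by linarith)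
      have := N.hCe
      linarith)
  refine hS.y_lt (CL := CL) (fun w hw => N.ρle t ht w (hz' w hw) ((hd w hw).trans hr))
    (fun w hw => ?_) z ⟨hz.1, le_rfl⟩
  have : CL * ext M.r (w, t) ≤ CL * ext M.r (z, t) :=
    mul_le_mul_of_nonneg_left (hd w hw) N.CL0
  linarith

/-- no touching from above -/
lemma Near.no_touch (N : Near M Ce Y Q₀ P₀ zm t₂ r₁ CL) {s B K r₂ z t : ℝ}
    (hB : 0 < B) (hK : 2 * (36 * (n + 1) * Y * CL + 4 * Ce) < K) (hr₂1 : r₂ ≤ r₁)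
    (h1 : CL * r₂ ≤ cζ n Y) (h2 : 32 * n * (CL * r₂) ≤ 1) (h3 : K * r₂ ≤ 1)
    (ht : t ∈ Ioo t₂ T) (hz : z ∈ Ico (-1 : ℝ) zm) (hr : ext M.r (z, t) < r₂)
    (h0 : ext (cst s * M.gg - cst B * (cst 2 - cst K * M.r)) (z, t) = 0)
    (hdt : 0 ≤ ext (dt (cst s * M.gg - cst B * (cst 2 - cst K * M.r))) (z, t))
    (hmax : ∀ᶠ w in 𝓝[Icc (-1) 1] z, ext (cst s * M.gg - cst B * (cst 2 - cst K * M.r)) (w, t)
      ≤ ext (cst s * M.gg - cst B * (cst 2 - cst K * M.r)) (z, t)) : False := by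
  have hCe := N.G.Ce1
  have hY := N.G.Y1
  have hn' : (1 : ℝ) ≤ n := by exact_mod_cast N.G.hn
  have ht' : t ∈ Ico t₂ T := ⟨ht.1.le, ht.2⟩
  have htI : t ∈ Ico 0 T := ⟨N.ht₂.1.trans ht.1.le, ht.2⟩
  have hzm' : z ∈ Icc (-1 : ℝ) zm := ⟨hz.1, hz.2.le⟩
  have hzI : z ∈ Icc (-1 : ℝ) 1 := ⟨hz.1, hz.2.le.trans N.hzm.2.le⟩
  have hp : (z, t) ∈ dom T := mem_dom hzI htI
  have hrp := M.r_pos hp
  have hri := M.ri_pos hp
  have hrri := M.r_ri_pt hp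
  have hrr₁ : ext M.r (z, t) ≤ r₁ := hr.le.trans hr₂1
  have hCLr : CL * ext M.r (z, t) ≤ CL * r₂ := mul_le_mul_of_nonneg_left hr.le N.CL0
  have hCLr0 : 0 ≤ CL * ext M.r (z, t) := mul_nonneg N.CL0 hrp.le
  have hCer : Ce * ext M.r (z, t) ≤ Ce * r₁ := mul_le_mul_of_nonneg_left hrr₁ (by linarith)
  have hN := N.hCe
  have hsm2 : 32 * n * (CL * ext M.r (z, t)) ≤ 1 := by
    have : 32 * (n : ℝ) * (CL * ext M.r (z, t)) ≤ 32 * n * (CL * r₂) :=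
      mul_le_mul_of_nonneg_left hCLr (by positivity)
    linarith
  have hsm3 : 32 * CL * ext M.r (z, t) ≤ 1 := by nlinarith only [h2, hCLr, hn']
  have hρ := N.ρle t ht' z hzm' hrr₁
  have hy2 := N.facts ht' hzm' hrr₁ hsm3
  have hζ₀ : 2 * ((n : ℝ) + 1) * Y * cζ n Y ≤ 1 := by
    rw [cζ]; field_simp; norm_num
  have hζ₀' : cζ n Y ≤ 1 / 4 := by
    rw [cζ, div_le_div_iff₀ (by positivity) (by norm_num)]
    nlinarith only [hY, hn']
  have hθ := theta_real hn' (M.y_nonneg hp) (N.G.y_le _ hp) hY hζ₀ hζ₀' (N.G.e1 _ hp) hρ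
    (hCLr.trans h1) hri hrri (M.ri_sq hp)
  rw [← M.ext_Pi hp, ← M.ext_Th hp] at hθ
  have hrr := r_real hn' (M.ext_y hp) (M.Ah hp) hri hrp hrri (M.ri_sq hp) hy2
    (N.G.e1 _ hp) (N.G.e2 _ hp) (N.G.rB _ hp) hρ (by linarith) hsm2
  -- derivatives of the test function
  have cs : ext (cst s : smoothAlg T) (z, t) = s := ext_cst _ hp
  have cB : ext (cst B : smoothAlg T) (z, t) = B := ext_cst _ hp
  have cK : ext (cst K : smoothAlg T) (z, t) = K := ext_cst _ hp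
  have c2 : ext (cst 2 : smoothAlg T) (z, t) = 2 := ext_cst _ hp
  have dcst : ∀ c : ℝ, dt (cst c : smoothAlg T) = 0 := fun c =>
    (pdD (T := T) (0, 1)).map_algebraMap c
  have edt : dt (cst s * M.gg - cst B * (cst 2 - cst K * M.r))
      = cst s * dt M.gg + cst B * (cst K * dt M.r) := by
    have e1 : dt (cst s * M.gg - cst B * (cst 2 - cst K * M.r))
        = dt (cst s * M.gg) - dt (cst B * (cst 2 - cst K * M.r)) :=
      (pdD (T := T) (0, 1)).map_sub _ _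
    have e2 : dt (cst 2 - cst K * M.r) = dt (cst 2 : smoothAlg T) - dt (cst K * M.r) :=
      (pdD (T := T) (0, 1)).map_sub _ _
    rw [e1, dt_mul, dt_mul, e2, dt_mul, dcst, dcst, dcst, dcst]; ring
  have eD : M.D (cst s * M.gg - cst B * (cst 2 - cst K * M.r))
      = cst s * M.D M.gg + cst B * (cst K * M.D M.r) := by
    simp only [map_sub, Derivation.leibniz, smul_eq_mul, cst_D]; ring
  have eDD : M.D (M.D (cst s * M.gg - cst B * (cst 2 - cst K * M.r)))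
      = cst s * M.D (M.D M.gg) + cst B * (cst K * M.D (M.D M.r)) := by
    rw [eD]
    simp only [map_add, Derivation.leibniz, smul_eq_mul, cst_D]; ring
  have hop := M.op_nonpos (cst s * M.gg - cst B * (cst 2 - cst K * M.r))
    (2 * M.F.m * M.F.ρ * M.F.h) ((4 : ℕ) : ℝ) (by simp) hzI htI hmax
  rw [eDD, eD] at hop
  rw [edt] at hdt
  have hgg := M.hf_of (M.dt_gg N.G.rf) _ hp
  have ec : ext (2 * M.F.m * M.F.ρ * M.F.h) (z, t)
      = 2 * n * ext M.F.ρ (z, t) * ext M.h (z, t) := by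
    rw [← ev_eq hp]
    simp only [map_mul, map_ofNat, ev_eq, M.ext_m hp]
    rfl
  have eN : ext (M.gg * M.Th) (z, t) = ext M.gg (z, t) * ext M.Th (z, t) := ext_mul _ _ _
  rw [ec] at hop hgg
  simp only [ext_add, ext_mul, cs, cB, cK] at hop hdt
  rw [hgg, eN, M.ext_dt_r N.G.rf hp] at hdt
  rw [M.ext_DD_r hp, M.ext_D_r] at hop
  simp only [ext_sub, ext_mul, cs, cB, cK, c2] at h0
  push_cast at hop hdt
  have hKr : K * ext M.r (z, t) ≤ 1 := by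
    have hC50 : 0 ≤ 36 * ((n : ℝ) + 1) * Y * CL + 4 * Ce := by
      have := N.CL0
      (clear * - hn' hY this hCe; positivity)
    have hK0 : 0 < K := by linarith only [hK, hC50]
    exact (mul_le_mul_of_nonneg_left hr.le hK0.le).trans h3
  have hC50 : 0 ≤ 36 * ((n : ℝ) + 1) * Y * CL + 4 * Ce := by
    have := N.CL0
    (clear * - hn' hY this hCe; positivity)
  exact final_real hB hri hrp hC50 hK hKr (by linarith only [h0]) hθ hrr hop hdt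

/-- the bound for `|(1-ρ)/A|` -/
theorem Near.gg_bound (N : Near M Ce Y Q₀ P₀ zm t₂ r₁ CL) :
    ∃ B r₂ : ℝ, 0 ≤ B ∧ 0 < r₂ ∧ ∀ t ∈ Ico t₂ T, ext M.r (-1, t) ≤ r₂ →
      |ext M.gg (-1, t)| ≤ B := by
  have hCe := N.G.Ce1
  have hY := N.G.Y1
  have hCL := N.CL0
  have hr₁ := N.hr₁
  have hn' : (1 : ℝ) ≤ n := by exact_mod_cast N.G.hn
  have hζ0 : 0 < cζ n Y := by rw [cζ]; positivity
  obtain ⟨K, hK⟩ : ∃ K, K = 2 * (36 * ((n : ℝ) + 1) * Y * CL + 4 * Ce) + 1 := ⟨_, rfl⟩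
  have hK0 : 0 < K := by rw [hK]; positivity
  obtain ⟨r₂, hr₂⟩ : ∃ r₂, r₂ = min r₁ (min (cζ n Y / (CL + 1)) (min (1 / (32 * n * (CL + 1)))
    (1 / K))) := ⟨_, rfl⟩
  have hr₂0 : 0 < r₂ := by rw [hr₂]; positivity
  have hr₂1 : r₂ ≤ r₁ := by rw [hr₂]; exact min_le_left _ _
  have h1 : CL * r₂ ≤ cζ n Y := by
    have : r₂ ≤ cζ n Y / (CL + 1) := by
      rw [hr₂]; exact (min_le_right _ _).trans (min_le_left _ _)
    rw [le_div_iff₀ (by positivity)] at this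
    linarith
  have h2 : 32 * n * (CL * r₂) ≤ 1 := by
    have : r₂ ≤ 1 / (32 * n * (CL + 1)) := by
      rw [hr₂]; exact (min_le_right _ _).trans ((min_le_right _ _).trans (min_le_left _ _))
    rw [le_div_iff₀ (by positivity)] at this
    have : 0 ≤ 32 * (n : ℝ) * r₂ := by positivity
    linarith
  have h3 : K * r₂ ≤ 1 := by
    have : r₂ ≤ 1 / K := by
      rw [hr₂]; exact (min_le_right _ _).trans ((min_le_right _ _).trans (min_le_right _ _))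
    rw [le_div_iff₀ hK0] at this
    linarith
  obtain ⟨Cg, hCg, hg⟩ := bdd_slice M.gg N.ht₂.2
  obtain ⟨B, hB⟩ : ∃ B, B = Cg + CL / r₂ + 1 := ⟨_, rfl⟩
  have hB0 : 0 < B := by rw [hB]; positivity
  have hdomz : ∀ t ∈ Ico t₂ T, ∀ z ∈ Icc (-1 : ℝ) zm, (z, t) ∈ dom T := fun t ht z hz =>
    mem_dom ⟨hz.1, hz.2.trans N.hzm.2.le⟩ ⟨N.ht₂.1.trans ht.1, ht.2⟩
  have hrA : ∀ t ∈ Ico t₂ T, ∀ z ∈ Icc (-1 : ℝ) zm, ext M.A (z, t) ≤ r₂ ^ 2 →
      ext M.r (z, t) ≤ r₂ := by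
    intro t ht z hz hA
    rw [M.ext_r (hdomz t ht z hz), ← Real.sqrt_sq hr₂0.le]
    exact Real.sqrt_le_sqrt hA
  have hrA' : ∀ t ∈ Ico t₂ T, ∀ z ∈ Icc (-1 : ℝ) zm, ext M.A (z, t) < r₂ ^ 2 →
      ext M.r (z, t) < r₂ := by
    intro t ht z hz hA
    rw [M.ext_r (hdomz t ht z hz), ← Real.sqrt_sq hr₂0.le]
    exact Real.sqrt_lt_sqrt (M.Apos _ (hdomz t ht z hz)).le hA
  -- value of the test function
  have hval : ∀ s : ℝ, ∀ p ∈ dom T, ext (cst s * M.gg - cst B * (cst 2 - cst K * M.r)) p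
      = s * ext M.gg p - B * (2 - K * ext M.r p) := by
    intro s p hp
    simp only [ext_sub, ext_mul, ext_cst _ hp]
  have hlow : ∀ t ∈ Ico t₂ T, ∀ z ∈ Icc (-1 : ℝ) zm, ext M.r (z, t) ≤ r₂ →
      B ≤ B * (2 - K * ext M.r (z, t)) := by
    intro t ht z hz hr
    have : K * ext M.r (z, t) ≤ K * r₂ := mul_le_mul_of_nonneg_left hr hK0.le
    nlinarith only [h3, hB0, this]
  have hneg : ∀ s : ℝ, |s| = 1 → ∀ t ∈ Ico t₂ T, ∀ z ∈ Icc (-1 : ℝ) zm,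
      ext M.A (z, t) ≤ r₂ ^ 2 →
      ext (cst s * M.gg - cst B * (cst 2 - cst K * M.r)) (z, t) < 0 := by
    intro s hs
    refine region_touch _ N.hzm N.ht₂ ?_ ?_ ?_ ?_
    · intro t ht
      have hp := hdomz t ht zm ⟨N.hzm.1.le, le_rfl⟩
      rw [← M.r_sq hp]
      exact pow_lt_pow_left₀ (lt_of_le_of_lt hr₂1 (N.hm t ht)) hr₂0.le (by norm_num)
    · intro z hz hA
      have ht : t₂ ∈ Ico t₂ T := ⟨le_rfl, N.ht₂.2⟩
      have hp := hdomz t₂ ht z hz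
      rw [hval s _ hp]
      have k1 := hlow t₂ ht z hz (hrA t₂ ht z hz hA)
      have k2 := hg z hp.1 t₂ ⟨N.ht₂.1, le_rfl⟩
      have k3 : s * ext M.gg (z, t₂) ≤ Cg := by
        refine (le_abs_self _).trans ?_
        rw [abs_mul, hs, one_mul]; exact k2
      have k4 : 0 ≤ CL / r₂ := by positivity
      linarith
    · intro t ht z hz hA
      have hp := hdomz t ht z hz
      rw [hval s _ hp]
      have k1 := hlow t ht z hz (hrA t ht z hz hA.le)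
      have hr : ext M.r (z, t) = r₂ := by
        rw [M.ext_r hp, hA]; exact Real.sqrt_sq hr₂0.le
      have k2 := N.ρle t ht z hz (by rw [hr]; exact hr₂1)
      have hh : ext M.h (z, t) = 1 / r₂ ^ 2 := by rw [M.ext_h hp, hA, one_div]
      have k3 : s * ext M.gg (z, t) ≤ CL / r₂ := by
        refine (le_abs_self _).trans ?_
        rw [abs_mul, hs, one_mul, M.ext_gg hp, abs_mul, hh, abs_of_pos (by positivity :
          0 < 1 / r₂ ^ 2)]
        rw [hr] at k2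
        calc |1 - ext M.F.ρ (z, t)| * (1 / r₂ ^ 2) ≤ CL * r₂ * (1 / r₂ ^ 2) :=
              mul_le_mul_of_nonneg_right k2 (by positivity)
          _ = CL / r₂ := by field_simp
      linarith only [hCg, hB, k1, k3]
    · intro t ht z hz hA h0 hdt hmax
      exact N.no_touch hB0 (by rw [hK]; linarith) hr₂1 h1 h2 h3 ht hz
        (hrA' t ⟨ht.1.le, ht.2⟩ z ⟨hz.1, hz.2.le⟩ hA) h0 hdt hmax
  refine ⟨2 * B, r₂, by positivity, hr₂0, ?_⟩
  intro t ht hr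
  have hm1 : (-1 : ℝ) ∈ Icc (-1 : ℝ) zm := ⟨le_rfl, N.hzm.1.le⟩
  have hp := hdomz t ht (-1) hm1
  have hA : ext M.A (-1, t) ≤ r₂ ^ 2 := by
    rw [← M.r_sq hp]
    exact pow_le_pow_left₀ (M.r_pos hp).le hr 2
  have k1 := hneg 1 (by norm_num) t ht (-1) hm1 hA
  have k2 := hneg (-1) (by norm_num) t ht (-1) hm1 hA
  rw [hval _ _ hp] at k1 k2
  have k3 : 0 < B * (K * ext M.r (-1, t)) := by
    have := M.r_pos hp
    positivity
  rw [abs_le]; constructor <;> linarith only [k2, k3, k1]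

/-- a bolt cannot collapse -/
theorem Glob.no_collapse_left (G : M.Glob Ce Y Q₀ P₀)
    (hcol : ∀ t ∈ Ico 0 T, ext M.r (-1, t) ≤ Ce * (T - t)) : False := by
  obtain ⟨zm, t₂, r₁, CL, N⟩ := G.near hcol
  obtain ⟨B, r₂, hB, hr₂, hgg⟩ := N.gg_bound
  have hCe := G.Ce1
  have hn' : (1 : ℝ) ≤ n := by exact_mod_cast G.hn
  obtain ⟨x₃, hx₃⟩ : ∃ x₃, x₃ = min (T - t₂) (r₂ / Ce) := ⟨_, rfl⟩
  have hx₃0 : 0 < x₃ := by
    have : 0 < T - t₂ := by linarith [N.ht₂.2]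
    rw [hx₃]; positivity
  have hx₃a : x₃ ≤ T - t₂ := by rw [hx₃]; exact min_le_left _ _
  have hx₃b : Ce * x₃ ≤ r₂ := by
    have : x₃ ≤ r₂ / Ce := by rw [hx₃]; exact min_le_right _ _
    rw [le_div_iff₀ (by positivity)] at this
    linarith
  have hm1 : (-1 : ℝ) ∈ Icc (-1 : ℝ) 1 := by norm_num
  have hb : ∀ t ∈ Ico (T - x₃) T, -(4 * (n + 1) * B * ext M.A (-1, t))
      ≤ ext (dt M.A) (-1, t) := by
    intro t ht
    have htI : t ∈ Ico 0 T := ⟨by linarith [ht.1, N.ht₂.1], ht.2⟩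
    have ht2 : t ∈ Ico t₂ T := ⟨by linarith [ht.1], ht.2⟩
    have hp : ((-1 : ℝ), t) ∈ dom T := mem_dom hm1 htI
    have hr : ext M.r (-1, t) ≤ r₂ := by
      refine (hcol t htI).trans (le_trans ?_ hx₃b)
      exact mul_le_mul_of_nonneg_left (by linarith [ht.1]) (by linarith)
    have h1 := hgg t ht2 hr
    have hid := M.F.DtA (M.isFlow G.rf)
    have h2 := pt _ _ hid hp
    simp only [map_mul, map_sub, map_add, map_neg, map_one, map_pow, map_ofNat, ev_eq,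
      M.ext_m hp] at h2
    have e1 : ext M.F.β (-1, t) = 0 := M.βl t htI
    have e2 : ext M.F.y (-1, t) = 0 := by rw [M.ext_y hp, M.βl t htI, zero_mul]
    have e3 : ext (M.F.D M.F.A) (-1, t) = 2 * ext M.F.ρ (-1, t) := M.ext_DA hp
    have e4 : ext M.F.q (-1, t) = κ := M.q_left htI
    rw [e1, e2, e3, e4] at h2
    have hκ := N.hκ
    have h3 : ext (dt M.A) (-1, t) = -(4 * (n + 1) * (1 - ext M.F.ρ (-1, t))) := by
      have : ext (dt M.A) (-1, t) = ext (M.F.Dt M.F.A) (-1, t) := rfl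
      rw [this, h2]
      linear_combination (4 * ext M.F.ρ (-1, t)) * hκ
    rw [M.ext_gg hp] at h1
    have h4 := M.Ah hp
    have h5 := M.Apos _ hp
    have h6 : 1 - ext M.F.ρ (-1, t) ≤ B * ext M.A (-1, t) := by
      have : (1 - ext M.F.ρ (-1, t)) * ext M.h (-1, t) * ext M.A (-1, t) ≤ B * ext M.A (-1, t) :=
        mul_le_mul_of_nonneg_right ((le_abs_self _).trans h1) h5.le
      have e : (1 - ext M.F.ρ (-1, t)) * ext M.h (-1, t) * ext M.A (-1, t)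
          = (1 - ext M.F.ρ (-1, t)) := by
        linear_combination (1 - ext M.F.ρ (-1, t)) * h4
      linarith only [this, e]
    rw [h3]
    nlinarith only [h6]
  -- exponential lower bound
  obtain ⟨k, hk⟩ : ∃ k, k = 4 * ((n : ℝ) + 1) * B := ⟨_, rfl⟩
  have hk0 : 0 ≤ k := by rw [hk]; positivity
  have hmono : MonotoneOn (fun s => ext M.A (-1, s) * Real.exp (k * s)) (Ico (T - x₃) T) := by
    have hsub : Ico (T - x₃) T ⊆ Ico 0 T := fun s hs => ⟨by linarith [hs.1, N.ht₂.1], hs.2⟩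
    have hd : ∀ s ∈ Ico (T - x₃) T, HasDerivWithinAt (fun s => ext M.A (-1, s) * Real.exp (k * s))
        (ext (dt M.A) (-1, s) * Real.exp (k * s)
          + ext M.A (-1, s) * (Real.exp (k * s) * (k * 1))) (Ico (T - x₃) T) s := by
      intro s hs
      have h1 := (hasDerivWithinAt_t M.A hm1 (hsub hs)).mono hsub
      have h2 : HasDerivWithinAt (fun s => Real.exp (k * s)) (Real.exp (k * s) * (k * 1))
          (Ico (T - x₃) T) s := (((hasDerivAt_id s).const_mul k).exp).hasDerivWithinAt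
      exact h1.mul h2
    refine monotoneOn_of_deriv_nonneg (convex_Ico _ _)
      (fun s hs => (hd s hs).continuousWithinAt) ?_ ?_
    · intro s hs
      exact ((hd s (interior_subset hs)).mono interior_subset).differentiableWithinAt
    · intro s hs
      have hs' := interior_subset hs
      rw [interior_Ico] at hs
      rw [((hd s hs').hasDerivAt (Ico_mem_nhds hs.1 hs.2)).deriv]
      have h1 := hb s hs'
      have h2 : ext (dt M.A) (-1, s) * Real.exp (k * s)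
          + ext M.A (-1, s) * (Real.exp (k * s) * (k * 1))
          = Real.exp (k * s) * (ext (dt M.A) (-1, s) + k * ext M.A (-1, s)) := by ring
      rw [h2]
      have h3 : 0 ≤ ext (dt M.A) (-1, s) + k * ext M.A (-1, s) := by rw [hk]; linarith
      have := Real.exp_pos (k * s)
      positivity
  have hT3 : T - x₃ ∈ Ico (T - x₃) T := ⟨le_rfl, by linarith⟩
  have hT3' : T - x₃ ∈ Ico 0 T := ⟨by linarith [N.ht₂.1], by linarith⟩
  have hA3 := M.Apos _ (mem_dom hm1 hT3')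
  obtain ⟨c, hc⟩ : ∃ c, c = ext M.A (-1, T - x₃) * Real.exp (-(k * x₃)) := ⟨_, rfl⟩
  have hc0 : 0 < c := by rw [hc]; positivity
  have hlow : ∀ t ∈ Ico (T - x₃) T, c ≤ ext M.A (-1, t) := by
    intro t ht
    have h1 := hmono hT3 ht ht.1
    simp only at h1
    have h2 : ext M.A (-1, T - x₃) * Real.exp (k * (T - x₃) - k * t) ≤ ext M.A (-1, t) := by
      rw [Real.exp_sub, ← mul_div_assoc, div_le_iff₀ (Real.exp_pos _)]
      exact h1
    refine le_trans ?_ h2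
    rw [hc]
    have h4 : -(k * x₃) ≤ k * (T - x₃) - k * t := by
      have : k * t ≤ k * T := mul_le_mul_of_nonneg_left ht.2.le hk0
      linarith
    gcongr
  -- contradiction near `T`
  obtain ⟨x, hx⟩ : ∃ x, x = min x₃ (√c / (2 * Ce)) := ⟨_, rfl⟩
  have hsc : 0 < √c := Real.sqrt_pos.2 hc0
  have hx0 : 0 < x := by rw [hx]; positivity
  have hxa : x ≤ x₃ := by rw [hx]; exact min_le_left _ _
  have hxb : Ce * x ≤ √c / 2 := by
    have : x ≤ √c / (2 * Ce) := by rw [hx]; exact min_le_right _ _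
    rw [le_div_iff₀ (by positivity)] at this
    linarith
  have htx : T - x ∈ Ico (T - x₃) T := ⟨by linarith, by linarith⟩
  have htx' : T - x ∈ Ico 0 T := ⟨by linarith [N.ht₂.1], by linarith⟩
  have h1 := hlow _ htx
  have h2 := hcol _ htx'
  rw [show T - (T - x) = x by ring] at h2
  have hp := mem_dom hm1 htx'
  rw [← M.r_sq hp] at h1
  have h3 := M.r_pos hp
  have h4 : ext M.r (-1, T - x) ^ 2 ≤ (√c / 2) ^ 2 := pow_le_pow_left₀ h3.le (h2.trans hxb) 2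
  have h5 : (√c / 2) ^ 2 = c / 4 := by
    rw [div_pow, Real.sq_sqrt hc0.le]; norm_num
  linarith only [hc0, h1, h4, h5]

end RData

end Vale.Agent.P244.BB
end
end

section

section

/-! The general theorem for flows with two bolts. -/

open Set Topology Filter
open scoped ContDiff

set_option linter.unusedSimpArgs false

namespace Vale.Agent.P244.BB

namespace RData

variable {T : ℝ} {n : ℕ} {κ : ℝ} {M : RData n κ T} {Ce Y Q₀ P₀ : ℝ}

/-- the left bolt stays away from zero size -/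
lemma Glob.left_ge (G : M.Glob Ce Y Q₀ P₀) :
    ∃ c : ℝ, 0 < c ∧ ∀ t ∈ Ico 0 T, c ≤ ext M.r (-1, t) := by
  have hCe := G.Ce1
  have hm1 : (-1 : ℝ) ∈ Icc (-1 : ℝ) 1 := by norm_num
  obtain ⟨tl, htl, hl⟩ : ∃ tl ∈ Ico 0 T, Ce * (T - tl) < ext M.r (-1, tl) := by
    by_contra hcon
    push Not at hcon
    exact G.no_collapse_left hcon
  obtain ⟨C, hC, hb⟩ := bdd_slice M.ri htl.2
  refine ⟨min (1 / (C + 1)) (ext M.r (-1, tl) - Ce * (T - tl)),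
    lt_min (by positivity) (by linarith), ?_⟩
  intro t ht
  rcases le_or_gt t tl with h | h
  · have hp : ((-1 : ℝ), t) ∈ dom T := mem_dom hm1 ht
    have h1 := (abs_le.1 (hb (-1) hm1 t ⟨ht.1, h⟩)).2
    have h2 := M.r_ri_pt hp
    have h3 := M.r_pos hp
    refine (min_le_left _ _).trans ?_
    rw [div_le_iff₀ (by linarith)]
    linarith only [mul_nonneg (le_of_lt (sub_pos.2 h3)) (sub_nonneg.2 h1), h3, h2]
  · have h1 := (abs_le.1 (G.lip hm1 htl.1 h.le ht.2)).1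
    refine (min_le_right _ _).trans ?_
    have h2 : Ce * (t - tl) ≤ Ce * (T - tl) :=
      mul_le_mul_of_nonneg_left (by linarith [ht.2]) (by linarith)
    linarith

lemma ext_DDA {p : ℝ × ℝ} (hp : p ∈ dom T) : ext (M.D (M.D M.A)) p = 2 * ext M.F.ρ1 p := by
  have e : M.D M.A = 2 * M.F.ρ := M.F.DA
  rw [e]
  have h1 : M.D (2 * M.F.ρ) = 2 * M.F.ρ1 := by
    have e2 : M.D (2 * M.F.ρ) = M.F.D (2 * M.F.ρ) := rfl
    rw [e2, Derivation.leibniz, smul_eq_mul, smul_eq_mul, D_2, mul_zero, add_zero]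
    rfl
  rw [h1, ← ev_eq hp]
  simp only [map_mul, map_ofNat, ev_eq]

/-- bounded scalar curvature bounds the size of the base from below -/
theorem A_ge (M : RData n κ T) (hM : M.IsRF) (hn : 1 ≤ n) (hT : 0 < T) {C₀ : ℝ}
    (hR : ∀ p ∈ dom T, |ext M.F.sc p| ≤ C₀) :
    ∃ c : ℝ, 0 < c ∧ ∀ p ∈ dom T, c ≤ ext M.A p := by
  obtain ⟨Ce, Y, Q₀, P₀, G⟩ := M.exists_glob hM hn hT hR
  have hCe := G.Ce1
  obtain ⟨cl, hcl, hl⟩ := G.left_ge
  obtain ⟨cr, hcr, hr⟩ := G.refl.left_ge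
  have hm1 : (-1 : ℝ) ∈ Icc (-1 : ℝ) 1 := by norm_num
  have h1 : (1 : ℝ) ∈ Icc (-1 : ℝ) 1 := by norm_num
  have hr' : ∀ t ∈ Ico 0 T, cr ≤ ext M.r (1, t) := by
    intro t ht
    have := hr t ht
    rwa [reflect_r (mem_dom hm1 ht), neg_neg] at this
  obtain ⟨δ, hδ⟩ : ∃ δ, δ = min (1 / (32 * Ce) ^ 2) (min (cl ^ 2 / 2) (cr ^ 2 / 2)) := ⟨_, rfl⟩
  have hδ0 : 0 < δ := by rw [hδ]; positivity
  have hδ1 : δ ≤ 1 / (32 * Ce) ^ 2 := by rw [hδ]; exact min_le_left _ _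
  have hδ2 : δ ≤ cl ^ 2 / 2 := by rw [hδ]; exact (min_le_right _ _).trans (min_le_left _ _)
  have hδ3 : δ ≤ cr ^ 2 / 2 := by rw [hδ]; exact (min_le_right _ _).trans (min_le_right _ _)
  refine M.A_ge_of hT hδ0 (G := 0) le_rfl ?_ ?_ ?_
  · intro z hz t ht hA hmin
    have hzI := Ioo_subset_Icc_self hz
    have hp : (z, t) ∈ dom T := mem_dom hzI ht
    have hmax : ∀ᶠ w in 𝓝[Icc (-1) 1] z, ext (-M.A) (w, t) ≤ ext (-M.A) (z, t) := by
      filter_upwards [self_mem_nhdsWithin] with w hw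
      rw [ext_neg, ext_neg]
      linarith only [hmin w hw]
    have hop := M.op_nonpos (-M.A) 0 0 le_rfl hzI ht hmax
    rw [map_neg, map_neg, ext_neg, ext_neg, ext_DDA hp, ext_zero] at hop
    have hβ := M.βpos z hz t ht
    have hρ1 : 0 ≤ ext M.F.ρ1 (z, t) := by
      by_contra hcon
      push Not at hcon
      have := mul_neg_of_pos_of_neg hβ hcon
      linarith only [hop, this]
    have hmin' : IsLocalMin (fun w => ext M.A (w, t)) z := by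
      filter_upwards [Icc_mem_nhds hz.1 hz.2] with w hw
      exact hmin w hw
    have h2 := hmin'.hasDerivAt_eq_zero (hasDerivAt_z M.A hz ht)
    have hρ : ext M.F.ρ (z, t) = 0 := by rw [M.ext_ρ hp, h2, zero_div]
    refine G.no_min hp ?_ hρ hρ1
    have h3 : ext M.r (z, t) ≤ 1 / (32 * Ce) := by
      rw [M.ext_r hp, Real.sqrt_le_left (by positivity), div_pow, one_pow]
      exact hA.trans hδ1
    rw [le_div_iff₀ (by positivity)] at h3
    linarith only [h3]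
  · intro t ht hA _
    exfalso
    have hp : ((-1 : ℝ), t) ∈ dom T := mem_dom hm1 ht
    have h2 := hl t ht
    rw [← M.r_sq hp] at hA
    have h3 : cl ^ 2 ≤ ext M.r (-1, t) ^ 2 := pow_le_pow_left₀ hcl.le h2 2
    have : 0 < cl ^ 2 := by positivity
    linarith only [this, h3, hA, hδ2]
  · intro t ht hA _
    exfalso
    have hp : ((1 : ℝ), t) ∈ dom T := mem_dom h1 ht
    have h2 := hr' t ht
    rw [← M.r_sq hp] at hA
    have h3 : cr ^ 2 ≤ ext M.r (1, t) ^ 2 := pow_le_pow_left₀ hcr.le h2 2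
    have : 0 < cr ^ 2 := by positivity
    linarith

end RData

end Vale.Agent.P244.BB
end
end
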